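import Crest.Agent.R174.TDefs

/-!
# Row 174: the logarithmic series and `arg (1 - w)`

`hasSum_dvd`: `Complex.hasSum_taylorSeries_neg_log` and `Function.Injective.hasSum_iff` for `i ↦ L * i`.
`1 - exp (-iψ) = 2 sin (ψ/2) exp (i (π - ψ)/2)`; `Complex.continuousAt_arg` on the slit plane.
-/

set_option autoImplicit false
set_option linter.unusedSectionVars false
set_option linter.unusedVariables false

open Matrix Finset
open scoped ComplexConjugate

namespace Crest.Agent.R174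

noncomputable section

open Filter Topology

theorem hasSum_dvd {L : ℕ} (hL : 0 < L) {w : ℂ} (hw : ‖w‖ < 1) :
    HasSum (fun j : ℕ => if L ∣ j then w ^ (j / L) / (j : ℂ) else 0) (-Complex.log (1 - w) / L) := by
  have hinj : Function.Injective fun i : ℕ => L * i := fun a b h => Nat.eq_of_mul_eq_mul_left hL h
  rw [← hinj.hasSum_iff fun j hj => if_neg fun ⟨i, hi⟩ => hj ⟨i, hi.symm⟩]
  refine (congrArg (HasSum · _) (funext fun i => ?_)).mpr
    ((Complex.hasSum_taylorSeries_neg_log hw).div_const (L : ℂ))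
  simp only [Function.comp, dvd_mul_right, if_true, Nat.mul_div_cancel_left i hL, Nat.cast_mul]
  rw [div_div, mul_comm]

/-- real form: `-∑ r^j/j · Im (ζ^(j/L)) = arg (1 - r^L ζ) / L` -/
theorem hasSum_arg {L : ℕ} (hL : 0 < L) {r : ℝ} (hr0 : 0 ≤ r) (hr1 : r < 1) {ζ : ℂ} (hζ : ‖ζ‖ = 1) :
    HasSum (fun j : ℕ => r ^ j / j * (if L ∣ j then ζ ^ (j / L) else 0).im)
      (-(Complex.arg (1 - (r : ℂ) ^ L * ζ) / L)) := by
  have hw : ‖(r : ℂ) ^ L * ζ‖ < 1 := by
    rw [norm_mul, hζ, mul_one, norm_pow, Complex.norm_real, Real.norm_of_nonneg hr0]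
    exact pow_lt_one₀ hr0 hr1 hL.ne'
  convert Complex.hasSum_im (hasSum_dvd hL hw) using 1
  · funext j
    split_ifs with h
    · obtain ⟨i, rfl⟩ := h
      rw [Nat.mul_div_cancel_left i hL, mul_pow, ← pow_mul, ← Complex.im_ofReal_mul]
      congr 1
      push_cast; ring
    · simp
  · rw [Complex.div_natCast_im, Complex.neg_im, Complex.log_im, neg_div]

theorem arg_one_sub_ge {w : ℂ} (hw : ‖w‖ < 1) : -(Real.pi / 2) ≤ Complex.arg (1 - w) := by
  refine Complex.neg_pi_div_two_le_arg_iff.2 (Or.inl ?_)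
  have := (Complex.re_le_norm w).trans hw.le
  simpa using this

theorem arg_one_sub_nonpos {r η : ℝ} (hr0 : 0 ≤ r) (hr1 : r < 1) (h0 : 0 ≤ η) (h1 : η ≤ Real.pi) :
    Complex.arg (1 - (r : ℂ) * Complex.exp (η * Complex.I)) ≤ 0 := by
  have him : (1 - (r : ℂ) * Complex.exp (η * Complex.I)).im ≤ 0 := by
    simpa [Complex.exp_ofReal_mul_I_im] using
      mul_nonneg hr0 (Real.sin_nonneg_of_nonneg_of_le_pi h0 h1)
  have hre : 0 ≤ (1 - (r : ℂ) * Complex.exp (η * Complex.I)).re := by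
    simp only [Complex.sub_re, Complex.one_re, Complex.re_ofReal_mul, Complex.exp_ofReal_mul_I_re]
    nlinarith [Real.cos_le_one η]
  rcases him.eq_or_lt with h | h
  · exact (Complex.arg_eq_zero_iff.2 ⟨hre, h⟩).le
  · exact (Complex.arg_neg_iff.2 h).le

theorem arg_tendsto (L : ℕ) {θ : ℝ} (h0 : -(Real.pi / 2) < θ) (h1 : θ < Real.pi / 2) :
    Tendsto (fun r : ℝ => Complex.arg (1 - (r : ℂ) ^ L * -Complex.exp (2 * (θ * Complex.I))))
      (𝓝[<] 1) (𝓝 θ) := by
  have hc : 0 < Real.cos θ := Real.cos_pos_of_mem_Ioo ⟨h0, h1⟩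
  have e : 1 - ((1 : ℝ) : ℂ) ^ L * -Complex.exp (2 * (θ * Complex.I)) =
      ((2 * Real.cos θ : ℝ) : ℂ) * (Complex.cos θ + Complex.sin θ * Complex.I) := by
    rw [two_mul, Complex.exp_add, Complex.exp_mul_I]
    push_cast
    linear_combination (Complex.sin θ) ^ 2 * Complex.I_sq - Complex.sin_sq_add_cos_sq θ
  have ha : Complex.arg (1 - ((1 : ℝ) : ℂ) ^ L * -Complex.exp (2 * (θ * Complex.I))) = θ := by
    rw [e]
    exact Complex.arg_mul_cos_add_sin_mul_I (by positivity)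
      ⟨by linarith [Real.pi_pos], by linarith [Real.pi_pos]⟩
  have hs : 1 - ((1 : ℝ) : ℂ) ^ L * -Complex.exp (2 * (θ * Complex.I)) ∈ Complex.slitPlane := by
    rw [e]
    left
    rw [Complex.re_ofReal_mul, ← Complex.exp_mul_I, Complex.exp_ofReal_mul_I_re]
    positivity
  have hcont : ContinuousAt (fun r : ℝ =>
      Complex.arg (1 - (r : ℂ) ^ L * -Complex.exp (2 * (θ * Complex.I)))) 1 :=
    ContinuousAt.comp (f := fun r : ℝ => 1 - (r : ℂ) ^ L * -Complex.exp (2 * (θ * Complex.I)))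
      (Complex.continuousAt_arg hs) (by fun_prop)
  have := hcont.tendsto
  rw [ha] at this
  exact this.mono_left nhdsWithin_le_nhds

theorem tendsto_arg_neg (L : ℕ) {ψ : ℝ} (h0 : 0 < ψ) (h1 : ψ < 2 * Real.pi) :
    Tendsto (fun r : ℝ => Complex.arg (1 - (r : ℂ) ^ L * Complex.exp (-(ψ * Complex.I))))
      (𝓝[<] 1) (𝓝 ((Real.pi - ψ) / 2)) := by
  have e : Complex.exp (-(ψ * Complex.I)) =
      -Complex.exp (2 * ((((Real.pi - ψ) / 2 : ℝ) : ℂ) * Complex.I)) := by
    rw [show 2 * ((((Real.pi - ψ) / 2 : ℝ) : ℂ) * Complex.I) =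
      -(ψ * Complex.I) + Real.pi * Complex.I by push_cast; ring, Complex.exp_add_pi_mul_I, neg_neg]
  rw [e]
  exact arg_tendsto L (by linarith) (by linarith)

theorem tendsto_arg_pos {ψ : ℝ} (h0 : 0 < ψ) (h1 : ψ < 2 * Real.pi) :
    Tendsto (fun r : ℝ => Complex.arg (1 - (r : ℂ) * Complex.exp (ψ * Complex.I)))
      (𝓝[<] 1) (𝓝 ((ψ - Real.pi) / 2)) := by
  have e : Complex.exp (ψ * Complex.I) =
      -Complex.exp (2 * ((((ψ - Real.pi) / 2 : ℝ) : ℂ) * Complex.I)) := by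
    rw [show 2 * ((((ψ - Real.pi) / 2 : ℝ) : ℂ) * Complex.I) =
      ψ * Complex.I - Real.pi * Complex.I by push_cast; ring, Complex.exp_sub_pi_mul_I, neg_neg]
  rw [e]
  simpa only [pow_one] using arg_tendsto 1 (θ := (ψ - Real.pi) / 2) (by linarith) (by linarith)

/-- the labelled cycle: `g ^ i = 1 ↔ orderOf g ∣ i`, `orderOf g = 0` or `≥ 2`; use `hasSum_arg` with `L * orderOf g`. -/
theorem labelled_cycle {G : Type*} [Group G] [DecidableEq G] {g : G} (hg : g ≠ 1) {L : ℕ} (hL : 0 < L)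
    {r : ℝ} (hr0 : 0 ≤ r) (hr1 : r < 1) {ζ : ℂ} (hζ : ‖ζ‖ = 1) :
    ∃ s : ℝ, s ≤ Real.pi / 4 / L ∧ HasSum (fun j : ℕ => r ^ j / j *
      (if L ∣ j then ζ ^ (j / L) * (if g ^ (j / L) = 1 then 1 else 0) else 0).im) s := by
  have hL0 : (0 : ℝ) < L := by exact_mod_cast hL
  rcases Nat.eq_zero_or_pos (orderOf g) with h | h
  · refine ⟨0, by positivity, ?_⟩
    convert hasSum_zero with j
    split_ifs with h1 h2
    · obtain ⟨i, rfl⟩ := h1
      rw [← orderOf_dvd_iff_pow_eq_one, h, zero_dvd_iff, Nat.mul_div_cancel_left i hL] at h2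
      simp [h2]
    · simp
    · simp
  · have h2 : 2 ≤ orderOf g := by
      have : orderOf g ≠ 1 := fun h => hg (orderOf_eq_one_iff.1 h)
      omega
    have hw : ‖(r : ℂ) ^ (L * orderOf g) * ζ ^ orderOf g‖ < 1 := by
      rw [norm_mul, norm_pow ζ, hζ, one_pow, mul_one, norm_pow, Complex.norm_real,
        Real.norm_of_nonneg hr0]
      exact pow_lt_one₀ hr0 hr1 (Nat.mul_pos hL h).ne'
    have hs := hasSum_arg (Nat.mul_pos hL h) hr0 hr1 (ζ := ζ ^ orderOf g)
      (by rw [norm_pow, hζ, one_pow])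
    refine ⟨_, ?_, (congrArg (HasSum · _) (funext fun j => ?_)).mp hs⟩
    · have h3 := arg_one_sub_ge hw
      have h4 : (2 : ℝ) ≤ orderOf g := by exact_mod_cast h2
      rw [← neg_div, div_le_div_iff₀ (by push_cast; positivity) hL0]
      push_cast
      have h5 := mul_le_mul_of_nonneg_right (neg_le_neg h3) hL0.le
      nlinarith [mul_nonneg (mul_nonneg Real.pi_pos.le hL0.le) (sub_nonneg.2 h4)]
    · congr 2
      by_cases h1 : L ∣ j
      · obtain ⟨i, rfl⟩ := h1
        simp only [Nat.mul_dvd_mul_iff_left hL, Nat.mul_div_mul_left _ _ hL, dvd_mul_right, if_true,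
          Nat.mul_div_cancel_left i hL, ← orderOf_dvd_iff_pow_eq_one]
        split_ifs with h3
        · rw [← pow_mul, Nat.mul_div_cancel' h3, mul_one]
        · rw [mul_zero]
      · rw [if_neg h1, if_neg fun h3 => h1 ((dvd_mul_right _ _).trans h3)]

end

end Crest.Agent.R174
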