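import Crest.Agent.R174.Core

/-!
# Row 174: the degeneracy theorem for block families

* `degblock`: let `n = card X`, `I = Fin k ⊕ X`, `e : I ≃ Fin (k + n)` with `e (inl c) = castAdd n c`
  (`(Equiv.sumCongr (refl _) (Fintype.equivFin X)).trans finSumFinEquiv`, `blk_eq_reindex`).
  `f₀ = fromRows 1 0`, `F b = fromRows 0 (f b)`, `F_t b = cos (π t/2) • f₀ + sin (π t/2) • F b` is an isometry for all `t`.
  `emb F v = 1 + F * (v - 1) * Fᴴ` is multiplicative in `v` and unitary for `Fᴴ F = 1`, `v` unitary.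
  `V t u l = ∏` over the list `(List.finRange m).flatMap fun i => (pos l i).toList ++ (neg l i).toList` (a duplicate-free
  enumeration of `S l`) of `emb (F_t b) (v b)`.  At `t = 1` it is `1 + ∑` (a list lemma: `∏ (1 + a_b) = 1 + ∑ a_b` when
  `a_b a_b' = 0` for `b ≠ b'`), at `t = 0` and unitary `u` it is `emb f₀ (∏_i u_i^(a_i) (u_iᴴ)^(b_i)) = emb f₀ (u_l^d)`.
  `a l` = `unitary_path` from `fromBlocks (diagonal γ) 0 0 (-1)` to `fromBlocks (-1) 0 0 (α l)`, `γ c = ζ ^ c` (`ζ` a primitive
  `k`-th root of unity, or `exp (i c / k)`).  `W₁ t u l = reindex e e (V t u l * a l t)`,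
  `W t u l = W₁ t u l + (1 - t) • (Wmod n d γ u l - W₁ 0 u l)` (the correction vanishes on unitary `u`).
  Finally `fixDim (fromBlocks (-1) 0 0 B) ≤ fixDim B` (`x ↦ x ∘ inr` is injective on the fixed space), `fixDim_reindex`.
-/

set_option autoImplicit false
set_option linter.unusedSectionVars false
set_option linter.unusedVariables false

open Matrix Finset
open scoped ComplexConjugate

namespace Crest.Agent.R174

noncomputable section

/-- a duplicate-free enumeration of `S` grouped by type and sign -/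
theorem Block_list {β : Type} [DecidableEq β] {m d : ℕ} (S : Finset β) (ty : β → Fin m)
    (sg : β → Bool) (l : Fin m)
    (hcount : ∀ i, (S.filter fun b => ty b = i ∧ sg b = true).card =
      (S.filter fun b => ty b = i ∧ sg b = false).card + if i = l then d else 0) :
    ∃ L : List β, L.Nodup ∧ L.toFinset = S ∧
      ∀ (G : Type) [Monoid G] (x y : Fin m → G), (∀ i, x i * y i = 1) →
        (L.map fun b => if sg b then x (ty b) else y (ty b)).prod = x l ^ d := by
  set P : Fin m → List β := fun i => (S.filter fun b => ty b = i ∧ sg b = true).toList with hP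
  set N : Fin m → List β := fun i => (S.filter fun b => ty b = i ∧ sg b = false).toList with hN
  have mP : ∀ i b, b ∈ P i ↔ b ∈ S ∧ ty b = i ∧ sg b = true := fun i b => by simp [hP]
  have mN : ∀ i b, b ∈ N i ↔ b ∈ S ∧ ty b = i ∧ sg b = false := fun i b => by simp [hN]
  refine ⟨(List.finRange m).flatMap fun i => P i ++ N i, ?_, ?_, ?_⟩
  · rw [List.nodup_flatMap]
    refine ⟨fun i _ => ?_, ?_⟩
    · refine List.Nodup.append (Finset.nodup_toList _) (Finset.nodup_toList _) ?_
      intro b h1 h2
      have a1 := ((mP i b).1 h1).2.2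
      have a2 := ((mN i b).1 h2).2.2
      rw [a1] at a2
      exact absurd a2 (by decide)
    · refine (List.nodup_finRange m).imp fun {i j} hij => ?_
      intro b h1 h2
      have a1 : ty b = i := by
        rcases List.mem_append.1 h1 with h | h
        · exact ((mP i b).1 h).2.1
        · exact ((mN i b).1 h).2.1
      have a2 : ty b = j := by
        rcases List.mem_append.1 h2 with h | h
        · exact ((mP j b).1 h).2.1
        · exact ((mN j b).1 h).2.1
      exact hij (a1.symm.trans a2)
  · ext b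
    simp only [List.mem_toFinset, List.mem_flatMap, List.mem_finRange, true_and, List.mem_append,
      mP, mN]
    constructor
    · rintro ⟨i, h | h⟩
      · exact h.1
      · exact h.1
    · intro h
      refine ⟨ty b, ?_⟩
      cases hs : sg b
      · exact Or.inr ⟨h, rfl, rfl⟩
      · exact Or.inl ⟨h, rfl, rfl⟩
  · intro G _ x y hxy
    have h1 : ∀ i, ((P i ++ N i).map fun b => if sg b then x (ty b) else y (ty b)).prod =
        if i = l then x l ^ d else 1 := by
      intro i
      have e1 : ((P i).map fun b => if sg b then x (ty b) else y (ty b)) =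
          (P i).map fun _ => x i := List.map_congr_left fun b hb => by
        obtain ⟨-, a1, a2⟩ := (mP i b).1 hb
        simp [a1, a2]
      have e2 : ((N i).map fun b => if sg b then x (ty b) else y (ty b)) =
          (N i).map fun _ => y i := List.map_congr_left fun b hb => by
        obtain ⟨-, a1, a2⟩ := (mN i b).1 hb
        simp [a1, a2]
      rw [List.map_append, List.prod_append, e1, e2, List.map_const', List.map_const',
        List.prod_replicate, List.prod_replicate]
      simp only [hP, hN, Finset.length_toList]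
      rw [hcount i, add_comm, pow_add, mul_assoc, pow_mul_pow_eq_one _ (hxy i), mul_one]
      split_ifs with h
      · rw [h]
      · rw [pow_zero]
    have h2 : ∀ T : List (Fin m), ((T.flatMap fun i => P i ++ N i).map
        fun b => if sg b then x (ty b) else y (ty b)).prod =
        (T.map fun i => if i = l then x l ^ d else 1).prod := by
      intro T
      induction T with
      | nil => simp
      | cons i T ih => rw [List.flatMap_cons, List.map_append, List.prod_append, h1, ih]; simp
    rw [h2, List.prod_map_eq_pow_single l]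
    · rw [List.count_eq_one_of_mem (List.nodup_finRange m) (List.mem_finRange l)]
      simp
    · intro i hi _
      simp [hi]

theorem Block_prod_one_add {β R : Type} [Ring R] (a : β → R)
    (ha : ∀ b b', b ≠ b' → a b * a b' = 0) (L : List β) (hL : L.Nodup) :
    (L.map fun b => 1 + a b).prod = 1 + (L.map a).sum := by
  induction L with
  | nil => simp
  | cons x L ih =>
    obtain ⟨hx, hL'⟩ := List.nodup_cons.1 hL
    have h0 : a x * (L.map a).sum = 0 := by
      rw [← List.sum_map_mul_left]
      refine List.sum_eq_zero fun y hy => ?_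
      obtain ⟨b, hb, rfl⟩ := List.mem_map.1 hy
      exact ha x b fun h => hx (h ▸ hb)
    rw [List.map_cons, List.prod_cons, ih hL', List.map_cons, List.sum_cons, add_mul, mul_add (a x),
      h0]
    simp only [one_mul, mul_one, add_zero]
    abel

section emb

variable {I K : Type} [Fintype I] [DecidableEq I] [Fintype K] [DecidableEq K]

/-- `v` acting on the range of the isometry `F` -/
def Block_emb (F : Matrix I K ℂ) (v : Matrix K K ℂ) : Matrix I I ℂ := 1 + F * (v - 1) * Fᴴ

theorem Block_emb_one (F : Matrix I K ℂ) : Block_emb F 1 = 1 := by simp [Block_emb]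

theorem Block_emb_mul {F : Matrix I K ℂ} (hF : Fᴴ * F = 1) (v w : Matrix K K ℂ) :
    Block_emb F v * Block_emb F w = Block_emb F (v * w) := by
  have h1 : F * (v - 1) * Fᴴ * (F * (w - 1) * Fᴴ) = F * ((v - 1) * (w - 1)) * Fᴴ := by
    calc F * (v - 1) * Fᴴ * (F * (w - 1) * Fᴴ) = F * (v - 1) * (Fᴴ * F) * (w - 1) * Fᴴ := by
          simp only [Matrix.mul_assoc]
      _ = _ := by rw [hF]; simp only [Matrix.mul_assoc, Matrix.mul_one]
  have h2 : v * w - 1 = (w - 1) + ((v - 1) + (v - 1) * (w - 1)) := by noncomm_ring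
  unfold Block_emb
  rw [add_mul, mul_add, mul_add, h1, h2, Matrix.mul_add, Matrix.mul_add, Matrix.add_mul,
    Matrix.add_mul]
  simp only [one_mul, mul_one]
  abel

theorem Block_emb_conjTranspose (F : Matrix I K ℂ) (v : Matrix K K ℂ) :
    (Block_emb F v)ᴴ = Block_emb F vᴴ := by
  simp [Block_emb, Matrix.conjTranspose_mul, Matrix.mul_assoc]

theorem Block_emb_unitary {F : Matrix I K ℂ} (hF : Fᴴ * F = 1) {v : Matrix K K ℂ}
    (hv : v ∈ Matrix.unitaryGroup K ℂ) : Block_emb F v ∈ Matrix.unitaryGroup I ℂ := by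
  rw [Matrix.mem_unitaryGroup_iff] at hv ⊢
  rw [Matrix.star_eq_conjTranspose] at hv ⊢
  rw [Block_emb_conjTranspose, Block_emb_mul hF, hv, Block_emb_one]

theorem Block_emb_prod {β : Type} {F : Matrix I K ℂ} (hF : Fᴴ * F = 1) (v : β → Matrix K K ℂ)
    (L : List β) : (L.map fun b => Block_emb F (v b)).prod = Block_emb F (L.map v).prod := by
  induction L with
  | nil => simp [Block_emb_one]
  | cons x L ih => rw [List.map_cons, List.prod_cons, ih, Block_emb_mul hF]; simp

theorem Block_emb_inl (v : Matrix K K ℂ) :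
    Block_emb (Matrix.fromRows (1 : Matrix K K ℂ) (0 : Matrix I K ℂ)) v =
      Matrix.fromBlocks v 0 0 1 := by
  unfold Block_emb
  rw [Matrix.conjTranspose_fromRows_eq_fromCols_conjTranspose, Matrix.fromRows_mul,
    Matrix.fromRows_mul_fromCols, ← Matrix.fromBlocks_one, Matrix.fromBlocks_add]
  simp

theorem Block_inr (g : Matrix I K ℂ) (y : Matrix K K ℂ) :
    Matrix.fromRows (0 : Matrix K K ℂ) g * y * (Matrix.fromRows (0 : Matrix K K ℂ) g)ᴴ =
      Matrix.fromBlocks 0 0 0 (g * y * gᴴ) := by
  rw [Matrix.conjTranspose_fromRows_eq_fromCols_conjTranspose, Matrix.fromRows_mul,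
    Matrix.fromRows_mul_fromCols]
  simp

theorem Block_fromBlocks_unitary {A : Matrix K K ℂ} {D : Matrix I I ℂ}
    (hA : A ∈ Matrix.unitaryGroup K ℂ) (hD : D ∈ Matrix.unitaryGroup I ℂ) :
    Matrix.fromBlocks A 0 0 D ∈ Matrix.unitaryGroup (K ⊕ I) ℂ := by
  rw [Matrix.mem_unitaryGroup_iff, Matrix.star_eq_conjTranspose] at hA hD ⊢
  rw [Matrix.fromBlocks_conjTranspose, Matrix.fromBlocks_multiply]
  simp [hA, hD]

theorem Block_neg_one_unitary : (-1 : Matrix K K ℂ) ∈ Matrix.unitaryGroup K ℂ := by
  rw [Matrix.mem_unitaryGroup_iff]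
  simp

theorem Block_reindex_unitary (e : I ≃ K) {A : Matrix I I ℂ} (hA : A ∈ Matrix.unitaryGroup I ℂ) :
    Matrix.reindex e e A ∈ Matrix.unitaryGroup K ℂ := by
  rw [Matrix.mem_unitaryGroup_iff, Matrix.star_eq_conjTranspose] at hA ⊢
  rw [Matrix.reindex_apply, Matrix.conjTranspose_submatrix, Matrix.submatrix_mul_equiv, hA,
    Matrix.submatrix_one_equiv]

theorem Block_fixDim_le (B : Matrix I I ℂ) :
    fixDim (Matrix.fromBlocks (-1 : Matrix K K ℂ) 0 0 B) ≤ fixDim B := by
  have key : ∀ x : K ⊕ I → ℂ,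
      x ∈ LinearMap.ker (Matrix.fromBlocks (-1 : Matrix K K ℂ) 0 0 B - 1).mulVecLin →
      x ∘ Sum.inl = 0 ∧ x ∘ Sum.inr ∈ LinearMap.ker (B - 1).mulVecLin := by
    intro x hx
    rw [LinearMap.mem_ker, Matrix.mulVecLin_apply, Matrix.sub_mulVec, Matrix.one_mulVec,
      Matrix.fromBlocks_mulVec, sub_eq_zero] at hx
    refine ⟨?_, ?_⟩
    · funext a
      have := congrFun hx (Sum.inl a)
      simp only [Sum.elim_inl, Matrix.neg_mulVec, Matrix.one_mulVec, Matrix.zero_mulVec, add_zero,
        Pi.neg_apply, Function.comp_apply] at this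
      simp only [Function.comp_apply, Pi.zero_apply]
      linear_combination (-1 / 2 : ℂ) * this
    · rw [LinearMap.mem_ker, Matrix.mulVecLin_apply, Matrix.sub_mulVec, Matrix.one_mulVec,
        sub_eq_zero]
      funext a
      have := congrFun hx (Sum.inr a)
      simpa using this
  unfold fixDim
  refine LinearMap.finrank_le_finrank_of_injective
    (f := (LinearMap.funLeft ℂ ℂ (Sum.inr : I → K ⊕ I)).restrict fun x hx => (key x hx).2) ?_
  rw [injective_iff_map_eq_zero]
  rintro ⟨x, hx⟩ h0
  have h1 : x ∘ Sum.inr = 0 := congrArg Subtype.val h0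
  have h2 := (key x hx).1
  refine Subtype.ext (funext fun a => ?_)
  rcases a with a | a
  · exact congrFun h2 a
  · exact congrFun h1 a

/-- the rotating isometry -/
def Block_F (g : Matrix I K ℂ) (t : ℝ) : Matrix (K ⊕ I) K ℂ :=
  ((Real.cos (Real.pi / 2 * t) : ℝ) : ℂ) • Matrix.fromRows (1 : Matrix K K ℂ) (0 : Matrix I K ℂ) +
    ((Real.sin (Real.pi / 2 * t) : ℝ) : ℂ) • Matrix.fromRows (0 : Matrix K K ℂ) g

theorem Block_F_zero (g : Matrix I K ℂ) : Block_F g 0 = Matrix.fromRows 1 0 := by
  simp [Block_F]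

theorem Block_F_one (g : Matrix I K ℂ) : Block_F g 1 = Matrix.fromRows 0 g := by
  unfold Block_F
  rw [mul_one, Real.cos_pi_div_two, Real.sin_pi_div_two]
  simp

theorem Block_F_continuous (g : Matrix I K ℂ) : Continuous (Block_F g) := by
  unfold Block_F
  fun_prop

theorem Block_F_iso {g : Matrix I K ℂ} (hg : gᴴ * g = 1) (t : ℝ) :
    (Block_F g t)ᴴ * Block_F g t = 1 := by
  have e : Block_F g t = Matrix.fromRows (((Real.cos (Real.pi / 2 * t) : ℝ) : ℂ) • 1)
      (((Real.sin (Real.pi / 2 * t) : ℝ) : ℂ) • g) := by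
    ext (a | a) b <;> simp [Block_F]
  rw [e, Matrix.conjTranspose_fromRows_eq_fromCols_conjTranspose, Matrix.fromCols_mul_fromRows,
    Matrix.conjTranspose_smul, Matrix.conjTranspose_smul, Matrix.smul_mul, Matrix.smul_mul,
    Matrix.mul_smul, Matrix.mul_smul, hg, Matrix.conjTranspose_one, Matrix.mul_one, smul_smul,
    smul_smul, ← add_smul]
  have h := Real.cos_sq_add_sin_sq (Real.pi / 2 * t)
  generalize Real.cos (Real.pi / 2 * t) = c at h
  generalize Real.sin (Real.pi / 2 * t) = s at h
  have h' : (star (c : ℂ) * c + star (s : ℂ) * s) = 1 := by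
    simp only [Complex.star_def, Complex.conj_ofReal]
    exact_mod_cast (by nlinarith : c * c + s * s = 1)
  rw [h', one_smul]

end emb

theorem Block_reindex_blk {X : Type} [Fintype X] [DecidableEq X] {k n : ℕ} (eX : X ≃ Fin n)
    (y : Matrix (Fin k) (Fin k) ℂ) :
    Matrix.reindex ((Equiv.sumCongr (Equiv.refl (Fin k)) eX).trans finSumFinEquiv)
      ((Equiv.sumCongr (Equiv.refl (Fin k)) eX).trans finSumFinEquiv)
      (Matrix.fromBlocks y 0 0 (-1 : Matrix X X ℂ)) = blk n y (-1) := by
  rw [blk_eq_reindex]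
  ext a b
  obtain ⟨a, rfl⟩ := finSumFinEquiv.surjective a
  obtain ⟨b, rfl⟩ := finSumFinEquiv.surjective b
  rcases a with a | a <;> rcases b with b | b <;> simp [Matrix.one_apply]

theorem degblock {X β : Type} [Fintype X] [DecidableEq X] [DecidableEq β] {m k d : ℕ} (hd : 0 < d)
    (S : Fin m → Finset β) (ty : β → Fin m) (sg : β → Bool) (f : β → Matrix X (Fin k) ℂ)
    (hf : ∀ b b', (f b)ᴴ * f b' = if b = b' then 1 else 0)
    (hcount : ∀ l i, ((S l).filter fun b => ty b = i ∧ sg b = true).card =
      ((S l).filter fun b => ty b = i ∧ sg b = false).card + if i = l then d else 0)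
    (α : Fin m → Matrix X X ℂ) (hα : ∀ l, α l ∈ Matrix.unitaryGroup X ℂ) :
    ∃ u : Fin m → Matrix (Fin k) (Fin k) ℂ, (∀ i, u i ∈ Matrix.unitaryGroup (Fin k) ℂ) ∧
      ∀ l, k ≤ fixDim ((1 + ∑ b ∈ S l,
        f b * ((if sg b then u (ty b) else (u (ty b))ᴴ) - 1) * (f b)ᴴ) * α l) := by
  classical
  set n : ℕ := Fintype.card X with hn
  set e : Fin k ⊕ X ≃ Fin (k + n) :=
    (Equiv.sumCongr (Equiv.refl (Fin k)) (Fintype.equivFin X)).trans finSumFinEquiv with he
  have hζ := Complex.isPrimitiveRoot_exp (k + 1) (Nat.succ_ne_zero k)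
  set ζ : ℂ := Complex.exp (2 * Real.pi * Complex.I / ((k + 1 : ℕ) : ℂ)) with hζd
  set γ : Fin k → ℂ := fun c => ζ ^ c.val with hγd
  have hγ : Function.Injective γ := fun a b h =>
    Fin.ext (hζ.pow_inj (by omega) (by omega) h)
  have hγ1 : ∀ c, ‖γ c‖ = 1 := fun c => by
    simp only [hγd, norm_pow, hζ.norm'_eq_one (Nat.succ_ne_zero k), one_pow]
  have hdiag : Matrix.diagonal γ ∈ Matrix.unitaryGroup (Fin k) ℂ := by
    rw [Matrix.mem_unitaryGroup_iff, Matrix.star_eq_conjTranspose, Matrix.diagonal_conjTranspose,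
      Matrix.diagonal_mul_diagonal, ← Matrix.diagonal_one]
    congr 1
    funext c
    simp [Complex.mul_conj, Complex.normSq_eq_norm_sq, hγ1 c]
  choose L hLn hLS hLp using fun l => Block_list (d := d) (S l) ty sg l (hcount l)
  choose a hac ha0 ha1 hau using fun l => unitary_path
    (Block_fromBlocks_unitary hdiag (Block_neg_one_unitary (K := X)))
    (Block_fromBlocks_unitary (Block_neg_one_unitary (K := Fin k)) (hα l))
  have hfi : ∀ b, (f b)ᴴ * f b = 1 := fun b => by simpa using hf b b
  set v : UU m k → β → Matrix (Fin k) (Fin k) ℂ := fun u b =>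
    if sg b then um u (ty b) else (um u (ty b))ᴴ with hv
  have hvS : ∀ b, SM fun u => v u b := fun b => by
    cases hs : sg b
    · simpa [hv, hs] using (SM.um (ty b)).conjTranspose
    · simpa [hv, hs] using SM.um (ty b)
  have hvU : ∀ u, AllU u → ∀ b, v u b ∈ Matrix.unitaryGroup (Fin k) ℂ := fun u hu b => by
    cases hs : sg b
    · simpa [hv, hs, ← Matrix.star_eq_conjTranspose] using Unitary.star_mem (hu (ty b))
    · simpa [hv, hs] using hu (ty b)
  set V : ℝ → UU m k → Fin m → Matrix (Fin k ⊕ X) (Fin k ⊕ X) ℂ := fun t u l =>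
    ((L l).map fun b => Block_emb (Block_F (f b) t) (v u b)).prod with hV
  set W₁ : ℝ → UU m k → Fin m → Matrix (Fin (k + n)) (Fin (k + n)) ℂ := fun t u l =>
    Matrix.reindex e e (V t u l * a l t) with hW₁
  have hW₁S : ∀ t l, SM fun u => W₁ t u l := by
    intro t l
    refine SM.submatrix (SM.mul (SM.list_prod (L l) fun b _ => ?_) (SM.const _)) _ _
    exact (SM.const _).add (((SM.const _).mul ((hvS b).sub (SM.const _))).mul (SM.const _))
  have hW₁c : ∀ l, Continuous fun z : ℝ × UU m k => W₁ z.1 z.2 l := by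
    intro l
    refine Continuous.matrix_reindex (Continuous.matrix_mul
      (continuous_list_prod (L l) fun b _ => ?_) ((hac l).comp continuous_fst)) _ _
    have h1 : Continuous fun z : ℝ × UU m k => Block_F (f b) z.1 :=
      (Block_F_continuous _).comp continuous_fst
    have h2 : Continuous fun z : ℝ × UU m k => v z.2 b := (hvS b).continuous.comp continuous_snd
    exact continuous_const.add ((h1.matrix_mul (h2.sub continuous_const)).matrix_mul
      h1.matrix_conjTranspose)
  have hW₁U : ∀ t u, AllU u → ∀ l, W₁ t u l ∈ Matrix.unitaryGroup (Fin (k + n)) ℂ := by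
    intro t u hu l
    refine Block_reindex_unitary e (mul_mem (list_prod_mem fun y hy => ?_) (hau l t))
    obtain ⟨b, -, rfl⟩ := List.mem_map.1 hy
    exact Block_emb_unitary (Block_F_iso (hfi b) t) (hvU u hu b)
  have hW₁0 : ∀ u, AllU u → ∀ l, W₁ 0 u l = Wmod n d γ u l := by
    intro u hu l
    have h1 : V 0 u l = Matrix.fromBlocks (um u l ^ d) 0 0 1 := by
      simp only [hV, Block_F_zero]
      rw [Block_emb_prod (by
        rw [Matrix.conjTranspose_fromRows_eq_fromCols_conjTranspose, Matrix.fromCols_mul_fromRows]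
        simp), Block_emb_inl]
      congr 1
      exact hLp l _ (fun i => um u i) (fun i => (um u i)ᴴ)
        (fun i => Matrix.mem_unitaryGroup_iff.1 (hu i))
    simp only [hW₁, h1, ha0, Wmod]
    rw [Matrix.fromBlocks_multiply, ← Block_reindex_blk (Fintype.equivFin X)]
    simp [he]
  obtain ⟨u, hu, hfix⟩ := degcore hd hγ hγ1
    (fun t u l => W₁ t u l + ((1 - t : ℝ) : ℂ) • (Wmod n d γ u l - W₁ 0 u l))
    (continuous_pi fun l => (hW₁c l).add (Continuous.smul
      (show Continuous fun z : ℝ × UU m k => ((1 - z.1 : ℝ) : ℂ) by fun_prop)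
      (((SM_Wmod d γ l).continuous.sub (hW₁S 0 l).continuous).comp continuous_snd)))
    (fun t l => (hW₁S t l).add (SM.smul contDiff_const ((SM_Wmod d γ l).sub (hW₁S 0 l))))
    (fun t _ u hu l => by
      simp only [hW₁0 u hu l, sub_self, smul_zero, add_zero]
      exact hW₁U t u hu l)
    (by
      funext u l
      simp)
  refine ⟨fun i => um u i, hu, fun l => (hfix l).trans ?_⟩
  have h1 : V 1 u l = Matrix.fromBlocks 1 0 0 (1 + ∑ b ∈ S l, f b * (v u b - 1) * (f b)ᴴ) := by
    simp only [hV, Block_F_one, Block_emb, Block_inr]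
    rw [Block_prod_one_add _ _ _ (hLn l), ← List.sum_toFinset _ (hLn l), hLS]
    · ext (x | x) (y | y) <;> simp [Matrix.sum_apply, Matrix.one_apply]
    · intro b b' hb
      have h2 : f b * (v u b - 1) * (f b)ᴴ * (f b' * (v u b' - 1) * (f b')ᴴ) = 0 := by
        calc f b * (v u b - 1) * (f b)ᴴ * (f b' * (v u b' - 1) * (f b')ᴴ)
            = f b * (v u b - 1) * ((f b)ᴴ * f b') * (v u b' - 1) * (f b')ᴴ := by
              simp only [Matrix.mul_assoc]
          _ = 0 := by rw [hf, if_neg hb]; simp
      rw [Matrix.fromBlocks_multiply, h2]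
      simp
  simp only [sub_self, Complex.ofReal_zero, zero_smul, add_zero, hW₁, h1, ha1]
  rw [fixDim_reindex, Matrix.fromBlocks_multiply]
  simp only [Matrix.one_mul, Matrix.zero_mul, Matrix.mul_zero, add_zero, zero_add]
  exact Block_fixDim_le _

end

end Crest.Agent.R174
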