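import Crest.Agent.R174.SignB

/-!
# Row 174: the degeneracy theorem

* `model_sign`: `zero_iff`, `zeros` (so `u^d γ = 1`; `u` commutes with `u^d = diagonal γ⁻¹`, which has distinct entries, so `u` is
  diagonal), `choose σ`, `ε = det L`.
* `model_zero`: `v c` a `d`-th root of `(γ c)⁻¹` (`IsAlgClosed.exists_pow_nat_eq`), `con_z0`, `RR_z0`.
* `degcore`: `posdeg` with `O = {z | OO (W z.1) z.2}`, `H z = HH (W z.1) z.2`.  The zero set is, by `zero_iff`, the closed subset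
  `{RR (x.2 l) = W t x.1 l}` of the compact set `Icc 0 1 ×ˢ ({AllU} ×ˢ pi {Con})`.  At `t = 1` use `RR_fix`.
-/

set_option autoImplicit false
set_option linter.unusedSectionVars false
set_option linter.unusedVariables false

open Matrix Finset
open scoped ComplexConjugate

namespace Crest.Agent.R174

noncomputable section

section

variable {m k n : ℕ}

theorem Core_diag {d : ℕ} {γ : Fin k → ℂ} (hγ : Function.Injective γ) {u : Matrix (Fin k) (Fin k) ℂ}
    (h : u ^ d * Matrix.diagonal γ = 1) :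
    u = Matrix.diagonal (fun c => u c c) ∧ ∀ c, u c c ^ d * γ c = 1 := by
  have h' : Matrix.diagonal γ * u ^ d = 1 := mul_eq_one_comm.1 h
  have hc : u * Matrix.diagonal γ = Matrix.diagonal γ * u := by
    calc u * Matrix.diagonal γ = (Matrix.diagonal γ * u ^ d) * u * Matrix.diagonal γ := by
          rw [h', one_mul]
      _ = Matrix.diagonal γ * u * (u ^ d * Matrix.diagonal γ) := by
          rw [mul_assoc (Matrix.diagonal γ), ← pow_succ, pow_succ']
          simp only [mul_assoc]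
      _ = Matrix.diagonal γ * u := by rw [h, mul_one]
  have hd : u = Matrix.diagonal (fun c => u c c) := by
    ext a b
    by_cases hab : a = b
    · subst hab
      rw [Matrix.diagonal_apply_eq]
    · rw [Matrix.diagonal_apply_ne _ hab]
      have h1 := congrFun (congrFun hc a) b
      rw [Matrix.mul_diagonal, Matrix.diagonal_mul] at h1
      have h2 : u a b * (γ b - γ a) = 0 := by linear_combination h1
      exact (mul_eq_zero.1 h2).resolve_right (sub_ne_zero.2 fun e => hab (hγ e).symm)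
  refine ⟨hd, fun c => ?_⟩
  rw [hd, Matrix.diagonal_pow, Matrix.diagonal_mul_diagonal] at h
  simpa using congrFun (congrFun h c) c

theorem model_sign {d : ℕ} (hd : 0 < d) {γ : Fin k → ℂ} (hγ : Function.Injective γ)
    (hγ1 : ∀ c, ‖γ c‖ = 1) :
    ∃ ε : ℝ, ∀ x : DE m k n, OO (Wmod n d γ) x → HH (Wmod n d γ) x = 0 →
      0 < ε * (fderiv ℝ (HH (Wmod n d γ)) x).det := by
  refine ⟨(LL m k n).det, fun x h1 h2 => ?_⟩
  obtain ⟨-, hcon, hR⟩ := (zero_iff (Wmod_unitary d hγ1) x).1 ⟨h1, h2⟩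
  have hz := fun l => zeros (hcon l) (hR l)
  choose σ hσ hσ' using fun l => (hz l).2
  have hu := fun l => Core_diag hγ (hz l).1
  set v : Fin m → Fin k → ℂ := fun l c => um x.1 l c c with hv
  set x₀ : DE m k n := (fun l => Matrix.diagonal (v l), fun _ => z0 k n) with hx₀
  have hx : x = (x₀.1, fun l => ((x₀.2 l).1 ∘ σ l, (x₀.2 l).2)) :=
    Prod.ext (funext fun l => (hu l).1) (funext fun l => hσ' l)
  obtain ⟨ρ₁, hρ₁, e₁⟩ := det_perm (SM_Wmod (n := n) d γ) σ hσ x₀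
  obtain ⟨ρ₂, hρ₂, e₂⟩ := det_root (n := n) hd hγ hγ1 v fun l c => (hu l).2 c
  rw [hx, e₁, e₂]
  have h3 := mul_self_pos.2 (det_L_ne (m := m) (k := k) (n := n))
  have h4 := mul_pos (mul_pos hρ₁ hρ₂) h3
  linarith

theorem model_zero {d : ℕ} (hd : 0 < d) {γ : Fin k → ℂ} (hγ1 : ∀ c, ‖γ c‖ = 1) :
    ∃ x : DE m k n, OO (Wmod n d γ) x ∧ HH (Wmod n d γ) x = 0 := by
  choose v hv using fun c => IsAlgClosed.exists_pow_nat_eq (γ c)⁻¹ hd
  have hγ0 : ∀ c, γ c ≠ 0 := fun c h0 => by simpa [h0] using hγ1 c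
  have hv1 : ∀ c, ‖v c‖ = 1 := fun c => by
    have h1 := congrArg norm (hv c)
    rw [norm_pow, norm_inv, hγ1, inv_one] at h1
    exact (pow_eq_one_iff_of_nonneg (norm_nonneg _) hd.ne').1 h1
  refine ⟨(fun _ => Matrix.diagonal v, fun _ => z0 k n),
    (zero_iff (Wmod_unitary d hγ1) _).2 ⟨fun i => ?_, fun _ => con_z0, fun l => ?_⟩⟩
  · change Matrix.diagonal v ∈ _
    rw [Matrix.mem_unitaryGroup_iff, Matrix.star_eq_conjTranspose, Matrix.diagonal_conjTranspose,
      Matrix.diagonal_mul_diagonal, ← Matrix.diagonal_one]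
    congr 1
    funext c
    rw [Pi.star_apply, Complex.star_def, Complex.mul_conj, Complex.normSq_eq_norm_sq, hv1]
    simp
  · change RR (z0 k n) = blk n (Matrix.diagonal v ^ d * Matrix.diagonal γ) (-1)
    rw [RR_z0, Matrix.diagonal_pow, Matrix.diagonal_mul_diagonal, ← Matrix.diagonal_one]
    congr 2
    funext c
    rw [Pi.pow_apply, hv, inv_mul_cancel₀ (hγ0 c)]

end

theorem degcore {m k n d : ℕ} (hd : 0 < d) {γ : Fin k → ℂ} (hγ : Function.Injective γ)
    (hγ1 : ∀ c, ‖γ c‖ = 1) (W : ℝ → UU m k → Fin m → Matrix (Fin (k + n)) (Fin (k + n)) ℂ)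
    (hc : Continuous fun z : ℝ × UU m k => W z.1 z.2) (hs : ∀ t l, SM fun u => W t u l)
    (hu : ∀ t ∈ Set.Icc (0 : ℝ) 1, ∀ u, AllU u → ∀ l, W t u l ∈ Matrix.unitaryGroup (Fin (k + n)) ℂ)
    (h0 : W 0 = Wmod n d γ) : ∃ u, AllU u ∧ ∀ l, k ≤ fixDim (W 1 u l) := by
  obtain ⟨ε, hε⟩ := model_sign (m := m) (n := n) hd hγ hγ1
  have hZ : IsCompact {p : ℝ × DE m k n | p ∈ {z : ℝ × DE m k n | OO (W z.1) z.2} ∧
      p.1 ∈ Set.Icc (0 : ℝ) 1 ∧ HH (W p.1) p.2 = 0} := by
    have h1 : IsCompact (Set.Icc (0 : ℝ) 1 ×ˢ ({u : UU m k | AllU u} ×ˢ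
        Set.pi Set.univ fun _ : Fin m => {z : RP k n | Con z})) :=
      isCompact_Icc.prod (isCompact_allU.prod (isCompact_univ_pi fun _ => isCompact_con))
    have c1 : Continuous fun p : ℝ × DE m k n => fun l => RR (p.2.2 l) :=
      continuous_pi fun l => SM_RR.continuous.comp'
        ((continuous_apply l).comp' (continuous_snd.comp' continuous_snd))
    have c2 : Continuous fun p : ℝ × DE m k n => W p.1 p.2.1 :=
      hc.comp' (continuous_fst.prodMk (continuous_fst.comp' continuous_snd))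
    have h2 := isClosed_eq c1 c2
    convert h1.inter_right h2 using 1
    refine Set.ext fun p => ⟨?_, ?_⟩
    · rintro ⟨a1, a2, a3⟩
      obtain ⟨b1, b2, b3⟩ := (zero_iff (hu p.1 a2) p.2).1 ⟨a1, a3⟩
      exact ⟨⟨a2, b1, fun l _ => b2 l⟩, funext b3⟩
    · rintro ⟨⟨a2, b1, b2⟩, b3⟩
      obtain ⟨a1, a3⟩ := (zero_iff (hu p.1 a2) p.2).2 ⟨b1, fun l => b2 l trivial, congrFun b3⟩
      exact ⟨a1, a2, a3⟩
  have hex : ∃ x : DE m k n, OO (W 0) x ∧ HH (W 0) x = 0 := by
    rw [h0]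
    exact model_zero hd hγ1
  have hpos : ∀ x : DE m k n, OO (W 0) x → HH (W 0) x = 0 → 0 < ε * (fderiv ℝ (HH (W 0)) x).det := by
    rw [h0]
    exact hε
  have a1 := isOpen_OO (W := W) hc
  have a2 := continuous_HH (W := W) hc
  have a3 : ∀ t, ContDiff ℝ 1 (HH (W t)) := fun t => contDiff_HH (hs t)
  have a4 := posdeg a1 a2
  have a5 : ∃ x : DE m k n, OO (W 1) x ∧ HH (W 1) x = 0 := a4 a3 hZ ε hex hpos
  obtain ⟨x, h1, h2⟩ := a5
  obtain ⟨b1, b2, b3⟩ := (zero_iff (hu 1 ⟨zero_le_one, le_rfl⟩) x).1 ⟨h1, h2⟩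
  refine ⟨x.1, b1, fun l => ?_⟩
  rw [← b3 l]
  exact RR_fix (b2 l)

end

end Crest.Agent.R174
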