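import Crest.Agent.R174.DDefs

/-!
# Row 174: calculus of entrywise `C¹` matrix functions; `blk`, `ImM`, `fixDim`

Everything is entrywise: `Matrix.mul_apply`, `ContDiff.sum`, `fderiv_fun_sum`, `fderiv_fun_mul`, `Complex.conjCLE`.
`unitary_path`: see `R117/Mat.lean` (`Mat_continuous_cfc`, `loc_joined`: `t ↦ cfc (exp (i t arg z)) x`, finite spectrum)
and clamp or use all real `t`; join `x` to `y` by `t ↦ x * path (xᴴ y) t`.
-/

set_option autoImplicit false
set_option linter.unusedSectionVars false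
set_option linter.unusedVariables false

open Matrix Finset
open scoped ComplexConjugate

namespace Crest.Agent.R174

noncomputable section

section SM

variable {E F I J L : Type*} [NormedAddCommGroup E] [NormedSpace ℝ E] [NormedAddCommGroup F]
  [NormedSpace ℝ F]

theorem SM.const (A : Matrix I J ℂ) : SM fun _ : E => A := by
  exact fun a b => contDiff_const

theorem SM.add {A B : E → Matrix I J ℂ} (hA : SM A) (hB : SM B) : SM fun x => A x + B x := by
  exact fun a b => ContDiff.add (hA a b) (hB a b)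

theorem SM.sub {A B : E → Matrix I J ℂ} (hA : SM A) (hB : SM B) : SM fun x => A x - B x := by
  exact fun a b => ContDiff.sub (hA a b) (hB a b)

theorem SM.mul [Fintype J] {A : E → Matrix I J ℂ} {B : E → Matrix J L ℂ} (hA : SM A) (hB : SM B) :
    SM fun x => A x * B x := by
  intro a b
  simp only [Matrix.mul_apply]
  exact ContDiff.sum fun j _ => ContDiff.mul (hA a j) (hB j b)

theorem SM.conjTranspose {A : E → Matrix I J ℂ} (hA : SM A) : SM fun x => (A x)ᴴ := by
  exact fun a b => Complex.conjCLE.contDiff.comp (hA b a)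

theorem SM.smul {c : E → ℂ} {A : E → Matrix I J ℂ} (hc : ContDiff ℝ 1 c) (hA : SM A) :
    SM fun x => c x • A x := by
  exact fun a b => ContDiff.mul hc (hA a b)

theorem SM.comp {A : F → Matrix I J ℂ} (hA : SM A) {g : E → F} (hg : ContDiff ℝ 1 g) :
    SM fun x => A (g x) := by
  exact fun a b => ContDiff.comp (hA a b) hg

theorem SM.pow [Fintype I] [DecidableEq I] {A : E → Matrix I I ℂ} (hA : SM A) (d : ℕ) :
    SM fun x => A x ^ d := by
  induction d with
  | zero => simpa only [pow_zero] using SM.const (1 : Matrix I I ℂ)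
  | succ d ih => simpa only [pow_succ] using ih.mul hA

theorem SM.submatrix {I' J' : Type*} {A : E → Matrix I J ℂ} (hA : SM A) (e : I' → I) (e' : J' → J) :
    SM fun x => (A x).submatrix e e' := by
  exact fun a b => hA (e a) (e' b)

theorem SM.list_prod [Fintype I] [DecidableEq I] {β : Type*} (l : List β)
    {A : β → E → Matrix I I ℂ} (hA : ∀ b ∈ l, SM (A b)) : SM fun x => (l.map fun b => A b x).prod := by
  induction l with
  | nil => simpa only [List.map_nil, List.prod_nil] using SM.const (1 : Matrix I I ℂ)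
  | cons b l ih =>
    simpa only [List.map_cons, List.prod_cons] using
      (hA b List.mem_cons_self).mul (ih fun c hc => hA c (List.mem_cons_of_mem _ hc))

theorem SM.blk {k : ℕ} (n : ℕ) {A : E → Matrix (Fin k) (Fin k) ℂ} (hA : SM A) (z : ℂ) :
    SM fun x => blk n (A x) z := by
  intro a b
  by_cases h : a.val < k ∧ b.val < k
  · simpa only [R174.blk, Matrix.of_apply, dif_pos h] using hA ⟨a, h.1⟩ ⟨b, h.2⟩
  · simpa only [R174.blk, Matrix.of_apply, dif_neg h] using contDiff_const

theorem SM.ImM {A : E → Matrix I I ℂ} (hA : SM A) : SM fun x => ImM (A x) := by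
  exact SM.smul contDiff_const (hA.sub hA.conjTranspose)

theorem SM.continuous {A : E → Matrix I J ℂ} (hA : SM A) : Continuous A := by
  exact continuous_matrix fun a b => (hA a b).continuous

theorem SM.um {m k : ℕ} (i : Fin m) : SM fun u : UU m k => um u i := by
  intro a b
  exact (contDiff_apply ℝ ℂ b).comp ((contDiff_apply ℝ (Fin k → ℂ) a).comp
    (contDiff_apply ℝ (Fin k → Fin k → ℂ) i))

theorem SM.DCalc_diff {A : E → Matrix I J ℂ} (hA : SM A) (a : I) (b : J) (x : E) :
    DifferentiableAt ℝ (fun y => A y a b) x := (hA a b).differentiable one_ne_zero x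

theorem dM_const (A : Matrix I J ℂ) (x δ : E) : dM (fun _ : E => A) x δ = 0 := by
  ext a b
  simp [dM]

theorem dM_add {A B : E → Matrix I J ℂ} (hA : SM A) (hB : SM B) (x δ : E) :
    dM (fun y => A y + B y) x δ = dM A x δ + dM B x δ := by
  ext a b
  simp only [dM, Matrix.of_apply, Matrix.add_apply]
  rw [fderiv_fun_add (hA.DCalc_diff a b x) (hB.DCalc_diff a b x)]
  rfl

theorem dM_sub {A B : E → Matrix I J ℂ} (hA : SM A) (hB : SM B) (x δ : E) :
    dM (fun y => A y - B y) x δ = dM A x δ - dM B x δ := by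
  ext a b
  simp only [dM, Matrix.of_apply, Matrix.sub_apply]
  rw [fderiv_fun_sub (hA.DCalc_diff a b x) (hB.DCalc_diff a b x)]
  rfl

theorem dM_mul [Fintype J] {A : E → Matrix I J ℂ} {B : E → Matrix J L ℂ} (hA : SM A) (hB : SM B)
    (x δ : E) : dM (fun y => A y * B y) x δ = dM A x δ * B x + A x * dM B x δ := by
  ext a b
  simp only [dM, Matrix.of_apply, Matrix.add_apply, Matrix.mul_apply]
  rw [fderiv_fun_sum fun j _ => (hA.DCalc_diff a j x).fun_mul (hB.DCalc_diff j b x),
    _root_.sum_apply, ← Finset.sum_add_distrib]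
  refine Finset.sum_congr rfl fun j _ => ?_
  rw [fderiv_fun_mul (hA.DCalc_diff a j x) (hB.DCalc_diff j b x)]
  simp only [_root_.add_apply, _root_.smul_apply, smul_eq_mul]
  ring

theorem dM_conjTranspose {A : E → Matrix I J ℂ} (hA : SM A) (x δ : E) :
    dM (fun y => (A y)ᴴ) x δ = (dM A x δ)ᴴ := by
  ext a b
  simp only [dM, Matrix.of_apply, Matrix.conjTranspose_apply]
  have h := (Complex.conjCLE.hasFDerivAt.comp x (hA.DCalc_diff b a x).hasFDerivAt).fderiv
  exact congrArg (fun L : E →L[ℝ] ℂ => L δ) h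

theorem dM_smul {c : E → ℂ} {A : E → Matrix I J ℂ} (hc : ContDiff ℝ 1 c) (hA : SM A) (x δ : E) :
    dM (fun y => c y • A y) x δ = fderiv ℝ c x δ • A x + c x • dM A x δ := by
  ext a b
  simp only [dM, Matrix.of_apply, Matrix.add_apply, Matrix.smul_apply, smul_eq_mul]
  rw [fderiv_fun_mul (hc.differentiable one_ne_zero x) (hA.DCalc_diff a b x)]
  simp only [_root_.add_apply, _root_.smul_apply, smul_eq_mul]
  ring

theorem dM_comp_clm {A : F → Matrix I J ℂ} (hA : SM A) (g : E →L[ℝ] F) (x δ : E) :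
    dM (fun y => A (g y)) x δ = dM A (g x) (g δ) := by
  ext a b
  simp only [dM, Matrix.of_apply]
  have h := ((hA.DCalc_diff a b (g x)).hasFDerivAt.comp x g.hasFDerivAt).fderiv
  exact congrArg (fun L : E →L[ℝ] ℂ => L δ) h

theorem dM_ImM {A : E → Matrix I I ℂ} (hA : SM A) (x δ : E) :
    dM (fun y => ImM (A y)) x δ = ImM (dM A x δ) := by
  unfold ImM
  rw [dM_smul contDiff_const (hA.sub hA.conjTranspose), dM_sub hA hA.conjTranspose,
    dM_conjTranspose hA]
  simp

theorem dM_blk {k : ℕ} (n : ℕ) {A : E → Matrix (Fin k) (Fin k) ℂ} (z : ℂ) (x δ : E) :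
    dM (fun y => blk n (A y) z) x δ = blk n (dM A x δ) 0 := by
  ext a b
  by_cases h : a.val < k ∧ b.val < k
  · simp only [dM, blk, Matrix.of_apply, dif_pos h]
  · simp [dM, blk, dif_neg h]

theorem dM_um {m k : ℕ} (i : Fin m) (u δ : UU m k) : dM (fun u : UU m k => um u i) u δ = um δ i := by
  ext a b
  let L : UU m k →L[ℝ] ℂ := (ContinuousLinearMap.proj b).comp
    ((ContinuousLinearMap.proj (R := ℝ) (φ := fun _ : Fin k => Fin k → ℂ) a).comp
      (ContinuousLinearMap.proj (R := ℝ) (φ := fun _ : Fin m => Fin k → Fin k → ℂ) i))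
  exact congrArg (fun M : UU m k →L[ℝ] ℂ => M δ) (L.fderiv (x := u))

theorem dM_zero_dir (A : E → Matrix I J ℂ) (x : E) : dM A x 0 = 0 := by
  ext a b
  simp [dM]

end SM

section blk

variable {k : ℕ} (n : ℕ)

theorem blk_eq_reindex (y : Matrix (Fin k) (Fin k) ℂ) (z : ℂ) :
    blk n y z = Matrix.reindex finSumFinEquiv finSumFinEquiv
      (Matrix.fromBlocks y 0 0 (z • (1 : Matrix (Fin n) (Fin n) ℂ))) := by
  ext a b
  refine Fin.addCases (fun a => ?_) (fun a => ?_) a <;>
    refine Fin.addCases (fun b => ?_) (fun b => ?_) b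
  · simp [blk]
  · have : Fin.castAdd n a ≠ Fin.natAdd k b := by
      intro h
      have := congrArg Fin.val h
      simp only [Fin.val_castAdd, Fin.val_natAdd] at this
      omega
    simp [blk, this]
  · have : Fin.natAdd k a ≠ Fin.castAdd n b := by
      intro h
      have := congrArg Fin.val h
      simp only [Fin.val_castAdd, Fin.val_natAdd] at this
      omega
    simp [blk, this]
  · simp [blk, Matrix.one_apply]

theorem blk_mul (y y' : Matrix (Fin k) (Fin k) ℂ) (z z' : ℂ) :
    blk n y z * blk n y' z' = blk n (y * y') (z * z') := by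
  simp only [blk_eq_reindex, Matrix.reindex_apply, Matrix.submatrix_mul_equiv,
    Matrix.fromBlocks_multiply]
  simp [smul_smul, mul_comm]

theorem blk_one : blk n (1 : Matrix (Fin k) (Fin k) ℂ) 1 = 1 := by
  rw [blk_eq_reindex, one_smul, Matrix.fromBlocks_one]
  simp

theorem blk_conjTranspose (y : Matrix (Fin k) (Fin k) ℂ) (z : ℂ) :
    (blk n y z)ᴴ = blk n yᴴ (conj z) := by
  simp only [blk_eq_reindex, Matrix.reindex_apply, Matrix.conjTranspose_submatrix,
    Matrix.fromBlocks_conjTranspose]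
  simp

theorem blk_castAdd (y : Matrix (Fin k) (Fin k) ℂ) (z : ℂ) (a b : Fin k) :
    blk n y z (Fin.castAdd n a) (Fin.castAdd n b) = y a b := by
  simp [blk]

theorem blk_left_inj {y y' : Matrix (Fin k) (Fin k) ℂ} {z z' : ℂ} (h : blk n y z = blk n y' z') :
    y = y' := by
  ext a b
  rw [← blk_castAdd n y z, h, blk_castAdd]

theorem ImM_blk_zero (y : Matrix (Fin k) (Fin k) ℂ) : ImM (blk n y 0) = blk n (ImM y) 0 := by
  unfold ImM
  rw [blk_conjTranspose]
  ext a b
  by_cases h : a.val < k ∧ b.val < k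
  · simp only [blk, Matrix.of_apply, dif_pos h, Matrix.smul_apply, Matrix.sub_apply]
  · simp [blk, dif_neg h]

theorem blk_mem_unitary {y : Matrix (Fin k) (Fin k) ℂ} (hy : y ∈ Matrix.unitaryGroup (Fin k) ℂ)
    {z : ℂ} (hz : ‖z‖ = 1) : blk n y z ∈ Matrix.unitaryGroup (Fin (k + n)) ℂ := by
  rw [Matrix.mem_unitaryGroup_iff, Matrix.star_eq_conjTranspose] at hy ⊢
  rw [blk_conjTranspose, blk_mul, hy, Complex.mul_conj', hz]
  simpa using blk_one n

end blk

theorem ImM_isHermitian {I : Type*} (y : Matrix I I ℂ) : (ImM y).IsHermitian := by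
  unfold ImM Matrix.IsHermitian
  rw [Matrix.conjTranspose_smul, Matrix.conjTranspose_sub, Matrix.conjTranspose_conjTranspose,
    ← neg_sub y, smul_neg, ← neg_smul]
  congr 1
  simp [neg_div]

theorem ImM_add {I : Type*} (y y' : Matrix I I ℂ) : ImM (y + y') = ImM y + ImM y' := by
  unfold ImM
  rw [Matrix.conjTranspose_add, ← smul_add]
  congr 1
  abel

theorem ImM_eq_zero_iff {I : Type*} (y : Matrix I I ℂ) : ImM y = 0 ↔ yᴴ = y := by
  unfold ImM
  rw [smul_eq_zero, sub_eq_zero, eq_comm (a := y)]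
  simp

theorem fixDim_reindex {I J : Type*} [Fintype I] [DecidableEq I] [Fintype J] [DecidableEq J]
    (e : I ≃ J) (W : Matrix I I ℂ) : fixDim (Matrix.reindex e e W) = fixDim W := by
  have h1 : Matrix.reindex e e W - 1 = Matrix.reindex e e (W - 1) := by
    simp [Matrix.submatrix_sub]
  have h2 := LinearMap.finrank_range_add_finrank_ker (Matrix.reindex e e (W - 1)).mulVecLin
  have h3 := LinearMap.finrank_range_add_finrank_ker (W - 1).mulVecLin
  have h4 : (Matrix.reindex e e (W - 1)).rank = (W - 1).rank := Matrix.rank_reindex e e _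
  unfold Matrix.rank at h4
  rw [Module.finrank_fintype_fun_eq_card] at h2 h3
  have h5 := Fintype.card_congr e
  unfold fixDim
  rw [h1]
  omega

open scoped Matrix.Norms.L2Operator in
theorem DCalc_path {I : Type*} [Fintype I] [DecidableEq I] {x : Matrix I I ℂ}
    (hx : x ∈ Matrix.unitaryGroup I ℂ) :
    ∃ a : ℝ → Matrix I I ℂ, Continuous a ∧ a 0 = 1 ∧ a 1 = x ∧
      ∀ t, a t ∈ Matrix.unitaryGroup I ℂ := by
  have hc : ∀ f : ℂ → ℂ, ContinuousOn f (spectrum ℂ x) := fun f =>
    (Matrix.finite_spectrum x).continuousOn f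
  have hn : IsStarNormal x := isStarNormal_of_mem_unitary hx
  refine ⟨fun t : ℝ => cfc (fun z : ℂ => Complex.exp ((t * z.arg : ℝ) * Complex.I)) x, ?_, ?_, ?_,
    fun t => ?_⟩
  · have : (fun t : ℝ => cfc (fun z : ℂ => Complex.exp ((t * z.arg : ℝ) * Complex.I)) x) =
        fun t : ℝ => ∑ l ∈ (Matrix.finite_spectrum x).toFinset,
          Complex.exp ((t * l.arg : ℝ) * Complex.I) •
            cfc (fun z : ℂ => if z = l then (1 : ℂ) else 0) x := by
      funext t
      simp only [← cfc_const_mul _ _ x (hc _)]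
      rw [← cfc_sum _ x _ (fun _ _ => hc _)]
      refine cfc_congr fun z hz => ?_
      simp [Finset.sum_apply, hz]
    rw [this]
    fun_prop
  · simp [cfc_const_one]
  · refine Eq.trans (cfc_congr fun z hz => ?_) (cfc_id ℂ x)
    have h1 : ‖z‖ = 1 := spectrum.norm_eq_one_of_unitary hx hz
    simpa [h1] using Complex.norm_mul_exp_arg_mul_I z
  · refine (cfc_unitary_iff _ x hn (hc _)).2 fun z _ => ?_
    rw [Complex.star_def, Complex.conj_mul', Complex.norm_exp_ofReal_mul_I]
    simp

/-- the unitary group of matrices is path connected -/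
theorem unitary_path {I : Type*} [Fintype I] [DecidableEq I] {x y : Matrix I I ℂ}
    (hx : x ∈ Matrix.unitaryGroup I ℂ) (hy : y ∈ Matrix.unitaryGroup I ℂ) :
    ∃ a : ℝ → Matrix I I ℂ, Continuous a ∧ a 0 = x ∧ a 1 = y ∧
      ∀ t, a t ∈ Matrix.unitaryGroup I ℂ := by
  obtain ⟨a, h1, h2, h3, h4⟩ := DCalc_path (mul_mem (Unitary.star_mem hx) hy)
  refine ⟨fun t => x * a t, continuous_const.mul h1, by simp [h2], ?_, fun t => mul_mem hx (h4 t)⟩
  simp only [h3]
  rw [← mul_assoc, Matrix.mem_unitaryGroup_iff.1 hx, one_mul]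

/-- the orthogonal projection onto the fixed space (`Submodule.starProjection` on `EuclideanSpace ℂ I`,
`Matrix.toEuclideanLin`, `LinearMap.IsProj.trace`; or `∑ b bᴴ` over an orthonormal basis) -/
theorem exists_fix_proj {I : Type*} [Fintype I] [DecidableEq I] (W : Matrix I I ℂ) :
    ∃ q : Matrix I I ℂ, qᴴ = q ∧ q * q = q ∧ W * q = q ∧ q.trace = (fixDim W : ℂ) := by
  let T := Matrix.toEuclideanCLM (n := I) (𝕜 := ℂ)
  let U : Submodule ℂ (EuclideanSpace ℂ I) := LinearMap.eqLocus (T W).toLinearMap LinearMap.id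
  have hP := isStarProjection_starProjection (U := U)
  have hW : W * T.symm U.starProjection = T.symm U.starProjection := by
    apply EquivLike.injective T
    rw [map_mul, T.apply_symm_apply]
    ext1 v
    exact U.starProjection_apply_mem v
  refine ⟨T.symm U.starProjection, ?_, ?_, hW, ?_⟩
  · rw [← Matrix.star_eq_conjTranspose, ← map_star, hP.isSelfAdjoint.star_eq]
  · rw [← map_mul, hP.isIdempotentElem.eq]
  · have h : LinearMap.IsProj (LinearMap.ker (W - 1).mulVecLin)
        (T.symm U.starProjection).mulVecLin := by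
      refine ⟨fun v => ?_, fun v hv => ?_⟩
      · rw [LinearMap.mem_ker, Matrix.mulVecLin_apply, Matrix.mulVecLin_apply, Matrix.mulVec_mulVec,
          sub_mul, hW, one_mul, sub_self, Matrix.zero_mulVec]
      · rw [LinearMap.mem_ker, Matrix.mulVecLin_apply, Matrix.sub_mulVec, Matrix.one_mulVec,
          sub_eq_zero] at hv
        have h1 : WithLp.toLp 2 v ∈ U := by
          change T W (WithLp.toLp 2 v) = WithLp.toLp 2 v
          rw [Matrix.toEuclideanCLM_toLp, hv]
        have h2 := Matrix.toEuclideanCLM_toLp (T.symm U.starProjection) v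
        rw [T.apply_symm_apply, Submodule.starProjection_eq_self_iff.2 h1] at h2
        exact (WithLp.toLp_injective 2 h2).symm
    rw [fixDim, ← h.trace, ← Matrix.trace_toLin'_eq]
    rfl

end

end Crest.Agent.R174
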