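import Mathlib

/-!
# Row 174, degree part: definitions.  FROZEN.

Goal (`Core.degcore`): a family `W u l ∈ U(k+n)`, `u ∈ U(k)^m`, homotopic to `u_l^d γ ⊕ (-1)` has a member with
`dim ker (W u l - 1) ≥ k` for all `l`.  Unitaries with a fixed space of dimension `≥ k` are written as products
`R = r_{N-1} ⋯ r_k` (`N = k + n`) of complex reflections `r_j = 1 + c_j P_j`, where `P_j = v vᴴ`,
`v_s = ∏_{b<j} ℓ_b(s)` (`s ≤ j`) and the linear forms `ℓ_b` are points of 2-spheres
`{(w, h) : |w|² = h (1 - h)}` (`ℓ(s) conj ℓ(s') = h s s' + w s + conj w s' + 1 - h`).  A dummy real coordinate makes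
each sphere live in `ℂ × ℂ`.  Everything is polynomial, so `HH W : DE → DE` is a Euclidean zero problem.
-/

set_option autoImplicit false

open Matrix Finset
open scoped ComplexConjugate

namespace Crest.Agent.R174

noncomputable section

/-- entrywise `C¹` matrix-valued functions -/
def SM {E I J : Type*} [NormedAddCommGroup E] [NormedSpace ℝ E] (F : E → Matrix I J ℂ) : Prop :=
  ∀ a b, ContDiff ℝ 1 fun x => F x a b

/-- entrywise directional derivative -/
def dM {E I J : Type*} [NormedAddCommGroup E] [NormedSpace ℝ E] (F : E → Matrix I J ℂ) (x δ : E) :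
    Matrix I J ℂ :=
  Matrix.of fun a b => fderiv ℝ (fun y => F y a b) x δ

/-- the Hermitian matrix `(y - yᴴ) / 2i` -/
def ImM {I : Type*} (y : Matrix I I ℂ) : Matrix I I ℂ := (-Complex.I / 2) • (y - yᴴ)

/-- dimension of the fixed space -/
def fixDim {I : Type*} [Fintype I] [DecidableEq I] (W : Matrix I I ℂ) : ℕ :=
  Module.finrank ℂ (LinearMap.ker (W - 1).mulVecLin)

/-- `y ⊕ z • 1` on `Fin (k + n)` -/
def blk {k : ℕ} (n : ℕ) (y : Matrix (Fin k) (Fin k) ℂ) (z : ℂ) :
    Matrix (Fin (k + n)) (Fin (k + n)) ℂ :=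
  Matrix.of fun a b =>
    if h : a.val < k ∧ b.val < k then y ⟨a, h.1⟩ ⟨b, h.2⟩ else if a = b then z else 0

/-- indices `(j, b)` of the spheres: `k ≤ j`, `b < j` -/
abbrev PP (k n : ℕ) : Type := {q : Fin (k + n) × Fin (k + n) // k ≤ q.1.val ∧ q.2 < q.1}

/-- indices `j` of the reflections -/
abbrev CC (k n : ℕ) : Type := {j : Fin (k + n) // k ≤ j.val}

/-- `ℓ(s) conj ℓ(s')` -/
def Qf (p : ℂ × ℂ) (s s' : ℕ) : ℂ :=
  (p.2.re : ℂ) * s * s' + p.1 * s + conj p.1 * s' + (1 - (p.2.re : ℂ))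

/-- equation of the sphere (real part) and of the dummy coordinate (imaginary part) -/
def sph (p : ℂ × ℂ) : ℂ :=
  ((Complex.normSq p.1 - p.2.re * (1 - p.2.re) : ℝ) : ℂ) + (p.2.im : ℂ) * Complex.I

/-- the point of the sphere whose linear form vanishes at `a` -/
def node (a : ℕ) : ℂ × ℂ := (-(a : ℂ) / (1 + (a : ℂ) ^ 2), 1 / (1 + (a : ℂ) ^ 2))

variable {k n : ℕ}

/-- parameters of a product of reflections -/
abbrev RP (k n : ℕ) : Type := (PP k n → ℂ × ℂ) × (CC k n → ℂ)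

/-- the rank-one matrix `v vᴴ` -/
def Pm (p : PP k n → ℂ × ℂ) (j : CC k n) : Matrix (Fin (k + n)) (Fin (k + n)) ℂ :=
  Matrix.of fun s s' =>
    if s ≤ j.1 ∧ s' ≤ j.1 then ∏ b ∈ univ.filter (fun b : PP k n => b.1.1 = j.1), Qf (p b) s s'
    else 0

/-- equation of the circle: `1 + c P` is unitary -/
def circ (z : RP k n) (j : CC k n) : ℝ :=
  2 * (z.2 j).re + Complex.normSq (z.2 j) * (Pm z.1 j).trace.re

/-- the reflection `r_j` -/
def rf (z : RP k n) (j : CC k n) : Matrix (Fin (k + n)) (Fin (k + n)) ℂ := 1 + z.2 j • Pm z.1 j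

/-- partial products `r_{j-1} ⋯ r_k` -/
def Rp (z : RP k n) : ℕ → Matrix (Fin (k + n)) (Fin (k + n)) ℂ
  | 0 => 1
  | j + 1 => (if h : j < k + n ∧ k ≤ j then rf z ⟨⟨j, h.1⟩, h.2⟩ else 1) * Rp z j

/-- the product of all the reflections -/
def RR (z : RP k n) : Matrix (Fin (k + n)) (Fin (k + n)) ℂ := Rp z (k + n)

/-- the constraints -/
def Con (z : RP k n) : Prop := (∀ q, sph (z.1 q) = 0) ∧ ∀ j, circ z j = 0

/-- the base point: sphere `(j, b)` sits at `node b` -/
def p0 (k n : ℕ) : PP k n → ℂ × ℂ := fun q => node q.1.2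

def c0 (k n : ℕ) : CC k n → ℂ := fun j => -2 / (Pm (p0 k n) j).trace

def z0 (k n : ℕ) : RP k n := (p0 k n, c0 k n)

/-- `m` square matrices (as plain functions, so that they carry the sup norm) -/
abbrev UU (m k : ℕ) : Type := Fin m → Fin k → Fin k → ℂ

/-- the Euclidean space of the zero problem -/
abbrev DE (m k n : ℕ) : Type := UU m k × (Fin m → RP k n)

variable {m : ℕ}

/-- the `i`-th matrix -/
def um (u : UU m k) (i : Fin m) : Matrix (Fin k) (Fin k) ℂ := Matrix.of (u i)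

/-- all the matrices are unitary -/
def AllU (u : UU m k) : Prop := ∀ i, um u i ∈ Matrix.unitaryGroup (Fin k) ℂ

/-- packs Hermitian `A l`, Hermitian `Y l` and the sphere / circle equations into `DE` -/
def pack (A : Fin m → Matrix (Fin k) (Fin k) ℂ) (S : Fin m → PP k n → ℂ) (C : Fin m → CC k n → ℝ)
    (Y : Fin m → Matrix (Fin (k + n)) (Fin (k + n)) ℂ) : DE m k n :=
  (fun l a b => A l a b + Complex.I * Y l (Fin.castAdd n a) (Fin.castAdd n b),
   fun l => (fun q => (S l q, Y l q.1.2 q.1.1),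
     fun j => (C l j : ℂ) + ((Y l j.1 j.1).re : ℂ) * Complex.I))

/-- the zero problem -/
def HH (W : UU m k → Fin m → Matrix (Fin (k + n)) (Fin (k + n)) ℂ) (x : DE m k n) : DE m k n :=
  pack (fun l => (um x.1 l)ᴴ * um x.1 l - 1) (fun l q => sph ((x.2 l).1 q))
    (fun l j => circ (x.2 l) j) (fun l => ImM ((RR (x.2 l))ᴴ * W x.1 l))

/-- the open condition selecting the good zeros -/
def OO (W : UU m k → Fin m → Matrix (Fin (k + n)) (Fin (k + n)) ℂ) (x : DE m k n) : Prop :=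
  ∀ l, ((RR (x.2 l))ᴴ * W x.1 l + 1).det ≠ 0

/-- the model family `u_l ^ d * γ ⊕ (-1)` -/
def Wmod (n d : ℕ) (γ : Fin k → ℂ) (u : UU m k) (l : Fin m) :
    Matrix (Fin (k + n)) (Fin (k + n)) ℂ :=
  blk n (um u l ^ d * Matrix.diagonal γ) (-1)

end

end Crest.Agent.R174
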