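import Crest.Agent.R174.Refl

/-!
# Row 174: regularity, derivative and zeros of `HH`

`fderiv_HH`: `ext` to coordinates; each coordinate of `HH W` is an entry of an `SM` function (use `hasFDerivAt_pi`,
`HasFDerivAt.prodMk`, or evaluate `fderiv` after the coordinate projections), `dM_*` lemmas, `dM_comp_clm` for the
projections `x ↦ x.1`, `x ↦ x.2 l`.
`pack_eq_zero`: `A + i B = 0` with `A`, `B` Hermitian gives `A = B = 0`; an entry `(a,b)` of `Y l` lies in the upper left
block, or on the diagonal (real since `Y l` is Hermitian), or is `Y b j`, `b < j`, `k ≤ j`, or the conjugate of such.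
`zero_iff`: `y = Rᴴ W` is unitary and Hermitian, so `(y + 1)(y - 1) = 0`, and `y + 1` is invertible; conversely
`det (2 • 1) ≠ 0`.
-/

set_option autoImplicit false
set_option linter.unusedSectionVars false
set_option linter.unusedVariables false

open Matrix Finset
open scoped ComplexConjugate

namespace Crest.Agent.R174

noncomputable section

variable {m k n : ℕ}

/-- the source of `pack` as a normed space -/
abbrev DerSrc (m k n : ℕ) : Type :=
  (Fin m → Fin k → Fin k → ℂ) × (Fin m → PP k n → ℂ) × (Fin m → CC k n → ℝ) ×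
    (Fin m → Fin (k + n) → Fin (k + n) → ℂ)

/-- `pack` as a linear map -/
def derPackLin (m k n : ℕ) : DerSrc m k n →ₗ[ℝ] DE m k n where
  toFun t := pack (fun l => Matrix.of (t.1 l)) t.2.1 t.2.2.1 (fun l => Matrix.of (t.2.2.2 l))
  map_add' t t' := by
    refine Prod.ext ?_ ?_
    · funext l a b
      simp [pack]
      ring
    · funext l
      refine Prod.ext ?_ ?_
      · funext q
        simp [pack]
      · funext j
        simp [pack]
        ring
  map_smul' c t := by
    refine Prod.ext ?_ ?_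
    · funext l a b
      simp [pack]
      ring
    · funext l
      refine Prod.ext ?_ ?_
      · funext q
        simp [pack]
      · funext j
        simp [pack]
        ring

/-- `pack` as a continuous linear map -/
def derPack (m k n : ℕ) : DerSrc m k n →L[ℝ] DE m k n :=
  LinearMap.toContinuousLinearMap (derPackLin m k n)

theorem der_pack_eq (A : Fin m → Matrix (Fin k) (Fin k) ℂ) (S : Fin m → PP k n → ℂ)
    (C : Fin m → CC k n → ℝ) (Y : Fin m → Matrix (Fin (k + n)) (Fin (k + n)) ℂ) :
    pack A S C Y = derPack m k n (fun l a b => A l a b, S, C, fun l a b => Y l a b) := rfl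

section pack

variable {E : Type*} [NormedAddCommGroup E] [NormedSpace ℝ E]
  {A : E → Fin m → Matrix (Fin k) (Fin k) ℂ} {S : E → Fin m → PP k n → ℂ}
  {C : E → Fin m → CC k n → ℝ} {Y : E → Fin m → Matrix (Fin (k + n)) (Fin (k + n)) ℂ}

theorem der_contDiff_pack (hA : ∀ l, SM fun x => A x l) (hS : ∀ l q, ContDiff ℝ 1 fun x => S x l q)
    (hC : ∀ l j, ContDiff ℝ 1 fun x => C x l j) (hY : ∀ l, SM fun x => Y x l) :
    ContDiff ℝ 1 fun x => pack (A x) (S x) (C x) (Y x) := by
  simp only [der_pack_eq]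
  refine (derPack m k n).contDiff.comp (ContDiff.prodMk ?_ (ContDiff.prodMk ?_
    (ContDiff.prodMk ?_ ?_)))
  · exact contDiff_pi.2 fun l => contDiff_pi.2 fun a => contDiff_pi.2 fun b => hA l a b
  · exact contDiff_pi.2 fun l => contDiff_pi.2 fun q => hS l q
  · exact contDiff_pi.2 fun l => contDiff_pi.2 fun j => hC l j
  · exact contDiff_pi.2 fun l => contDiff_pi.2 fun a => contDiff_pi.2 fun b => hY l a b

theorem der_fderiv_pack (hA : ∀ l, SM fun x => A x l) (hS : ∀ l q, ContDiff ℝ 1 fun x => S x l q)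
    (hC : ∀ l j, ContDiff ℝ 1 fun x => C x l j) (hY : ∀ l, SM fun x => Y x l) (x δ : E) :
    fderiv ℝ (fun x => pack (A x) (S x) (C x) (Y x)) x δ =
      pack (fun l => dM (fun y => A y l) x δ) (fun l q => fderiv ℝ (fun y => S y l q) x δ)
        (fun l j => fderiv ℝ (fun y => C y l j) x δ) (fun l => dM (fun y => Y y l) x δ) := by
  have h1 : HasFDerivAt (fun x => fun l a b => A x l a b) (ContinuousLinearMap.pi fun l =>
      ContinuousLinearMap.pi fun a => ContinuousLinearMap.pi fun b =>
        fderiv ℝ (fun y => A y l a b) x) x :=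
    hasFDerivAt_pi.2 fun l => hasFDerivAt_pi.2 fun a => hasFDerivAt_pi.2 fun b =>
      ((hA l a b).differentiable one_ne_zero x).hasFDerivAt
  have h2 : HasFDerivAt S (ContinuousLinearMap.pi fun l =>
      ContinuousLinearMap.pi fun q => fderiv ℝ (fun y => S y l q) x) x :=
    hasFDerivAt_pi.2 fun l => hasFDerivAt_pi.2 fun q =>
      ((hS l q).differentiable one_ne_zero x).hasFDerivAt
  have h3 : HasFDerivAt C (ContinuousLinearMap.pi fun l =>
      ContinuousLinearMap.pi fun j => fderiv ℝ (fun y => C y l j) x) x :=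
    hasFDerivAt_pi.2 fun l => hasFDerivAt_pi.2 fun j =>
      ((hC l j).differentiable one_ne_zero x).hasFDerivAt
  have h4 : HasFDerivAt (fun x => fun l a b => Y x l a b) (ContinuousLinearMap.pi fun l =>
      ContinuousLinearMap.pi fun a => ContinuousLinearMap.pi fun b =>
        fderiv ℝ (fun y => Y y l a b) x) x :=
    hasFDerivAt_pi.2 fun l => hasFDerivAt_pi.2 fun a => hasFDerivAt_pi.2 fun b =>
      ((hY l a b).differentiable one_ne_zero x).hasFDerivAt
  have h := (derPack m k n).hasFDerivAt.comp x (h1.prodMk (h2.prodMk (h3.prodMk h4)))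
  have h' : fderiv ℝ (fun x => pack (A x) (S x) (C x) (Y x)) x = _ := h.fderiv
  rw [h']
  rfl

end pack

theorem der_cd_fst : ContDiff ℝ 1 fun x : DE m k n => x.1 := contDiff_fst

theorem der_cd_snd (l : Fin m) : ContDiff ℝ 1 fun x : DE m k n => x.2 l := by fun_prop

theorem der_SM_A (l : Fin m) : SM fun x : DE m k n => (um x.1 l)ᴴ * um x.1 l - 1 :=
  (((SM.um l).comp der_cd_fst).conjTranspose.mul ((SM.um l).comp der_cd_fst)).sub (SM.const _)

theorem der_cd_S (l : Fin m) (q : PP k n) : ContDiff ℝ 1 fun x : DE m k n => sph ((x.2 l).1 q) :=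
  contDiff_sph.comp (by fun_prop)

theorem der_cd_C (l : Fin m) (j : CC k n) : ContDiff ℝ 1 fun x : DE m k n => circ (x.2 l) j :=
  (contDiff_circ j).comp (der_cd_snd l)

theorem der_SM_R (l : Fin m) : SM fun x : DE m k n => RR (x.2 l) := SM_RR.comp (der_cd_snd l)

theorem contDiff_HH {W : UU m k → Fin m → Matrix (Fin (k + n)) (Fin (k + n)) ℂ}
    (hW : ∀ l, SM fun u => W u l) : ContDiff ℝ 1 (HH W) := by
  exact der_contDiff_pack der_SM_A der_cd_S der_cd_C fun l =>
    ((der_SM_R l).conjTranspose.mul ((hW l).comp der_cd_fst)).ImM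

theorem continuous_HH {W : ℝ → UU m k → Fin m → Matrix (Fin (k + n)) (Fin (k + n)) ℂ}
    (hW : Continuous fun z : ℝ × UU m k => W z.1 z.2) :
    Continuous fun z : ℝ × DE m k n => HH (W z.1) z.2 := by
  have hW' : ∀ l, Continuous fun z : ℝ × DE m k n => W z.1 z.2.1 l := fun l =>
    (continuous_apply l).comp (hW.comp (continuous_fst.prodMk continuous_snd.fst))
  have hY : ∀ l, Continuous fun z : ℝ × DE m k n => ImM ((RR (z.2.2 l))ᴴ * W z.1 z.2.1 l) :=
    fun l => by
      have h1 : Continuous fun z : ℝ × DE m k n => (RR (z.2.2 l))ᴴ * W z.1 z.2.1 l :=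
        ((der_SM_R l).continuous.comp continuous_snd).matrix_conjTranspose.matrix_mul (hW' l)
      unfold ImM
      exact (h1.sub h1.matrix_conjTranspose).const_smul (-Complex.I / 2)
  simp only [HH, der_pack_eq]
  refine (derPack m k n).continuous.comp (Continuous.prodMk ?_ (Continuous.prodMk ?_
    (Continuous.prodMk ?_ ?_)))
  · exact continuous_pi fun l => continuous_pi fun a => continuous_pi fun b =>
      (der_SM_A l a b).continuous.comp continuous_snd
  · exact continuous_pi fun l => continuous_pi fun q =>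
      (der_cd_S l q).continuous.comp continuous_snd
  · exact continuous_pi fun l => continuous_pi fun j =>
      (der_cd_C l j).continuous.comp continuous_snd
  · exact continuous_pi fun l => continuous_pi fun a => continuous_pi fun b =>
      (hY l).matrix_elem a b

theorem isOpen_OO {W : ℝ → UU m k → Fin m → Matrix (Fin (k + n)) (Fin (k + n)) ℂ}
    (hW : Continuous fun z : ℝ × UU m k => W z.1 z.2) :
    IsOpen {z : ℝ × DE m k n | OO (W z.1) z.2} := by
  have hW' : ∀ l, Continuous fun z : ℝ × DE m k n => W z.1 z.2.1 l := fun l =>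
    (continuous_apply l).comp (hW.comp (continuous_fst.prodMk continuous_snd.fst))
  simp only [OO, Set.ofPred_forall]
  refine isOpen_iInter_of_finite fun l => isOpen_ne_fun ?_ continuous_const
  exact ((((der_SM_R l).continuous.comp continuous_snd).matrix_conjTranspose.matrix_mul
    (hW' l)).add continuous_const).matrix_det

theorem fderiv_HH {W : UU m k → Fin m → Matrix (Fin (k + n)) (Fin (k + n)) ℂ}
    (hW : ∀ l, SM fun u => W u l) (x δ : DE m k n) :
    fderiv ℝ (HH W) x δ =
      pack (fun l => (um δ.1 l)ᴴ * um x.1 l + (um x.1 l)ᴴ * um δ.1 l)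
        (fun l q => fderiv ℝ sph ((x.2 l).1 q) ((δ.2 l).1 q))
        (fun l j => fderiv ℝ (fun z : RP k n => circ z j) (x.2 l) (δ.2 l))
        (fun l => ImM ((dM RR (x.2 l) (δ.2 l))ᴴ * W x.1 l +
          (RR (x.2 l))ᴴ * dM (fun u => W u l) x.1 δ.1)) := by
  have hWl : ∀ l, SM fun x : DE m k n => W x.1 l := fun l => (hW l).comp der_cd_fst
  have hU : ∀ l, SM fun x : DE m k n => um x.1 l := fun l => (SM.um l).comp der_cd_fst
  let π₁ : DE m k n →L[ℝ] UU m k := ContinuousLinearMap.fst ℝ _ _
  let π₂ : Fin m → DE m k n →L[ℝ] RP k n := fun l =>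
    (ContinuousLinearMap.proj l).comp (ContinuousLinearMap.snd ℝ _ _)
  let π₃ : Fin m → PP k n → DE m k n →L[ℝ] ℂ × ℂ := fun l q =>
    ((ContinuousLinearMap.proj q).comp (ContinuousLinearMap.fst ℝ _ _)).comp (π₂ l)
  have e1 : ∀ l, dM (fun y : DE m k n => um y.1 l) x δ = um δ.1 l := fun l =>
    (dM_comp_clm (SM.um l) π₁ x δ).trans (dM_um l _ _)
  have e2 : ∀ l, dM (fun y : DE m k n => RR (y.2 l)) x δ = dM RR (x.2 l) (δ.2 l) := fun l =>
    dM_comp_clm SM_RR (π₂ l) x δ
  have e3 : ∀ l, dM (fun y : DE m k n => W y.1 l) x δ = dM (fun u => W u l) x.1 δ.1 := fun l =>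
    dM_comp_clm (hW l) π₁ x δ
  have h := der_fderiv_pack (der_SM_A (m := m) (k := k) (n := n)) der_cd_S der_cd_C (fun l =>
    ((der_SM_R l).conjTranspose.mul (hWl l)).ImM) x δ
  refine h.trans ?_
  congr 1
  · funext l
    rw [dM_sub ((hU l).conjTranspose.mul (hU l)) (SM.const _), dM_const, sub_zero,
      dM_mul (hU l).conjTranspose (hU l), dM_conjTranspose (hU l), e1]
  · funext l q
    have := ((contDiff_sph.differentiable one_ne_zero (π₃ l q x)).hasFDerivAt.comp x
      (π₃ l q).hasFDerivAt).fderiv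
    exact congrArg (fun L => L δ) this
  · funext l j
    have := (((contDiff_circ j).differentiable one_ne_zero (π₂ l x)).hasFDerivAt.comp x
      (π₂ l).hasFDerivAt).fderiv
    exact congrArg (fun L => L δ) this
  · funext l
    rw [dM_ImM ((der_SM_R l).conjTranspose.mul (hWl l)), dM_mul (der_SM_R l).conjTranspose (hWl l),
      dM_conjTranspose (der_SM_R l), e2, e3]

theorem pack_eq_zero {A : Fin m → Matrix (Fin k) (Fin k) ℂ} {S : Fin m → PP k n → ℂ}
    {C : Fin m → CC k n → ℝ} {Y : Fin m → Matrix (Fin (k + n)) (Fin (k + n)) ℂ}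
    (hA : ∀ l, (A l).IsHermitian) (hY : ∀ l, (Y l).IsHermitian) :
    pack A S C Y = 0 ↔ A = 0 ∧ S = 0 ∧ C = 0 ∧ Y = 0 := by
  constructor
  · intro h
    have h1 : ∀ l a b, A l a b + Complex.I * Y l (Fin.castAdd n a) (Fin.castAdd n b) = 0 :=
      fun l a b => congrArg (fun t : DE m k n => t.1 l a b) h
    have h2 : ∀ l q, S l q = 0 := fun l q => congrArg (fun t : DE m k n => ((t.2 l).1 q).1) h
    have h3 : ∀ l (q : PP k n), Y l q.1.2 q.1.1 = 0 := fun l q =>
      congrArg (fun t : DE m k n => ((t.2 l).1 q).2) h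
    have h4 : ∀ l (j : CC k n), (C l j : ℂ) + ((Y l j.1 j.1).re : ℂ) * Complex.I = 0 := fun l j =>
      congrArg (fun t : DE m k n => (t.2 l).2 j) h
    have h5 : ∀ l a b, A l a b - Complex.I * Y l (Fin.castAdd n a) (Fin.castAdd n b) = 0 :=
      fun l a b => by
        have := congrArg conj (h1 l b a)
        rw [map_add, map_mul, Complex.conj_I, map_zero] at this
        have ea : conj (A l b a) = A l a b := (hA l).apply a b
        have ey : conj (Y l (Fin.castAdd n b) (Fin.castAdd n a)) =
            Y l (Fin.castAdd n a) (Fin.castAdd n b) := (hY l).apply _ _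
        rw [ea, ey] at this
        linear_combination this
    have hA0 : ∀ l a b, A l a b = 0 := fun l a b => by
      linear_combination (h1 l a b + h5 l a b) / 2
    have hY0 : ∀ l a b, Y l (Fin.castAdd n a) (Fin.castAdd n b) = 0 := fun l a b => by
      have := h1 l a b
      rw [hA0, zero_add] at this
      exact (mul_eq_zero.1 this).resolve_left Complex.I_ne_zero
    have hle : ∀ l (a b : Fin (k + n)), a ≤ b → Y l a b = 0 := fun l a b hab => by
      by_cases hb : k ≤ b.val
      · rcases hab.lt_or_eq with hab | rfl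
        · exact h3 l ⟨(b, a), hb, hab⟩
        · have hre : (Y l a a).re = 0 := by
            have := congrArg Complex.im (h4 l ⟨a, hb⟩)
            simpa using this
          have him : (Y l a a).im = 0 := Complex.conj_eq_iff_im.1 ((hY l).apply a a)
          exact Complex.ext hre him
      · have ha : a.val ≤ b.val := hab
        exact hY0 l ⟨a, by omega⟩ ⟨b, by omega⟩
    refine ⟨?_, ?_, ?_, ?_⟩
    · funext l
      ext a b
      exact hA0 l a b
    · funext l q
      exact h2 l q
    · funext l j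
      have := congrArg Complex.re (h4 l j)
      simpa using this
    · funext l
      ext a b
      rcases le_total a b with hab | hab
      · exact hle l a b hab
      · have := (hY l).apply a b
        rw [hle l b a hab, star_zero] at this
        exact this.symm
  · rintro ⟨rfl, rfl, rfl, rfl⟩
    exact (der_pack_eq _ _ _ _).trans (derPack m k n).map_zero

theorem zero_iff {W : UU m k → Fin m → Matrix (Fin (k + n)) (Fin (k + n)) ℂ}
    (hW : ∀ u, AllU u → ∀ l, W u l ∈ Matrix.unitaryGroup (Fin (k + n)) ℂ) (x : DE m k n) :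
    (OO W x ∧ HH W x = 0) ↔
      (AllU x.1 ∧ (∀ l, Con (x.2 l)) ∧ ∀ l, RR (x.2 l) = W x.1 l) := by
  have hH : ∀ l, ((um x.1 l)ᴴ * um x.1 l - 1).IsHermitian := fun l =>
    (Matrix.isHermitian_conjTranspose_mul_self _).sub Matrix.isHermitian_one
  unfold HH
  rw [pack_eq_zero hH fun l => ImM_isHermitian _]
  constructor
  · rintro ⟨hO, hA, hS, hC, hY⟩
    have hU : AllU x.1 := fun l =>
      Matrix.mem_unitaryGroup_iff'.2 (sub_eq_zero.1 (congrFun hA l))
    have hCon : ∀ l, Con (x.2 l) := fun l =>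
      ⟨fun q => congrFun (congrFun hS l) q, fun j => congrFun (congrFun hC l) j⟩
    refine ⟨hU, hCon, fun l => ?_⟩
    have hR := RR_unitary (hCon l)
    have hy : (RR (x.2 l))ᴴ * W x.1 l ∈ Matrix.unitaryGroup (Fin (k + n)) ℂ :=
      mul_mem (Unitary.star_mem hR) (hW _ hU l)
    have hh : ((RR (x.2 l))ᴴ * W x.1 l)ᴴ = (RR (x.2 l))ᴴ * W x.1 l :=
      (ImM_eq_zero_iff _).1 (congrFun hY l)
    have hO' := hO l
    have hRR : RR (x.2 l) * (RR (x.2 l))ᴴ = 1 := Matrix.mem_unitaryGroup_iff.1 hR
    have hW1 : W x.1 l = RR (x.2 l) * ((RR (x.2 l))ᴴ * W x.1 l) := by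
      rw [← Matrix.mul_assoc, hRR, Matrix.one_mul]
    generalize (RR (x.2 l))ᴴ * W x.1 l = y at hy hh hO' hW1
    have hyy : y * y = 1 := by
      have : yᴴ * y = 1 := Matrix.mem_unitaryGroup_iff'.1 hy
      rwa [hh] at this
    have h0 : (y + 1) * (y - 1) = 0 := by
      rw [add_mul, mul_sub, hyy, mul_one, one_mul]
      abel
    have hu : IsUnit (y + 1) := (Matrix.isUnit_iff_isUnit_det _).2 (isUnit_iff_ne_zero.2 hO')
    have hy1 : y = 1 := sub_eq_zero.1 (hu.mul_right_eq_zero.1 h0)
    rw [hW1, hy1, mul_one]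
  · rintro ⟨hU, hCon, hRW⟩
    have h1 : ∀ l, (RR (x.2 l))ᴴ * W x.1 l = 1 := fun l => by
      rw [← hRW l]
      exact Matrix.mem_unitaryGroup_iff'.1 (RR_unitary (hCon l))
    refine ⟨fun l => ?_, ?_, ?_, ?_, ?_⟩
    · rw [h1, ← two_smul ℂ, Matrix.det_smul, Matrix.det_one, mul_one]
      exact pow_ne_zero _ two_ne_zero
    · funext l
      exact sub_eq_zero.2 (Matrix.mem_unitaryGroup_iff'.1 (hU l))
    · funext l q
      exact (hCon l).1 q
    · funext l j
      exact (hCon l).2 j
    · funext l
      show ImM _ = 0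
      rw [h1, ImM_eq_zero_iff, Matrix.conjTranspose_one]

theorem SM_Wmod (d : ℕ) (γ : Fin k → ℂ) (l : Fin m) : SM fun u : UU m k => Wmod n d γ u l := by
  exact (((SM.um l).pow d).mul (SM.const _)).blk n _

theorem Wmod_unitary (d : ℕ) {γ : Fin k → ℂ} (hγ : ∀ c, ‖γ c‖ = 1) (u : UU m k) (hu : AllU u)
    (l : Fin m) : Wmod n d γ u l ∈ Matrix.unitaryGroup (Fin (k + n)) ℂ := by
  refine blk_mem_unitary n (mul_mem (pow_mem (hu l) d) ?_) (by simp)
  rw [Matrix.mem_unitaryGroup_iff, Matrix.star_eq_conjTranspose, Matrix.diagonal_conjTranspose,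
    Matrix.diagonal_mul_diagonal, ← Matrix.diagonal_one]
  congr 1
  funext c
  show γ c * conj (γ c) = 1
  rw [Complex.mul_conj, Complex.normSq_eq_norm_sq, hγ]
  simp

theorem isCompact_allU : IsCompact {u : UU m k | AllU u} := by
  refine Metric.isCompact_of_isClosed_isBounded ?_ ?_
  · simp only [AllU, Set.ofPred_forall, Matrix.mem_unitaryGroup_iff']
    refine isClosed_iInter fun l => isClosed_eq ?_ continuous_const
    exact (SM.um l).continuous.matrix_conjTranspose.matrix_mul (SM.um l).continuous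
  · refine (Metric.isBounded_closedBall (x := (0 : UU m k)) (r := 1)).subset fun u hu => ?_
    rw [mem_closedBall_zero_iff]
    refine (pi_norm_le_iff_of_nonneg zero_le_one).2 fun l =>
      (pi_norm_le_iff_of_nonneg zero_le_one).2 fun a =>
        (pi_norm_le_iff_of_nonneg zero_le_one).2 fun b => ?_
    exact entry_norm_bound_of_unitary (hu l) a b

end

end Crest.Agent.R174
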