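import Crest.Agent.R174.TDefs

/-!
# Row 174: faces of a noncrossing matching

`f = c * M`.  `sum_cycle`: the minimal period is constant on a cycle and equals its cardinality
(`MulAction.minimalPeriod_eq_card`, `Function.minimalPeriod_apply_iterate`, or an explicit bijection `range ℓ → cycle`).
`faces`: call `q` *opening* if `pos q < pos (M q)`; `M` maps openings bijectively to closings, so the number of openings is
half the number of non-fixed points.  `Enc p = {q | pos q < pos p ∧ pos p ≤ pos (M q)}` satisfies `Enc (f p) = Enc p`
(cases `M p = p`, `p` opening, `p` closing; noncrossing; if `pos (M p) + 1 = n` both sets are empty).  `Enc o = ∅`; for `q` opening,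
`Enc (c q)` contains `q` as the element of largest `pos` (`pos (c q) = pos q + 1`).  So the cycles of `c q`, `q` opening, are pairwise
disjoint and disjoint from the cycle of `o`; sum `sum_cycle` over them (`Finset.sum_biUnion`).
-/

set_option autoImplicit false
set_option linter.unusedSectionVars false
set_option linter.unusedVariables false

open Matrix Finset
open scoped ComplexConjugate

namespace Crest.Agent.R174

noncomputable section

variable {X : Type} [Fintype X] [DecidableEq X]

theorem faces_iterate {f : Equiv.Perm X} {x y : X} (h : f.SameCycle x y) : ∃ i : ℕ, f^[i] x = y := by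
  obtain ⟨i, -, hi⟩ := h.exists_pow_eq'
  exact ⟨i, by rw [← hi, Equiv.Perm.coe_pow]⟩

theorem sum_cycle (f : Equiv.Perm X) (o : X) :
    ∑ p ∈ univ.filter (fun p => f.SameCycle o p), 1 / (Function.minimalPeriod f p : ℝ) = 1 := by
  have hper : o ∈ Function.periodicPts f := f.injective.mem_periodicPts o
  have hpos := Function.minimalPeriod_pos_of_mem_periodicPts hper
  have hcard : (univ.filter fun p => f.SameCycle o p).card = Function.minimalPeriod f o := by
    have e : (univ.filter fun p => f.SameCycle o p) =
        (range (Function.minimalPeriod f o)).image fun i => f^[i] o := by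
      ext p
      simp only [mem_filter, mem_univ, true_and, mem_image, mem_range]
      constructor
      · intro h
        obtain ⟨i, rfl⟩ := faces_iterate h
        exact ⟨_, Nat.mod_lt i hpos, Function.iterate_mod_minimalPeriod_eq⟩
      · rintro ⟨i, -, rfl⟩
        exact ⟨i, by rw [zpow_natCast, Equiv.Perm.coe_pow]⟩
    rw [e, card_image_of_injOn, card_range]
    rw [coe_range]
    exact Function.iterate_injOn_Iio_minimalPeriod
  rw [sum_congr rfl (g := fun _ => 1 / (Function.minimalPeriod f o : ℝ)), sum_const, hcard,
    nsmul_eq_mul, mul_one_div_cancel (by exact_mod_cast hpos.ne')]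
  intro p hp
  obtain ⟨i, rfl⟩ := faces_iterate (mem_filter.1 hp).2
  rw [Function.minimalPeriod_apply_iterate hper]

theorem minimalPeriod_bounds (f : Equiv.Perm X) (p : X) :
    0 < Function.minimalPeriod f p ∧ Function.minimalPeriod f p ≤ Fintype.card X := by
  exact ⟨Function.minimalPeriod_pos_of_mem_periodicPts (f.injective.mem_periodicPts p),
    Function.minimalPeriod_le_card⟩

theorem faces (pos : X → ℕ) (hinj : Function.Injective pos) (hlt : ∀ p, pos p < Fintype.card X)
    (c : Equiv.Perm X) (hc : ∀ p, pos (c p) = (pos p + 1) % Fintype.card X) (o : X) (ho : pos o = 0)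
    (M : Equiv.Perm X) (hM : ∀ p, M (M p) = p)
    (hnc : ∀ p q, pos p < pos q → pos q < pos (M p) → pos (M p) < pos (M q) → False) :
    ((univ.filter fun p => M p ≠ p).card : ℝ) / 2 ≤
      ∑ p ∈ univ.filter (fun p => ¬ (c * M).SameCycle o p),
        1 / (Function.minimalPeriod (c * M) p : ℝ) := by
  set E : X → X → Prop := fun q p => pos q < pos p ∧ pos p ≤ pos (M q) with hE
  have step : ∀ q p, E q ((c * M) p) ↔ E q p := by
    intro q p
    have hnc' : ∀ p q, ¬ (pos p < pos q ∧ pos q < pos (M p) ∧ pos (M p) < pos (M q)) :=
      fun p q h => hnc p q h.1 h.2.1 h.2.2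
    have h1 := hnc' p q
    have h2 := hnc' q p
    have h3 := hnc' (M p) q
    have h4 := hnc' q (M p)
    rw [hM] at h3 h4
    have e1 : pos p = pos q → pos (M p) = pos (M q) := fun h => by rw [hinj h]
    have e2 : pos p = pos (M q) → pos (M p) = pos q := fun h => by rw [hinj h, hM]
    have e3 : pos (M p) = pos q → pos p = pos (M q) := fun h => by rw [← hinj h, hM]
    have e4 : pos (M p) = pos (M q) → pos p = pos q := fun h => by rw [M.injective (hinj h)]
    have l1 := hlt (M p)
    have l2 := hlt (M q)
    simp only [hE, Equiv.Perm.mul_apply, hc]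
    rcases (Nat.succ_le_of_lt l1).lt_or_eq with h | h
    · rw [Nat.mod_eq_of_lt h]; omega
    · rw [show pos (M p) + 1 = Fintype.card X from h, Nat.mod_self]; omega
  have cyc : ∀ q x y, (c * M).SameCycle x y → (E q x ↔ E q y) := by
    intro q x y h
    obtain ⟨i, rfl⟩ := faces_iterate h
    clear h
    induction i with
    | zero => rfl
    | succ i ih => rw [Function.iterate_succ_apply', step, ih]
  set O : Finset X := univ.filter fun q => pos q < pos (M q) with hO
  have hcq : ∀ q ∈ O, pos (c q) = pos q + 1 := fun q hq => by
    have h1 := (mem_filter.1 hq).2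
    have h2 := hlt (M q)
    rw [hc, Nat.mod_eq_of_lt (by omega)]
  have hEq : ∀ q ∈ O, E q (c q) := fun q hq => by
    have h1 := (mem_filter.1 hq).2
    simp only [hE, hcq q hq]
    omega
  have hcard : (univ.filter fun p => M p ≠ p).card ≤ O.card + O.card := by
    refine (card_le_card (t := O ∪ O.image M) fun p hp => ?_).trans
      ((card_union_le _ _).trans (Nat.add_le_add_left card_image_le _))
    have h1 : pos (M p) ≠ pos p := fun h => (mem_filter.1 hp).2 (hinj h)
    rcases h1.lt_or_gt with h | h
    · exact mem_union_right _ (mem_image.2 ⟨M p, mem_filter.2 ⟨mem_univ _, by rwa [hM]⟩, hM p⟩)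
    · exact mem_union_left _ (mem_filter.2 ⟨mem_univ _, h⟩)
  have hdisj : (O : Set X).PairwiseDisjoint
      fun q => univ.filter fun p => (c * M).SameCycle (c q) p := by
    intro q hq q' hq' hne
    refine disjoint_left.2 fun p hp hp' => hne (hinj ?_)
    have h := (mem_filter.1 hp).2.trans (mem_filter.1 hp').2.symm
    have h1 := ((cyc q _ _ h).1 (hEq q hq)).1
    have h2 := ((cyc q' _ _ h).2 (hEq q' hq')).1
    rw [hcq q' hq'] at h1
    rw [hcq q hq] at h2
    omega
  calc ((univ.filter fun p => M p ≠ p).card : ℝ) / 2 ≤ O.card := by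
        have : ((univ.filter fun p => M p ≠ p).card : ℝ) ≤ O.card + O.card := by
          exact_mod_cast hcard
        linarith
    _ = ∑ q ∈ O, ∑ p ∈ univ.filter (fun p => (c * M).SameCycle (c q) p),
          1 / (Function.minimalPeriod (c * M) p : ℝ) := by
        simp only [sum_cycle, sum_const, nsmul_eq_mul, mul_one]
    _ = ∑ p ∈ O.biUnion fun q => univ.filter (fun p => (c * M).SameCycle (c q) p),
          1 / (Function.minimalPeriod (c * M) p : ℝ) := (sum_biUnion hdisj).symm
    _ ≤ _ := by
        refine sum_le_sum_of_subset_of_nonneg (fun p hp => ?_) fun _ _ _ => by positivity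
        obtain ⟨q, hq, hp⟩ := mem_biUnion.1 hp
        refine mem_filter.2 ⟨mem_univ _, fun h => ?_⟩
        have h1 := ((cyc q _ _ ((mem_filter.1 hp).2.trans h.symm)).1 (hEq q hq)).1
        omega

end

end Crest.Agent.R174
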