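import Crest.Agent.R174.LowA
import Crest.Agent.R174.Block

/-!
# Row 174: choice of the unitary pairing

`exists_fix`: `degblock` with `β = Fin m × Bool × Fin T`, `ty = b.1`, `sg = b.2.1`,
`f b p c = if p = (disc.symm (b.1, c, b.2.1), b.2.2) then 1 else 0`, `S l = {b | s ≤ b.2.2 < s + L ∧ y b.1 b.2.1 b.2.2 = inr (l, true)}`
(`hcount` is `Λ.count`), `E l = diagonal [x p = inr (l, true)]`, `J₀ = Jm s L (uu disc 1)`, `α l = J₀ Mθ E l - (1 - E l)`; it is unitary because
`J₀ Mθ` is unitary and commutes with `E l` (`Jm_compat`, `hMt`, `hMG`: both factors invert letters).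
With `V l = 1 + ∑ b ∈ S l, f b (v b - 1) (f b)ᴴ`: entrywise `V l * E l = Jm (uu u) * J₀ * E l` and `V l * (1 - E l) = 1 - E l`
(`Jm (uu u) * J₀` has entries `[q.2 = p.2] · (uu u * uu 1) q.1 p.1` on relator columns, and `uu u * uu 1 = u ⊕ uᴴ`),
so `V l * α l = Jm (uu u) Mθ E l - (1 - E l) =: W`.  Take `q` from `exists_fix_proj W`; `(1 - E l) W = -(1 - E l)` gives `(1 - E l) q = 0`.
-/

set_option autoImplicit false
set_option linter.unusedSectionVars false
set_option linter.unusedVariables false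

open Matrix Finset
open scoped ComplexConjugate

namespace Crest.Agent.R174

noncomputable section

section uu

variable {K m k : ℕ} (disc : Fin K ≃ Fin m × Fin k × Bool) (u : Fin m → Matrix (Fin k) (Fin k) ℂ)

theorem Fix_uu_apply (i' i : Fin m) (c' c : Fin k) (b' b : Bool) :
    uu disc u (disc.symm (i', c', b')) (disc.symm (i, c, b)) =
      if i' = i then
        (if b' = true ∧ b = false then u i c' c else if b' = false ∧ b = true then (u i)ᴴ c' c else 0)
      else 0 := by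
  simp only [uu, Matrix.of_apply, Equiv.apply_symm_apply]

theorem Fix_uu_mul_apply (v : Fin m → Matrix (Fin k) (Fin k) ℂ) (i' i : Fin m) (c' c : Fin k)
    (b' b : Bool) :
    (uu disc u * uu disc v) (disc.symm (i', c', b')) (disc.symm (i, c, b)) =
      if i' = i ∧ b' = b then
        (if b = true then (u i * (v i)ᴴ) c' c else ((u i)ᴴ * v i) c' c)
      else 0 := by
  rw [Matrix.mul_apply, ← Equiv.sum_comp disc.symm, Fintype.sum_prod_type,
    Finset.sum_eq_single i]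
  · simp only [Fintype.sum_prod_type, Fix_uu_apply, Fintype.sum_bool]
    by_cases h : i' = i
    · subst h
      cases b <;> cases b' <;> simp [Matrix.mul_apply]
    · simp [h]
  · intro i'' _ h
    refine Finset.sum_eq_zero fun z _ => ?_
    obtain ⟨c'', b''⟩ := z
    rw [Fix_uu_apply disc v, if_neg h, mul_zero]
  · simp

theorem uu_conjTranspose : (uu disc u)ᴴ = uu disc u := by
  ext D' D
  obtain ⟨⟨i', c', b'⟩, rfl⟩ := disc.symm.surjective D'
  obtain ⟨⟨i, c, b⟩, rfl⟩ := disc.symm.surjective D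
  rw [conjTranspose_apply, Fix_uu_apply, Fix_uu_apply]
  by_cases h : i' = i
  · subst h
    cases b <;> cases b' <;> simp
  · simp [h, Ne.symm h]

theorem uu_mul_self (hu : ∀ i, u i ∈ Matrix.unitaryGroup (Fin k) ℂ) : uu disc u * uu disc u = 1 := by
  ext D' D
  obtain ⟨⟨i', c', b'⟩, rfl⟩ := disc.symm.surjective D'
  obtain ⟨⟨i, c, b⟩, rfl⟩ := disc.symm.surjective D
  have h1 : u i * (u i)ᴴ = 1 := Matrix.mem_unitaryGroup_iff.1 (hu i)
  have h2 : (u i)ᴴ * u i = 1 := Matrix.mem_unitaryGroup_iff'.1 (hu i)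
  rw [Fix_uu_mul_apply, h1, h2, ite_self]
  simp only [Matrix.one_apply, EmbeddingLike.apply_eq_iff_eq, Prod.mk.injEq]
  by_cases hi : i' = i <;> by_cases hb : b' = b <;> simp [hi, hb]

theorem uu_diag (D : Fin K) : uu disc u D D = 0 := by
  obtain ⟨⟨i, c, b⟩, rfl⟩ := disc.symm.surjective D
  rw [Fix_uu_apply]
  cases b <;> simp

end uu

section Mth

variable {X : Type} [Fintype X] [DecidableEq X] (pos : X → ℕ) (M : X → X) (ε : ℝ)

theorem Mth_conjTranspose (hM : ∀ p, M (M p) = p) : (Mth pos M ε)ᴴ = Mth pos M ε := by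
  ext q p
  simp only [conjTranspose_apply, Mth, Matrix.of_apply]
  by_cases h : q = M p
  · subst h
    rw [hM, if_pos rfl, if_pos rfl, Complex.star_def, ← Complex.exp_conj]
    congr 1
    simp only [map_mul, Complex.conj_ofReal, Complex.conj_I]
    push_cast
    ring
  · have h' : ¬ p = M q := fun e => h (by rw [e, hM])
    simp [h, h']

theorem Fix_mul_Mth (A : Matrix X X ℂ) (q p : X) :
    (A * Mth pos M ε) q p =
      A q (M p) * Complex.exp (((ε * ((pos (M p) : ℝ) - pos p) : ℝ) : ℂ) * Complex.I) := by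
  rw [Matrix.mul_apply, Finset.sum_eq_single (M p)]
  · simp [Mth]
  · intro r _ h
    simp [Mth, h]
  · simp

theorem Mth_mul_self (hM : ∀ p, M (M p) = p) : Mth pos M ε * Mth pos M ε = 1 := by
  ext q p
  rw [Fix_mul_Mth]
  simp only [Mth, Matrix.of_apply, hM, Matrix.one_apply]
  split_ifs with h
  · rw [← Complex.exp_add, ← Complex.exp_zero]
    congr 1
    push_cast
    ring
  · simp

theorem Mth_fixed {p : X} (hp : M p = p) (q : X) : Mth pos M ε q p = if q = p then 1 else 0 := by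
  simp [Mth, hp]

end Mth

variable {G : Type*} [Group G] {g : G} (Λ : Lolli g)

theorem Fix_rel_rev {s L : ℕ} (j : Fin (2 * s + L)) :
    (s ≤ j.rev.val ∧ j.rev.val < s + L) ↔ (s ≤ j.val ∧ j.val < s + L) := by
  have := j.isLt
  rw [Fin.val_rev]
  omega

theorem Fix_Jm_mul {K s L : ℕ} (U U' : Matrix (Fin K) (Fin K) ℂ)
    (q p : Fin K × Fin (2 * s + L)) :
    (Jm s L U * Jm s L U') q p =
      if q.2 = p.2 then
        (if s ≤ p.2.val ∧ p.2.val < s + L then (U * U') q.1 p.1 else if q.1 = p.1 then 1 else 0)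
      else 0 := by
  rw [Matrix.mul_apply, Fintype.sum_prod_type_right, Finset.sum_eq_single p.2.rev]
  · simp only [Jm, Matrix.of_apply, Fin.rev_rev, if_true, Fix_rel_rev]
    by_cases h : q.2 = p.2
    · by_cases hr : s ≤ p.2.val ∧ p.2.val < s + L
      · simp only [if_pos h, if_pos hr, Matrix.mul_apply]
      · simp [if_pos h, if_neg hr]
    · simp [h]
  · intro j _ h
    refine Finset.sum_eq_zero fun D _ => ?_
    simp [Jm, h]
  · simp

theorem Fix_inv_inv {G : Type*} [Group G] {m : ℕ} (a : Let G m) : a.inv.inv = a := by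
  rcases a with a | ⟨l, b⟩ <;> simp [Let.inv]

theorem Fix_unitary {X : Type} [Fintype X] [DecidableEq X] {A E : Matrix X X ℂ}
    (hA : Aᴴ * A = 1) (hE : Eᴴ = E) (hE2 : E * E = E) (hc : E * A = A * E) :
    A * E - (1 - E) ∈ Matrix.unitaryGroup X ℂ := by
  rw [Matrix.mem_unitaryGroup_iff', Matrix.star_eq_conjTranspose]
  have hc' : E * Aᴴ = Aᴴ * E := by
    have := congrArg Matrix.conjTranspose hc
    simp only [conjTranspose_mul, hE] at this
    exact this.symm
  have e1 : E * Aᴴ * (A * E) = E := by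
    rw [Matrix.mul_assoc, ← Matrix.mul_assoc Aᴴ, hA, Matrix.one_mul, hE2]
  have e2 : E * Aᴴ * E = E * Aᴴ := by rw [hc', Matrix.mul_assoc, hE2]
  have e3 : E * (A * E) = A * E := by rw [← Matrix.mul_assoc, hc, Matrix.mul_assoc, hE2]
  simp only [conjTranspose_sub, conjTranspose_mul, hE, conjTranspose_one, Matrix.sub_mul,
    Matrix.mul_sub, Matrix.one_mul, Matrix.mul_one, e1, e2, e3, hE2]
  abel

/-- the isometry onto the `k` positions of type `b` -/
def Fix_f {K m k T : ℕ} (disc : Fin K ≃ Fin m × Fin k × Bool) (b : Fin m × Bool × Fin T) :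
    Matrix (Fin K × Fin T) (Fin k) ℂ :=
  Matrix.of fun p c => if p = (disc.symm (b.1, c, b.2.1), b.2.2) then 1 else 0

theorem Fix_f_iso {K m k T : ℕ} (disc : Fin K ≃ Fin m × Fin k × Bool)
    (b b' : Fin m × Bool × Fin T) :
    (Fix_f disc b)ᴴ * Fix_f disc b' = if b = b' then 1 else 0 := by
  ext c c'
  rw [Matrix.mul_apply, Finset.sum_eq_single (disc.symm (b.1, c, b.2.1), b.2.2)]
  · obtain ⟨i, e, j⟩ := b
    obtain ⟨i', e', j'⟩ := b'
    simp only [Fix_f, conjTranspose_apply, Matrix.of_apply, if_true, star_one, one_mul,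
      Prod.mk.injEq, EmbeddingLike.apply_eq_iff_eq]
    by_cases h : i = i' ∧ e = e' ∧ j = j'
    · obtain ⟨rfl, rfl, rfl⟩ := h
      simp [Matrix.one_apply]
    · rw [if_neg h, if_neg (by tauto)]
      rfl
  · intro p _ h
    simp [Fix_f, h]
  · simp

theorem Fix_f_conj {K m k T : ℕ} (disc : Fin K ≃ Fin m × Fin k × Bool)
    (b : Fin m × Bool × Fin T) (w : Matrix (Fin k) (Fin k) ℂ) (i' i : Fin m) (c' c : Fin k)
    (e' e : Bool) (j' j : Fin T) :
    (Fix_f disc b * w * (Fix_f disc b)ᴴ) (disc.symm (i', c', e'), j') (disc.symm (i, c, e), j) =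
      if b = (i, e, j) then (if (i', e', j') = (i, e, j) then w c' c else 0) else 0 := by
  obtain ⟨i0, e0, j0⟩ := b
  rw [Matrix.mul_apply, Finset.sum_eq_single c, Matrix.mul_apply, Finset.sum_eq_single c']
  · simp only [Fix_f, conjTranspose_apply, Matrix.of_apply, Prod.mk.injEq,
      EmbeddingLike.apply_eq_iff_eq, true_and]
    by_cases h : i0 = i ∧ e0 = e ∧ j0 = j
    · obtain ⟨rfl, rfl, rfl⟩ := h
      simp [and_assoc]
    · rw [if_neg h, if_neg (c := (i = i0 ∧ e = e0) ∧ j = j0) (by tauto)]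
      simp
  · intro c2 _ h
    simp [Fix_f, Ne.symm h]
  · simp
  · intro c2 _ h
    simp [Fix_f, Ne.symm h]
  · simp

theorem Jm_compat (u : Fin Λ.m → Matrix (Fin Λ.k) (Fin Λ.k) ℂ)
    (p q : Fin Λ.K × Fin (2 * Λ.s + Λ.L)) (h : Jm Λ.s Λ.L (uu Λ.disc u) q p ≠ 0) :
    Λ.x q = (Λ.x p).inv := by
  obtain ⟨D, j⟩ := p
  obtain ⟨D', j'⟩ := q
  simp only [Jm, Matrix.of_apply] at h
  have hj : j' = j.rev := by
    by_contra hc
    exact h (if_neg hc)
  subst hj
  rw [if_pos rfl] at h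
  by_cases hr : Λ.s ≤ j.val ∧ j.val < Λ.s + Λ.L
  · rw [if_pos hr] at h
    rw [Λ.rel D' j.rev ((Fix_rel_rev j).2 hr), Λ.rel D j hr, ← Λ.yinv _ _ j hr]
    obtain ⟨⟨i', c', b'⟩, rfl⟩ := Λ.disc.symm.surjective D'
    obtain ⟨⟨i, c, b⟩, rfl⟩ := Λ.disc.symm.surjective D
    rw [Fix_uu_apply] at h
    simp only [Equiv.apply_symm_apply]
    have hi : i' = i := by
      by_contra hc
      exact h (if_neg hc)
    subst hi
    cases b <;> cases b' <;> simp at h ⊢
  · rw [if_neg hr] at h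
    have hD : D' = D := by
      by_contra hc
      exact h (if_neg hc)
    subst hD
    exact Λ.stem D' j hr

theorem exists_fix (pos : Fin Λ.K × Fin (2 * Λ.s + Λ.L) → ℕ)
    (M : Fin Λ.K × Fin (2 * Λ.s + Λ.L) → Fin Λ.K × Fin (2 * Λ.s + Λ.L)) (hM : ∀ p, M (M p) = p)
    (hMG : ∀ p, (Λ.x p).isLeft = true → M p = p)
    (hMt : ∀ p, (Λ.x p).isLeft = false → Λ.x (M p) = (Λ.x p).inv) (ε : ℝ) :
    ∃ u : Fin Λ.m → Matrix (Fin Λ.k) (Fin Λ.k) ℂ, (∀ i, u i ∈ Matrix.unitaryGroup (Fin Λ.k) ℂ) ∧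
      ∀ l : Fin Λ.m, ∃ q : Matrix (Fin Λ.K × Fin (2 * Λ.s + Λ.L)) (Fin Λ.K × Fin (2 * Λ.s + Λ.L)) ℂ,
        qᴴ = q ∧ q * q = q ∧ (∀ p p', q p p' ≠ 0 → Λ.x p = .inr (l, true)) ∧
          Jm Λ.s Λ.L (uu Λ.disc u) * Mth pos M ε * q = q ∧ (Λ.k : ℝ) ≤ q.trace.re := by
  classical
  let E : Fin Λ.m → Matrix (Fin Λ.K × Fin (2 * Λ.s + Λ.L)) (Fin Λ.K × Fin (2 * Λ.s + Λ.L)) ℂ :=
    fun l => Matrix.diagonal fun p => if Λ.x p = .inr (l, true) then 1 else 0
  have hE1 : ∀ l, (E l)ᴴ = E l := fun l => by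
    simp only [E, Matrix.diagonal_conjTranspose]
    congr 1
    funext p
    simp only [Pi.star_apply]
    split_ifs <;> simp
  have hE2 : ∀ l, E l * E l = E l := fun l => by
    simp only [E, Matrix.diagonal_mul_diagonal]
    congr 1
    funext p
    split_ifs <;> simp
  have hcomm : ∀ (u : Fin Λ.m → Matrix (Fin Λ.k) (Fin Λ.k) ℂ) l,
      E l * (Jm Λ.s Λ.L (uu Λ.disc u) * Mth pos M ε) =
        Jm Λ.s Λ.L (uu Λ.disc u) * Mth pos M ε * E l := fun u l => by
    ext q p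
    simp only [E]
    rw [Matrix.diagonal_mul, Matrix.mul_diagonal, Fix_mul_Mth]
    by_cases h : Jm Λ.s Λ.L (uu Λ.disc u) q (M p) = 0
    · simp [h]
    have h1 := Jm_compat Λ u _ _ h
    have h2 : Λ.x q = .inr (l, true) ↔ Λ.x p = .inr (l, true) := by
      cases hp : (Λ.x p).isLeft
      · rw [h1, hMt p hp, Fix_inv_inv]
      · rw [h1, hMG p hp]
        rcases hx : Λ.x p with a | a
        · simp [Let.inv]
        · simp [hx] at hp
    simp only [h2]
    ring
  let J₀ := Jm Λ.s Λ.L (uu Λ.disc fun _ => (1 : Matrix (Fin Λ.k) (Fin Λ.k) ℂ))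
  have hJ1 : J₀ᴴ = J₀ := Jm_conjTranspose (uu_conjTranspose _ _)
  have hJ2 : J₀ * J₀ = 1 := Jm_mul_self (uu_mul_self _ _ fun _ => one_mem _)
  have hA : (J₀ * Mth pos M ε)ᴴ * (J₀ * Mth pos M ε) = 1 := by
    rw [conjTranspose_mul, hJ1, Mth_conjTranspose pos M ε hM, Matrix.mul_assoc,
      ← Matrix.mul_assoc J₀, hJ2, Matrix.one_mul, Mth_mul_self pos M ε hM]
  let S : Fin Λ.m → Finset (Fin Λ.m × Bool × Fin (2 * Λ.s + Λ.L)) := fun l =>
    univ.filter fun b => (Λ.s ≤ b.2.2.val ∧ b.2.2.val < Λ.s + Λ.L) ∧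
      Λ.y b.1 b.2.1 b.2.2 = .inr (l, true)
  have hcard : ∀ l i (e : Bool), ((S l).filter fun b => b.1 = i ∧ b.2.1 = e).card =
      (univ.filter fun j : Fin (2 * Λ.s + Λ.L) =>
        (Λ.s ≤ j.val ∧ j.val < Λ.s + Λ.L) ∧ Λ.y i e j = .inr (l, true)).card := by
    intro l i e
    refine Finset.card_nbij' (fun b => b.2.2) (fun j => (i, e, j)) ?_ ?_ ?_ ?_
    · rintro ⟨i', e', j⟩ hb
      simp only [S, coe_filter, mem_filter, mem_univ, true_and, Set.mem_ofPred_eq] at hb ⊢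
      obtain ⟨h1, rfl, rfl⟩ := hb
      exact h1
    · intro j hj
      simp only [S, coe_filter, mem_filter, mem_univ, true_and, Set.mem_ofPred_eq] at hj ⊢
      exact ⟨hj, by simp⟩
    · rintro ⟨i', e', j⟩ hb
      simp only [S, coe_filter, mem_filter, mem_univ, true_and, Set.mem_ofPred_eq] at hb
      obtain ⟨h1, rfl, rfl⟩ := hb
      rfl
    · intro j _
      rfl
  obtain ⟨u, hu, hfix⟩ := degblock (k := Λ.k) Λ.hd S (fun b => b.1) (fun b => b.2.1)
    (Fix_f Λ.disc) (Fix_f_iso Λ.disc)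
    (fun l i => by
      rw [hcard, hcard]
      convert Λ.count i l)
    (fun l => J₀ * Mth pos M ε * E l - (1 - E l))
    (fun l => Fix_unitary hA (hE1 l) (hE2 l) (hcomm _ l))
  refine ⟨u, hu, fun l => ?_⟩
  have hk := hfix l
  set V := 1 + ∑ b ∈ S l, Fix_f Λ.disc b *
    ((if b.2.1 then u b.1 else (u b.1)ᴴ) - 1) * (Fix_f Λ.disc b)ᴴ with hV
  have hVapp : ∀ i' c' e' j' i c e j,
      V (Λ.disc.symm (i', c', e'), j') (Λ.disc.symm (i, c, e), j) =
        (1 : Matrix _ _ ℂ) (Λ.disc.symm (i', c', e'), j') (Λ.disc.symm (i, c, e), j) +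
          if (i, e, j) ∈ S l then (if (i', e', j') = (i, e, j) then
            ((if e then u i else (u i)ᴴ) - 1) c' c else 0) else 0 := by
    intro i' c' e' j' i c e j
    rw [hV, Matrix.add_apply, Matrix.sum_apply]
    congr 1
    simp only [Fix_f_conj]
    rw [Finset.sum_ite_eq']
  have hS : ∀ i c e j, (i, e, j) ∈ S l ↔ (Λ.s ≤ j.val ∧ j.val < Λ.s + Λ.L) ∧
      Λ.x (Λ.disc.symm (i, c, e), j) = .inr (l, true) := by
    intro i c e j
    simp only [S, mem_filter, mem_univ, true_and]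
    refine and_congr_right fun hr => ?_
    rw [Λ.rel _ j hr, Equiv.apply_symm_apply]
  have hV1 : V * (1 - E l) = 1 - E l := by
    ext ⟨D', j'⟩ ⟨D, j⟩
    obtain ⟨⟨i', c', e'⟩, rfl⟩ := Λ.disc.symm.surjective D'
    obtain ⟨⟨i, c, e⟩, rfl⟩ := Λ.disc.symm.surjective D
    conv_rhs => rw [← Matrix.one_mul (1 - E l)]
    simp only [E]
    rw [← Matrix.diagonal_one, Matrix.diagonal_sub, Matrix.mul_diagonal, Matrix.mul_diagonal,
      Matrix.diagonal_one, hVapp]
    by_cases hx : Λ.x (Λ.disc.symm (i, c, e), j) = .inr (l, true)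
    · simp [hx]
    · rw [if_neg (fun h => hx ((hS i c e j).1 h).2), add_zero]
  have hV2 : V * E l = Jm Λ.s Λ.L (uu Λ.disc u) * J₀ * E l := by
    ext ⟨D', j'⟩ ⟨D, j⟩
    obtain ⟨⟨i', c', e'⟩, rfl⟩ := Λ.disc.symm.surjective D'
    obtain ⟨⟨i, c, e⟩, rfl⟩ := Λ.disc.symm.surjective D
    simp only [E]
    rw [Matrix.mul_diagonal, Matrix.mul_diagonal]
    by_cases hx : Λ.x (Λ.disc.symm (i, c, e), j) = .inr (l, true)
    swap
    · simp [hx]
    congr 1
    rw [hVapp, Fix_Jm_mul]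
    by_cases hr : Λ.s ≤ j.val ∧ j.val < Λ.s + Λ.L
    · rw [if_pos ((hS i c e j).2 ⟨hr, hx⟩)]
      simp only [if_pos hr, Fix_uu_mul_apply, conjTranspose_one, Matrix.mul_one, Matrix.one_apply,
        Prod.mk.injEq, EmbeddingLike.apply_eq_iff_eq]
      by_cases h : i' = i ∧ e' = e ∧ j' = j
      · obtain ⟨rfl, rfl, rfl⟩ := h
        cases e' <;> simp [Matrix.one_apply]
      · rw [if_neg h, if_neg (by tauto), add_zero]
        split_ifs <;> first | rfl | tauto
    · rw [if_neg (fun h => hr ((hS i c e j).1 h).1), add_zero]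
      simp only [if_neg hr, Matrix.one_apply, Prod.mk.injEq]
      split_ifs <;> first | rfl | tauto
  set B := Jm Λ.s Λ.L (uu Λ.disc u) * Mth pos M ε with hB
  have hW : V * (J₀ * Mth pos M ε * E l - (1 - E l)) = B * E l - (1 - E l) := by
    rw [Matrix.mul_sub, hV1, ← hcomm, ← Matrix.mul_assoc, hV2, Matrix.mul_assoc _ (E l), hcomm,
      hB]
    congr 1
    simp only [← Matrix.mul_assoc]
    rw [Matrix.mul_assoc _ J₀ J₀, hJ2, Matrix.mul_one]
  rw [hW] at hk
  obtain ⟨q, hq1, hq2, hq3, hq4⟩ := exists_fix_proj (B * E l - (1 - E l))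
  have hBE : E l * B = B * E l := hcomm u l
  have h1 : (1 - E l) * (B * E l - (1 - E l)) = -(1 - E l) := by
    have e3 : E l * (B * E l) = B * E l := by
      rw [← Matrix.mul_assoc, hBE, Matrix.mul_assoc, hE2]
    simp only [Matrix.sub_mul, Matrix.mul_sub, Matrix.one_mul, Matrix.mul_one, e3, hE2]
    abel
  have h2 : (1 - E l) * q = 0 := by
    have e1 : (1 - E l) * q = -((1 - E l) * q) := by
      conv_lhs => rw [← hq3, ← Matrix.mul_assoc, h1, Matrix.neg_mul]
    ext a b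
    have := congrFun (congrFun e1 a) b
    rw [Matrix.neg_apply] at this
    rw [Matrix.zero_apply]
    linear_combination (1 / 2 : ℂ) * this
  have h3 : E l * q = q := by
    rw [Matrix.sub_mul, Matrix.one_mul, sub_eq_zero] at h2
    exact h2.symm
  refine ⟨q, hq1, hq2, fun p p' hp => ?_, ?_, ?_⟩
  · by_contra hx
    apply hp
    rw [← h3]
    simp only [E]
    rw [Matrix.diagonal_mul, if_neg hx, zero_mul]
  · rw [Matrix.sub_mul, h2, sub_zero, Matrix.mul_assoc, h3] at hq3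
    exact hq3
  · rw [hq4, Complex.natCast_re]
    exact_mod_cast hk

end

end Crest.Agent.R174
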