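import Crest.Agent.R174.Arg

/-!
# Row 174: the trace inequality

* `norm_le`: positivity of `τ ((a - ω b)* (a - ω b))` for `‖ω‖ = 1` gives `2 ‖τ (a* b)‖ ≤ re τ(a* a) + re τ(b* b)`; `τ p ≤ τ 1`.
* `poisson`: with `q = ∑_{j<M} r^j y^j`, `e = r^M y^M`, `a = 1 - r y`: `a q = 1 - e`, `a* + a - a* a = 1 - r²`, hence
  `(1 - r²) q* q = (1-e)* q + q* (1-e) - (1-e)* (1-e)`.  Apply `τ (p ·)` (`τ (p q* q) = τ ((q p)* (q p)) ≥ 0`); the terms with `e` are
  `O(M r^M)` by `norm_le`-type bounds (`τ (p (y*)^a y^b)`: `(y*)^a y^b` is unitary); let `M → ∞`.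
* `Φ_rot`: `γ s = y + (exp (i s) - 1) • p y` is unitary, `γ' = i • p γ`.  By induction on `j`, for all `a`,
  `s ↦ τ (a γ^j)` has derivative `τ (a D_j)`, `D_{j+1} = γ' γ^j + γ D_j` (write `a γ^(j+1) = (a y) γ^j + (exp (i s) - 1) • (a p y) γ^j`), and
  `τ (γ^b D_j) = j i τ (p γ^(b+j))` by cyclicity.  So `s ↦ Φ r (γ s)` has derivative `-∑_{j≥1} r^j re τ (p γ^j) ≤ re τ p / 2`
  (`hasDerivAt_tsum`, or finite truncations), and the mean value inequality (`image_le_of_deriv_right_le_deriv_boundary`,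
  `antitone_of_deriv_nonpos`) finishes.
* `Φ_invol`: `p = (1/2) • (1 - x)`, `θ = π`.
* `Φ_fix`: `q y = q` (take stars in `y* q = q`), `y₁ = z • q + y (1 - q)` is unitary, `z • y = (1 + (z - 1) • (1 - q)) y₁`,
  `τ (y₁^j) = z^j τ q + τ (y^j) - τ q`; `hasSum_arg` with `L = 1`.
-/

set_option autoImplicit false
set_option linter.unusedSectionVars false
set_option linter.unusedVariables false

open Matrix Finset
open scoped ComplexConjugate

namespace Crest.Agent.R174

noncomputable section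

variable {A : Type*} [Ring A] [StarRing A] [Algebra ℂ A] [StarModule ℂ A] (T : TrData A)

theorem TrData.key_two_norm_le (a b : A) :
    2 * ‖T.τ (star a * b)‖ ≤ (T.τ (star a * a)).re + (T.τ (star b * b)).re := by
  obtain ⟨ω, h1, h2⟩ := Complex.exists_norm_eq_mul_self (T.τ (star a * b))
  have h := T.pos (a - ω • b)
  have e1 : star (a - ω • b) * (a - ω • b) = star a * a - ω • (star a * b) -
      conj ω • star (star a * b) + (conj ω * ω) • (star b * b) := by
    simp only [star_sub, star_smul, star_mul, star_star, sub_mul, mul_sub, smul_mul_assoc,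
      mul_smul_comm, RCLike.star_def]
    module
  have e2 : conj ω * ω = 1 := by
    rw [← Complex.normSq_eq_conj_mul_self, Complex.normSq_eq_norm_sq, h1]; simp
  rw [e1, e2, one_smul, map_add, map_sub, map_sub, map_smul, map_smul, T.map_star, smul_eq_mul,
    smul_eq_mul, ← map_mul, ← h2] at h
  simp only [Complex.add_re, Complex.sub_re, Complex.conj_ofReal, Complex.ofReal_re] at h
  linarith

theorem TrData.key_proj_nonneg {p : A} (hp1 : star p = p) (hp2 : p * p = p) : 0 ≤ (T.τ p).re := by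
  simpa only [hp1, hp2] using T.pos p

theorem key_compl {p : A} (hp1 : star p = p) (hp2 : p * p = p) :
    star (1 - p) = 1 - p ∧ (1 - p) * (1 - p) = 1 - p :=
  ⟨by rw [star_sub, star_one, hp1], by rw [sub_mul, mul_sub, mul_sub, hp2]; simp⟩

theorem TrData.key_proj_le {p : A} (hp1 : star p = p) (hp2 : p * p = p) :
    (T.τ p).re ≤ (T.τ 1).re := by
  have := T.key_proj_nonneg (key_compl hp1 hp2).1 (key_compl hp1 hp2).2
  rw [map_sub, Complex.sub_re] at this
  linarith

theorem TrData.norm_le {p y : A} (hp1 : star p = p) (hp2 : p * p = p) (hy : y ∈ unitary A) :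
    ‖T.τ (p * y)‖ ≤ (T.τ 1).re := by
  have h := T.key_two_norm_le p y
  rw [hp1, hp2, hy.1] at h
  linarith [T.key_proj_le hp1 hp2]

theorem TrData.key_abs_re_le {p y : A} (hp1 : star p = p) (hp2 : p * p = p) (hy : y ∈ unitary A) :
    |(T.τ (p * y)).re| ≤ (T.τ 1).re :=
  (Complex.abs_re_le_norm _).trans (T.norm_le hp1 hp2 hy)

theorem key_div_le {r : ℝ} (hr0 : 0 ≤ r) (j : ℕ) : |r ^ j / j| ≤ r ^ j := by
  rw [abs_of_nonneg (by positivity)]
  rcases Nat.eq_zero_or_pos j with rfl | hj
  · simp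
  · exact div_le_self (by positivity) (by exact_mod_cast hj)

theorem TrData.summable {r : ℝ} (hr0 : 0 ≤ r) (hr1 : r < 1) {y : A} (hy : y ∈ unitary A) :
    Summable fun j : ℕ => r ^ j / j * (T.τ (y ^ j)).im := by
  refine Summable.of_norm_bounded ((summable_geometric_of_lt_one hr0 hr1).mul_right (T.τ 1).re)
    fun j => ?_
  have h := T.norm_le (star_one A) (one_mul 1) (pow_mem hy j)
  rw [one_mul] at h
  rw [Real.norm_eq_abs, abs_mul]
  exact mul_le_mul (key_div_le hr0 j) ((Complex.abs_im_le_norm _).trans h) (abs_nonneg _)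
    (by positivity)

theorem TrData.key_summable {r : ℝ} (hr0 : 0 ≤ r) (hr1 : r < 1) {p y : A} (hp1 : star p = p)
    (hp2 : p * p = p) (hy : y ∈ unitary A) :
    Summable fun j : ℕ => r ^ j * (T.τ (p * y ^ j)).re := by
  refine Summable.of_norm_bounded ((summable_geometric_of_lt_one hr0 hr1).mul_right (T.τ 1).re)
    fun j => ?_
  rw [Real.norm_eq_abs, abs_mul, abs_of_nonneg (by positivity)]
  exact mul_le_mul_of_nonneg_left (T.key_abs_re_le hp1 hp2 (pow_mem hy j)) (by positivity)

theorem TrData.key_re_star {p : A} (hp1 : star p = p) (x : A) :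
    (T.τ (p * star x)).re = (T.τ (p * x)).re := by
  have : p * star x = star (x * p) := by rw [star_mul, hp1]
  rw [this, T.map_star, T.comm, Complex.conj_re]

theorem TrData.key_pos {p : A} (hp1 : star p = p) (hp2 : p * p = p) (x : A) :
    0 ≤ (T.τ (p * (star x * x))).re := by
  have h := T.pos (x * p)
  rwa [star_mul, hp1, ← mul_assoc, T.comm, ← mul_assoc, ← mul_assoc, hp2, mul_assoc] at h

theorem TrData.key_poisson_fin {r : ℝ} (hr0 : 0 ≤ r) (hr1 : r < 1) {p y : A} (hp1 : star p = p)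
    (hp2 : p * p = p) (hy : y ∈ unitary A) (M : ℕ) :
    (T.τ p).re ≤ 2 * ∑ j ∈ range M, r ^ j * (T.τ (p * y ^ j)).re +
      2 * (M * r ^ M + r ^ M) * (T.τ 1).re := by
  set q : A := ∑ j ∈ range M, ((r : ℂ) • y) ^ j with hq
  set e : A := ((r : ℂ) • y) ^ M with he
  set a : A := 1 - (r : ℂ) • y with ha
  have h1 : a * q = 1 - e := mul_neg_geom_sum _ _
  have h2 : star a + a - star a * a = ((1 - r ^ 2 : ℝ) : ℂ) • (1 : A) := by
    simp only [ha, star_sub, star_one, star_smul, RCLike.star_def, Complex.conj_ofReal, sub_mul,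
      mul_sub, one_mul, mul_one, smul_mul_assoc, mul_smul_comm, hy.1]
    push_cast
    module
  have h3 : ((1 - r ^ 2 : ℝ) : ℂ) • (star q * q) =
      q + star q - 1 - star e * q - star (star e * q) + e + star e - star e * e := by
    calc _ = star q * (star a + a - star a * a) * q := by rw [h2]; simp
      _ = star (a * q) * q + star q * (a * q) - star (a * q) * (a * q) := by
        rw [star_mul]; noncomm_ring
      _ = _ := by rw [h1, star_sub, star_one, star_mul, star_star]; noncomm_ring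
  have h4 : 0 ≤ (T.τ (p * (((1 - r ^ 2 : ℝ) : ℂ) • (star q * q)))).re := by
    rw [mul_smul_comm, map_smul, smul_eq_mul, Complex.re_ofReal_mul]
    exact mul_nonneg (by nlinarith) (T.key_pos hp1 hp2 q)
  rw [h3] at h4
  simp only [mul_add, mul_sub, map_add, map_sub, Complex.add_re, Complex.sub_re, mul_one,
    T.key_re_star hp1] at h4
  have h5 := T.key_pos hp1 hp2 e
  have h6 : (T.τ (p * q)).re = ∑ j ∈ range M, r ^ j * (T.τ (p * y ^ j)).re := by
    simp only [hq, Finset.mul_sum, map_sum, Complex.re_sum, smul_pow, mul_smul_comm, map_smul,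
      smul_eq_mul, ← Complex.ofReal_pow, Complex.re_ofReal_mul]
  have h7 : (T.τ (p * e)).re ≤ r ^ M * (T.τ 1).re := by
    rw [he, smul_pow, mul_smul_comm, map_smul, smul_eq_mul, ← Complex.ofReal_pow,
      Complex.re_ofReal_mul]
    exact mul_le_mul_of_nonneg_left (abs_le.1 (T.key_abs_re_le hp1 hp2 (pow_mem hy M))).2
      (by positivity)
  have h8 : -(M * r ^ M * (T.τ 1).re) ≤ (T.τ (p * (star e * q))).re := by
    have e1 : (T.τ (p * (star e * q))).re =
        ∑ j ∈ range M, r ^ j * (r ^ M * (T.τ (p * (star (y ^ M) * y ^ j))).re) := by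
      simp only [hq, he, Finset.mul_sum, map_sum, Complex.re_sum, smul_pow, star_smul,
        mul_smul_comm, smul_mul_assoc, map_smul, smul_eq_mul, ← Complex.ofReal_pow,
        RCLike.star_def, Complex.conj_ofReal, Complex.re_ofReal_mul]
    rw [e1]
    refine le_trans (le_of_eq ?_) (Finset.card_nsmul_le_sum _ _ (-(r ^ M * (T.τ 1).re))
      fun j _ => ?_)
    · simp [mul_assoc]
    · have b1 := T.key_abs_re_le hp1 hp2
        (mul_mem (Unitary.star_mem (pow_mem hy M)) (pow_mem hy j))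
      have b2 : r ^ j ≤ 1 := pow_le_one₀ hr0 hr1.le
      refine (abs_le.1 ?_).1
      rw [abs_mul, abs_mul, abs_of_nonneg (by positivity), abs_of_nonneg (by positivity)]
      exact (mul_le_of_le_one_left (by positivity) b2).trans
        (mul_le_mul_of_nonneg_left b1 (by positivity))
  linarith

theorem TrData.poisson {r : ℝ} (hr0 : 0 ≤ r) (hr1 : r < 1) {p y : A} (hp1 : star p = p)
    (hp2 : p * p = p) (hy : y ∈ unitary A) :
    (T.τ p).re ≤ 2 * ∑' j : ℕ, r ^ j * (T.τ (p * y ^ j)).re := by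
  have h := ((T.key_summable hr0 hr1 hp1 hp2 hy).hasSum.tendsto_sum_nat.const_mul 2).add
    ((((tendsto_self_mul_const_pow_of_lt_one hr0 hr1).add
      (tendsto_pow_atTop_nhds_zero_of_lt_one hr0 hr1)).const_mul 2).mul_const (T.τ 1).re)
  simp only [add_zero, mul_zero, zero_mul] at h
  exact ge_of_tendsto' h fun M => T.key_poisson_fin hr0 hr1 hp1 hp2 hy M

theorem key_unitary {p : A} (hp1 : star p = p) (hp2 : p * p = p) {z : ℂ} (hz : ‖z‖ = 1) :
    1 + (z - 1) • p ∈ unitary A := by
  have e : conj z * z = 1 := by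
    rw [← Complex.normSq_eq_conj_mul_self, Complex.normSq_eq_norm_sq, hz]; simp
  have h : ∀ u v : ℂ, u * v = 1 → (1 + (u - 1) • p) * (1 + (v - 1) • p) = 1 := fun u v huv => by
    simp only [add_mul, mul_add, one_mul, mul_one, smul_mul_assoc, mul_smul_comm, hp2]
    linear_combination (norm := module) huv • p
  have hs : star (1 + (z - 1) • p) = 1 + (conj z - 1) • p := by simp [hp1]
  exact ⟨by rw [hs]; exact h _ _ e, by rw [hs]; exact h _ _ (by rw [mul_comm, e])⟩

/-- the formal derivative of `g ^ j` when `g' = i p g` -/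
def keyD (p g : A) : ℕ → A
  | 0 => 0
  | j + 1 => Complex.I • (p * g * g ^ j) + g * keyD p g j

theorem TrData.key_D (p g : A) (j : ℕ) :
    ∀ b : ℕ, T.τ (g ^ b * keyD p g j) = j * Complex.I * T.τ (p * g ^ (b + j)) := by
  induction j with
  | zero => simp [keyD]
  | succ j ih =>
    intro b
    have e : T.τ (g ^ b * (p * g * g ^ j)) = T.τ (p * g ^ (b + (j + 1))) := by
      rw [T.comm, mul_assoc, mul_assoc, ← pow_add, ← pow_succ']
      congr 3; omega
    rw [keyD, mul_add, map_add, ← mul_assoc, ← pow_succ, ih, mul_smul_comm, map_smul, e,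
      show b + 1 + j = b + (j + 1) by omega, smul_eq_mul]
    push_cast; ring

/-- the rotation path -/
def keyγ (p y : A) (s : ℝ) : A := (1 + (Complex.exp (s * Complex.I) - 1) • p) * y

theorem TrData.key_deriv {p : A} (hp2 : p * p = p) (y : A) (s : ℝ) (j : ℕ) :
    ∀ a : A, HasDerivAt (fun s => T.τ (a * keyγ p y s ^ j)) (T.τ (a * keyD p (keyγ p y s) j)) s := by
  have hE : HasDerivAt (fun s : ℝ => Complex.exp (s * Complex.I) - 1)
      (Complex.exp (s * Complex.I) * Complex.I) s := by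
    simpa using (((hasDerivAt_id s).ofReal_comp.mul_const Complex.I).cexp).sub_const 1
  induction j with
  | zero => intro a; simpa [keyD] using hasDerivAt_const s (T.τ a)
  | succ j ih =>
    intro a
    have e : ∀ (s : ℝ) (x : A), T.τ (a * (keyγ p y s * x)) =
        T.τ (a * y * x) + (Complex.exp (s * Complex.I) - 1) * T.τ (a * p * y * x) := fun s x => by
      simp only [keyγ, add_mul, mul_add, one_mul, smul_mul_assoc, mul_smul_comm, map_add, map_smul,
        smul_eq_mul, mul_assoc]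
    have e2 : p * keyγ p y s = Complex.exp (s * Complex.I) • (p * y) := by
      rw [keyγ, ← mul_assoc, mul_add, mul_one, mul_smul_comm, hp2, add_mul, smul_mul_assoc]
      module
    simp only [pow_succ', e]
    refine ((ih (a * y)).add (hE.mul (ih (a * p * y)))).congr_deriv ?_
    rw [keyD, mul_add, map_add, e, e2]
    simp only [smul_mul_assoc, mul_smul_comm, map_smul, smul_eq_mul, mul_assoc]
    ring

theorem TrData.Φ_rot {r : ℝ} (hr0 : 0 ≤ r) (hr1 : r < 1) {p y : A} (hp1 : star p = p)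
    (hp2 : p * p = p) (hy : y ∈ unitary A) {θ : ℝ} (hθ : 0 ≤ θ) :
    T.Φ r ((1 + (Complex.exp (θ * Complex.I) - 1) • p) * y) ≤ T.Φ r y + θ * (T.τ p).re / 2 := by
  have hu : ∀ s, keyγ p y s ∈ unitary A := fun s =>
    mul_mem (key_unitary hp1 hp2 (Complex.norm_exp_ofReal_mul_I s)) hy
  have hg : ∀ (j : ℕ) (s : ℝ), HasDerivAt (fun s => r ^ j / j * (T.τ (keyγ p y s ^ j)).im)
      (r ^ j / j * (j * (T.τ (p * keyγ p y s ^ j)).re)) s := fun j s => by
    have h1 := T.key_deriv hp2 y s j 1
    have h2 := T.key_D p (keyγ p y s) j 0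
    simp only [one_mul, pow_zero, zero_add] at h1 h2
    rw [h2] at h1
    refine ((Complex.imCLM.hasFDerivAt.comp_hasDerivAt s h1).const_mul _).congr_deriv ?_
    simp
  have hb : ∀ (j : ℕ) (s : ℝ), ‖r ^ j / j * (j * (T.τ (p * keyγ p y s ^ j)).re)‖ ≤
      r ^ j * (T.τ 1).re := fun j s => by
    have h1 := T.key_abs_re_le hp1 hp2 (pow_mem (hu s) j)
    rcases Nat.eq_zero_or_pos j with rfl | hj
    · simpa using (abs_nonneg _).trans h1
    · have : (j : ℝ) ≠ 0 := by exact_mod_cast hj.ne'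
      rw [← mul_assoc, div_mul_cancel₀ _ this, Real.norm_eq_abs, abs_mul,
        abs_of_nonneg (by positivity)]
      exact mul_le_mul_of_nonneg_left h1 (by positivity)
  have hS := (summable_geometric_of_lt_one hr0 hr1).mul_right (T.τ 1).re
  have hd := fun s => ((hasDerivAt_tsum hS hg hb (T.summable hr0 hr1 (hu 0)) s).fun_neg).fun_sub
    ((hasDerivAt_id' s).mul_const ((T.τ p).re / 2))
  have ha := antitone_of_hasDerivAt_nonpos hd (fun s => by
    have h1 := T.poisson hr0 hr1 hp1 hp2 (hu s)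
    rw [(T.key_summable hr0 hr1 hp1 hp2 (hu s)).tsum_eq_zero_add] at h1
    have h2 := (Summable.of_norm_bounded hS fun j => hb j s).tsum_eq_zero_add
    have h3 : ∀ j : ℕ, r ^ (j + 1) / ((j + 1 : ℕ) : ℝ) *
        (((j + 1 : ℕ) : ℝ) * (T.τ (p * keyγ p y s ^ (j + 1))).re) =
        r ^ (j + 1) * (T.τ (p * keyγ p y s ^ (j + 1))).re := fun j => by
      rw [← mul_assoc, div_mul_cancel₀ _ (by positivity)]
    simp only [h3] at h2
    simp only [Pi.zero_apply, h2]
    simp only [pow_zero, mul_one, one_mul, Nat.cast_zero, zero_mul, mul_zero, zero_add] at h1 ⊢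
    linarith) hθ
  have h0 : keyγ p y 0 = y := by simp [keyγ]
  simp only [h0] at ha
  unfold TrData.Φ
  unfold keyγ at ha
  linarith

theorem TrData.Φ_invol {r : ℝ} (hr0 : 0 ≤ r) (hr1 : r < 1) {x y : A} (hx1 : star x = x)
    (hx2 : x * x = 1) (hy : y ∈ unitary A) :
    T.Φ r (x * y) ≤ T.Φ r y + Real.pi * ((T.τ 1).re - (T.τ x).re) / 4 := by
  have h := T.Φ_rot hr0 hr1 (p := ((1 / 2 : ℝ) : ℂ) • (1 - x)) (by simp [hx1]) (by
    simp only [smul_mul_assoc, mul_smul_comm, sub_mul, mul_sub, one_mul, mul_one, hx2]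
    push_cast
    module) hy Real.pi_pos.le
  have e : (1 : A) + (Complex.exp (Real.pi * Complex.I) - 1) • ((1 / 2 : ℝ) : ℂ) • (1 - x) = x := by
    rw [Complex.exp_pi_mul_I]
    push_cast
    module
  rw [e, map_smul, smul_eq_mul, Complex.re_ofReal_mul, map_sub, Complex.sub_re] at h
  linarith

theorem TrData.Φ_fix {r : ℝ} (hr0 : 0 ≤ r) (hr1 : r < 1) {q y : A} (hq1 : star q = q)
    (hq2 : q * q = q) (hy : y ∈ unitary A) (hyq : y * q = q) (hre : ∀ j : ℕ, (T.τ (y ^ j)).im = 0)
    {η : ℝ} (hη : 0 ≤ η) :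
    T.Φ r (Complex.exp (η * Complex.I) • y) ≤
      (T.τ q).re * Complex.arg (1 - (r : ℂ) * Complex.exp (η * Complex.I)) + η * (T.τ 1).re / 2 := by
  have hz := Complex.norm_exp_ofReal_mul_I η
  have hqy : q * y = q := by
    have h1 : star y * q = q := by
      conv_lhs => rw [← hyq, ← mul_assoc, hy.1, one_mul]
    simpa [hq1] using congrArg star h1
  have hqj : ∀ j : ℕ, q * y ^ j = q := fun j => by
    induction j with
    | zero => simp
    | succ j ih => rw [pow_succ, ← mul_assoc, ih, hqy]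
  have hu := mul_mem hy (key_unitary hq1 hq2 hz)
  have h := T.Φ_rot hr0 hr1 (key_compl hq1 hq2).1 (key_compl hq1 hq2).2 hu hη
  set z := Complex.exp (η * Complex.I)
  have e0 : y * (1 + (z - 1) • q) = y + (z - 1) • q := by rw [mul_add, mul_one, mul_smul_comm, hyq]
  have e1 : (1 + (z - 1) • (1 - q)) * (y * (1 + (z - 1) • q)) = z • y := by
    simp only [e0, add_mul, mul_add, sub_mul, one_mul, smul_mul_assoc, mul_smul_comm, hqy, hq2]
    module
  have e2 : ∀ j : ℕ, (y * (1 + (z - 1) • q)) ^ j = y ^ j + (z ^ j - 1) • q := fun j => by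
    induction j with
    | zero => simp
    | succ j ih =>
      rw [pow_succ', ih, e0]
      simp only [add_mul, mul_add, smul_mul_assoc, mul_smul_comm, hqj, hyq, hq2, ← pow_succ' y]
      module
  have hqi : (T.τ q).im = 0 := by
    have := congrArg Complex.im (T.map_star q)
    rw [hq1, Complex.conj_im] at this
    linarith
  have h2 := (hasSum_arg one_pos hr0 hr1 hz).mul_left (T.τ q).re
  have e3 : T.Φ r (y * (1 + (z - 1) • q)) = (T.τ q).re * Complex.arg (1 - (r : ℂ) * z) := by
    unfold TrData.Φ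
    simp only [one_dvd, if_true, Nat.div_one, pow_one, Nat.cast_one, div_one] at h2
    rw [neg_eq_iff_eq_neg, ← mul_neg, ← h2.tsum_eq]
    refine tsum_congr fun j => ?_
    simp only [e2, map_add, map_smul, smul_eq_mul, Complex.add_im, Complex.mul_im, hre, hqi,
      Complex.sub_im, Complex.one_im]
    ring
  rw [e1, e3, map_sub, Complex.sub_re] at h
  nlinarith [T.key_proj_nonneg hq1 hq2]

end

end Crest.Agent.R174
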