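import Crest.Agent.R174.Zeros

/-!
# Row 174: the product of reflections is an immersion at the base point

Notation: `δP_j = dM (Pm · j) z0 δ`, `δr_j = δc_j • P_j + c_j • δP_j` (`dM_smul`), `P_j = τ_j E_jj` (`Pm_p0`), `c_j = -2/τ_j` real.
* Entries of `δP_j`: zero unless both indices are `≤ j`.  For `a ≠ b`, both `< j`, two factors of the product vanish at
  `p0`, so `δP_j a b = 0`.  For `a < j`: `δP_j a j = (fderiv (Qf · a j) (node a) (δp (j,a))) * ∏_{b ≠ a} Qf (node b) a j`, and the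
  product is nonzero (`Qf_node`).  (`HasFDerivAt.finsetProd`, or write `P a j = Qf (p (j,a)) a j * rest` with
  `Finset.mul_prod_erase`; the first factor vanishes at `p0`.)  `δP_j` is Hermitian (`dM_conjTranspose`, `Pm_conjTranspose`).
* Induction on `i` with `dM_mul`, `Rp_z0`, `rf_z0` (diagonal matrices): for `a < b`,
  `dM (Rp · i) a b = δr_b a b`, `dM (Rp · i) b a = w_a δr_b b a` if `k ≤ b < i` (only `j = b` contributes), because
  `δR = ∑_j r_{>j} δr_j r_{<j}`; entry `(a,b)`: `(r_{>b})_aa = 1`, `(r_{<b})_bb = 1`; entry `(b,a)`: `(r_{>b})_bb = 1`, `(r_{<b})_aa = w_a`,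
  where `w = blk 1 (-1) = diagonal w`.  So `(δRᴴ w) a b = conj (δR b a) w_b = - w_a δr_b a b` and
  `(δRᴴ w)ᴴ a b = w_a δR a b = w_a δr_b a b`: they do not cancel in `ImM`, and `h1` gives `δr_b a b = 0`.
* `tangent_inj`: with `δp = (δw, δh + i δy)`: `δy = 0`, `-2a re δw - (a²-1) δh = 0`,
  `δh (a j - 1) + a δw + j conj δw = 0`; imaginary part gives `im δw = 0`, the `2 × 2` determinant is `(a-j)(a²+1) ≠ 0`.
* So `δ.1 = 0`, hence `δP_j = 0` for all `j` (`dM_comp_clm`, `dM_zero_dir`), `δR` is diagonal with entries `δc_j τ_j`;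
  `h2` gives `im δc_j = 0`, `hc` gives `2 re δc + 2 c τ re δc = -2 re δc = 0`.
-/

set_option autoImplicit false
set_option linter.unusedSectionVars false
set_option linter.unusedVariables false

open Matrix Finset
open scoped ComplexConjugate

namespace Crest.Agent.R174

noncomputable section

variable {k n : ℕ}

theorem lin_fderiv_eq {E F : Type*} [NormedAddCommGroup E] [NormedSpace ℝ E] [NormedAddCommGroup F]
    [NormedSpace ℝ F] {f : E → F} (hf : ContDiff ℝ 1 f) {x δ : E} {D : F}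
    (h : HasDerivAt (fun t : ℝ => f (x + t • δ)) D 0) : fderiv ℝ f x δ = D := by
  rw [← ((hf.differentiable one_ne_zero) x).lineDeriv_eq_fderiv]
  exact HasLineDerivAt.lineDeriv h

/-- the derivative of `Qf` -/
def linDQ (δ : ℂ × ℂ) (s s' : ℕ) : ℂ :=
  (δ.2.re : ℂ) * s * s' + δ.1 * s + conj δ.1 * s' - (δ.2.re : ℂ)

theorem lin_hasDerivAt_ofReal : HasDerivAt (fun t : ℝ => (t : ℂ)) 1 0 :=
  Complex.ofRealCLM.hasDerivAt

theorem lin_hasDerivAt_Qf (p δ : ℂ × ℂ) (s s' : ℕ) :
    HasDerivAt (fun t : ℝ => Qf (p + t • δ) s s') (linDQ δ s s') 0 := by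
  have e : (fun t : ℝ => Qf (p + t • δ) s s') = fun t : ℝ => Qf p s s' + (t : ℂ) * linDQ δ s s' := by
    funext t
    simp [Qf, linDQ]
    ring
  rw [e]
  simpa using (lin_hasDerivAt_ofReal.mul_const (linDQ δ s s')).const_add (Qf p s s')

theorem lin_fderiv_Qf (p δ : ℂ × ℂ) (s s' : ℕ) :
    fderiv ℝ (fun p : ℂ × ℂ => Qf p s s') p δ = linDQ δ s s' :=
  lin_fderiv_eq (contDiff_Qf s s') (lin_hasDerivAt_Qf p δ s s')

theorem lin_hasDerivAt_quad (A B C : ℝ) : HasDerivAt (fun t : ℝ => A + B * t + C * t ^ 2) B 0 := by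
  have h := (((hasDerivAt_id (0 : ℝ)).const_mul B).const_add A).fun_add
    ((hasDerivAt_pow 2 (0 : ℝ)).const_mul C)
  simpa using h

theorem lin_fderiv_sph (p δ : ℂ × ℂ) : fderiv ℝ sph p δ =
    ((2 * (p.1.re * δ.1.re + p.1.im * δ.1.im) - δ.2.re * (1 - 2 * p.2.re) : ℝ) : ℂ) +
      (δ.2.im : ℂ) * Complex.I := by
  refine lin_fderiv_eq contDiff_sph ?_
  have h1 := (lin_hasDerivAt_quad (Complex.normSq p.1 - p.2.re * (1 - p.2.re))
    (2 * (p.1.re * δ.1.re + p.1.im * δ.1.im) - δ.2.re * (1 - 2 * p.2.re))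
    (Complex.normSq δ.1 + δ.2.re ^ 2)).ofReal_comp
  have h2 := ((lin_hasDerivAt_quad p.2.im δ.2.im 0).ofReal_comp).mul_const Complex.I
  convert h1.add h2 using 1
  funext t
  simp only [sph, Pi.add_apply]
  congr 2
  · simp [Complex.normSq_apply]; ring
  · simp; ring

theorem tangent_inj {a j : ℕ} (haj : a ≠ j) {δ : ℂ × ℂ} (h1 : fderiv ℝ sph (node a) δ = 0)
    (h2 : fderiv ℝ (fun p : ℂ × ℂ => Qf p a j) (node a) δ = 0) : δ = 0 := by
  rw [lin_fderiv_sph] at h1
  rw [lin_fderiv_Qf] at h2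
  have hA : (0 : ℝ) < 1 + (a : ℝ) ^ 2 := by positivity
  have n1 : (node a).1 = ((-(a : ℝ) / (1 + (a : ℝ) ^ 2) : ℝ) : ℂ) := by simp [node]
  have n2 : (node a).2 = ((1 / (1 + (a : ℝ) ^ 2) : ℝ) : ℂ) := by simp [node]
  rw [n1, n2] at h1
  have e1 := congrArg Complex.re h1
  have e2 := congrArg Complex.im h1
  have e3 := congrArg Complex.re h2
  have e4 := congrArg Complex.im h2
  simp only [Complex.ofReal_re, Complex.ofReal_im, Complex.add_re, Complex.add_im, Complex.mul_re,
    Complex.mul_im, Complex.I_re, Complex.I_im, Complex.zero_re, Complex.zero_im, linDQ,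
    Complex.sub_re, Complex.sub_im, Complex.natCast_re, Complex.natCast_im, Complex.conj_re,
    Complex.conj_im] at e1 e2 e3 e4
  have haj' : (a : ℝ) - j ≠ 0 := sub_ne_zero.2 (by exact_mod_cast haj)
  have f1 : -2 * a * δ.1.re - δ.2.re * ((a : ℝ) ^ 2 - 1) = 0 := by
    field_simp at e1
    linear_combination e1
  have f2 : δ.2.im = 0 := by linarith
  have f4 : δ.1.im = 0 := by
    have : ((a : ℝ) - j) * δ.1.im = 0 := by linear_combination e4
    exact (mul_eq_zero.1 this).resolve_left haj'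
  have f3 : δ.2.re = 0 := by
    have : ((a : ℝ) - j) * ((1 + (a : ℝ) ^ 2) * δ.2.re) = 0 := by
      linear_combination (-(a + j : ℝ)) * f1 - 2 * a * e3
    exact (mul_eq_zero.1 ((mul_eq_zero.1 this).resolve_left haj')).resolve_left hA.ne'
  have f5 : δ.1.re = 0 := by
    have : ((a : ℝ) - j) * ((1 + (a : ℝ) ^ 2) * δ.1.re) = 0 := by
      linear_combination ((a : ℝ) * j - 1) * f1 + ((a : ℝ) ^ 2 - 1) * e3
    exact (mul_eq_zero.1 ((mul_eq_zero.1 this).resolve_left haj')).resolve_left hA.ne'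
  exact Prod.ext (Complex.ext f5 f4) (Complex.ext f3 f2)

/-- the derivative of `P_j` at the base point -/
def linP (δ : RP k n) (j : CC k n) : Matrix (Fin (k + n)) (Fin (k + n)) ℂ :=
  dM (fun z : RP k n => Pm z.1 j) (z0 k n) δ

theorem linP_of_le (δ : RP k n) (j : CC k n) {s s' : Fin (k + n)} (h : s ≤ j.1 ∧ s' ≤ j.1) :
    linP δ j s s' = ∑ b ∈ univ.filter (fun b : PP k n => b.1.1 = j.1),
      (∏ b' ∈ (univ.filter (fun b : PP k n => b.1.1 = j.1)).erase b, Qf (node b'.1.2) s s') *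
        linDQ (δ.1 b) s s' := by
  refine lin_fderiv_eq (SM_Pm j s s') ?_
  have := HasDerivAt.fun_finsetProd (u := univ.filter (fun b : PP k n => b.1.1 = j.1))
    (fun b _ => lin_hasDerivAt_Qf (p0 k n b) (δ.1 b) s s')
  simp only [zero_smul, add_zero, smul_eq_mul] at this
  simpa [Pm, h, z0, p0] using this

theorem linP_of_not_le (δ : RP k n) (j : CC k n) {s s' : Fin (k + n)}
    (h : ¬ (s ≤ j.1 ∧ s' ≤ j.1)) : linP δ j s s' = 0 := by
  simp [linP, dM, Pm, h]

theorem linP_conj (δ : RP k n) (j : CC k n) (s s' : Fin (k + n)) :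
    conj (linP δ j s s') = linP δ j s' s := by
  have h := dM_conjTranspose (SM_Pm j) (z0 k n) δ
  simp only [Pm_conjTranspose] at h
  have := congrFun (congrFun h s') s
  rw [conjTranspose_apply] at this
  exact this.symm

theorem linP_lt (δ : RP k n) (j : CC k n) {a b : Fin (k + n)} (ha : a < j.1) (hb : b < j.1)
    (hab : a ≠ b) : linP δ j a b = 0 := by
  rw [linP_of_le δ j ⟨ha.le, hb.le⟩]
  refine Finset.sum_eq_zero fun q hq => mul_eq_zero_of_left ?_ _
  by_cases e : q.1.2 = a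
  · refine Finset.prod_eq_zero (i := ⟨(j.1, b), j.2, hb⟩) ?_ (by simp [Qf_node])
    simp only [mem_erase, mem_filter, mem_univ, and_true]
    intro e'
    exact hab (by rw [← e, ← e'])
  · refine Finset.prod_eq_zero (i := ⟨(j.1, a), j.2, ha⟩) ?_ (by simp [Qf_node])
    simp only [mem_erase, mem_filter, mem_univ, and_true]
    intro e'
    exact e (by rw [← e'])

theorem linP_off (δ : RP k n) (j : CC k n) {a b : Fin (k + n)} (hab : a < b) (hb : b ≠ j.1) :
    linP δ j a b = 0 := by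
  rcases lt_or_gt_of_ne hb with h | h
  · exact linP_lt δ j (hab.trans h) h hab.ne
  · exact linP_of_not_le δ j fun h' => absurd h'.2 (not_le.2 h)

theorem linDQ_eq_zero (δ : RP k n) (q : PP k n) (h : linP δ ⟨q.1.1, q.2.1⟩ q.1.2 q.1.1 = 0) :
    linDQ (δ.1 q) q.1.2 q.1.1 = 0 := by
  rw [linP_of_le δ _ ⟨q.2.2.le, le_rfl⟩, Finset.sum_eq_single q] at h
  · refine (mul_eq_zero.1 h).resolve_left (Finset.prod_ne_zero_iff.2 fun b hb => ?_)
    simp only [mem_erase, mem_filter, mem_univ, true_and] at hb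
    have h1 : (q.1.2 : ℕ) ≠ b.1.2 := fun e =>
      hb.1 (Subtype.ext (Prod.ext hb.2 (Fin.ext e.symm)))
    have h2 : (q.1.1 : ℕ) ≠ b.1.2 := by
      have := b.2.2
      rw [hb.2] at this
      exact (Nat.ne_of_lt this).symm
    have h3 : (1 + ((b.1.2 : ℕ) : ℂ) ^ 2) ≠ 0 := by
      have : (0 : ℝ) < 1 + ((b.1.2 : ℕ) : ℝ) ^ 2 := by positivity
      exact_mod_cast this.ne'
    rw [Qf_node]
    exact div_ne_zero (mul_ne_zero (sub_ne_zero.2 (by exact_mod_cast h1))
      (sub_ne_zero.2 (by exact_mod_cast h2))) h3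
  · intro b hb hne
    refine mul_eq_zero_of_left (Finset.prod_eq_zero (i := q) ?_ (by simp [Qf_node])) _
    simp [hne.symm]
  · intro hq
    simp at hq

/-- the derivative of `r_j` at the base point -/
theorem lin_dM_rf (δ : RP k n) (j : CC k n) :
    dM (fun z : RP k n => rf z j) (z0 k n) δ = δ.2 j • Pm (p0 k n) j + c0 k n j • linP δ j := by
  have hc : ContDiff ℝ 1 fun z : RP k n => z.2 j := by fun_prop
  have h1 : fderiv ℝ (fun z : RP k n => z.2 j) (z0 k n) δ = δ.2 j := by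
    refine lin_fderiv_eq hc ?_
    simpa using ((hasDerivAt_id (0 : ℝ)).smul_const (δ.2 j)).const_add ((z0 k n).2 j)
  unfold rf
  rw [dM_add (SM.const _) (SM.smul hc (SM_Pm j)), dM_const, zero_add, dM_smul hc (SM_Pm j), h1]
  rfl

theorem lin_dM_Rp_succ (δ : RP k n) (i : ℕ) (a b : Fin (k + n)) :
    dM (fun z : RP k n => Rp z (i + 1)) (z0 k n) δ a b =
      if h : i < k + n ∧ k ≤ i then
        dM (fun z : RP k n => rf z ⟨⟨i, h.1⟩, h.2⟩) (z0 k n) δ a b *
          (if k ≤ b.val ∧ b.val < i then -1 else 1) +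
        (if a.val = i then -1 else 1) * dM (fun z : RP k n => Rp z i) (z0 k n) δ a b
      else dM (fun z : RP k n => Rp z i) (z0 k n) δ a b := by
  split_ifs with h
  all_goals first
    | (have hh : ¬ (i < k + n ∧ k ≤ i) := h
       simp only [Rp, dif_neg hh, one_mul])
    | (simp only [Rp, dif_pos h]
       rw [dM_mul (SM_rf _) (SM_Rp i), Rp_z0, rf_z0, Matrix.add_apply, mul_diagonal, diagonal_mul]
       simp [*, Fin.ext_iff])

theorem lin_rf_off (δ : RP k n) (j : CC k n) {a b : Fin (k + n)} (hab : a ≠ b) :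
    dM (fun z : RP k n => rf z j) (z0 k n) δ a b = c0 k n j * linP δ j a b := by
  rw [lin_dM_rf, Pm_p0]
  simp [hab]

theorem lin_dM_Rp_up (δ : RP k n) (j : CC k n) {a : Fin (k + n)} (ha : a < j.1) (i : ℕ) :
    dM (fun z : RP k n => Rp z i) (z0 k n) δ a j.1 =
      if j.1.val < i then c0 k n j * linP δ j a j.1 else 0 := by
  have ha' : a.val < j.1.val := ha
  have hj := j.2
  have hj' := j.1.2
  induction i with
  | zero => simp [Rp, dM_const]
  | succ i ih =>
    rw [lin_dM_Rp_succ, ih]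
    by_cases e : j.1.val = i
    · subst e
      rw [dif_pos ⟨hj', hj⟩, lin_rf_off δ _ ha.ne]
      simp
    · by_cases h : i < k + n ∧ k ≤ i
      · rw [dif_pos h, lin_rf_off δ _ ha.ne, linP_off δ _ ha (fun e' => e (congrArg Fin.val e'))]
        by_cases h' : j.1.val < i
        · rw [if_pos h', if_neg (show ¬ a.val = i by omega), if_pos (show j.1.val < i + 1 by omega)]
          simp
        · rw [if_neg h', if_neg (show ¬ j.1.val < i + 1 by omega)]
          simp
      · rw [dif_neg h]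
        by_cases h' : j.1.val < i
        · rw [if_pos h', if_pos (show j.1.val < i + 1 by omega)]
        · rw [if_neg h', if_neg (show ¬ j.1.val < i + 1 by omega)]

theorem lin_dM_Rp_low (δ : RP k n) (j : CC k n) {a : Fin (k + n)} (ha : a < j.1) (i : ℕ) :
    dM (fun z : RP k n => Rp z i) (z0 k n) δ j.1 a =
      if j.1.val < i then c0 k n j * linP δ j j.1 a * (if k ≤ a.val then -1 else 1) else 0 := by
  have ha' : a.val < j.1.val := ha
  have hj := j.2
  have hj' := j.1.2
  induction i with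
  | zero => simp [Rp, dM_const]
  | succ i ih =>
    rw [lin_dM_Rp_succ, ih]
    by_cases e : j.1.val = i
    · subst e
      rw [dif_pos ⟨hj', hj⟩, lin_rf_off δ _ ha.ne']
      simp [ha']
    · by_cases h : i < k + n ∧ k ≤ i
      · rw [dif_pos h, lin_rf_off δ _ ha.ne', ← linP_conj,
          linP_off δ _ ha (fun e' => e (congrArg Fin.val e')), if_neg e]
        by_cases h' : j.1.val < i
        · rw [if_pos h', if_pos (show j.1.val < i + 1 by omega)]
          simp
        · rw [if_neg h', if_neg (show ¬ j.1.val < i + 1 by omega)]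
          simp
      · rw [dif_neg h]
        by_cases h' : j.1.val < i
        · rw [if_pos h', if_pos (show j.1.val < i + 1 by omega)]
        · rw [if_neg h', if_neg (show ¬ j.1.val < i + 1 by omega)]

theorem lin_dM_Rp_diag (δ : RP k n) (hP : ∀ j, linP δ j = 0) (j : CC k n) (i : ℕ) :
    dM (fun z : RP k n => Rp z i) (z0 k n) δ j.1 j.1 =
      if j.1.val < i then δ.2 j * (Pm (p0 k n) j).trace else 0 := by
  have hj := j.2
  have hj' := j.1.2
  induction i with
  | zero => simp [Rp, dM_const]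
  | succ i ih =>
    rw [lin_dM_Rp_succ, ih]
    by_cases e : j.1.val = i
    · subst e
      rw [dif_pos ⟨hj', hj⟩, lin_dM_rf, hP, smul_zero, add_zero, Matrix.smul_apply, Pm_p0]
      simp
    · by_cases h : i < k + n ∧ k ≤ i
      · rw [dif_pos h, lin_dM_rf, hP, smul_zero, add_zero, Matrix.smul_apply, Pm_p0, if_neg e,
          diagonal_apply_eq, if_neg (fun e' => e (congrArg Fin.val e'))]
        by_cases h' : j.1.val < i
        · rw [if_pos h', if_pos (show j.1.val < i + 1 by omega)]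
          simp
        · rw [if_neg h', if_neg (show ¬ j.1.val < i + 1 by omega)]
          simp
      · rw [dif_neg h]
        by_cases h' : j.1.val < i
        · rw [if_pos h', if_pos (show j.1.val < i + 1 by omega)]
        · rw [if_neg h', if_neg (show ¬ j.1.val < i + 1 by omega)]

theorem lin_inj (δ : RP k n) (hs : ∀ q, fderiv ℝ sph (p0 k n q) (δ.1 q) = 0)
    (hc : ∀ j, fderiv ℝ (fun z : RP k n => circ z j) (z0 k n) δ = 0)
    (h1 : ∀ q : PP k n, ImM ((dM RR (z0 k n) δ)ᴴ * blk n 1 (-1)) q.1.2 q.1.1 = 0)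
    (h2 : ∀ j : CC k n, (ImM ((dM RR (z0 k n) δ)ᴴ * blk n 1 (-1)) j.1 j.1).re = 0) : δ = 0 := by
  have hτ : ∀ j : CC k n, ∃ τ : ℝ, 0 < τ ∧ (Pm (p0 k n) j).trace = τ := fun j => by
    obtain ⟨h, h'⟩ := Pm_trace_pos (p := p0 k n) con_z0.1 j
    exact ⟨_, h, Complex.ext (by simp) (by simpa using h')⟩
  have hRR : (RR : RP k n → _) = fun z => Rp z (k + n) := rfl
  have hp : δ.1 = 0 := by
    funext q
    have h := h1 q
    obtain ⟨τ, hτ0, eτ⟩ := hτ ⟨q.1.1, q.2.1⟩
    have u := lin_dM_Rp_up δ ⟨q.1.1, q.2.1⟩ q.2.2 (k + n)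
    have l := lin_dM_Rp_low δ ⟨q.1.1, q.2.1⟩ q.2.2 (k + n)
    rw [if_pos q.1.1.2] at u l
    rw [← linP_conj] at l
    simp only [ImM, blk_one_neg_one, Matrix.smul_apply, Matrix.sub_apply, conjTranspose_apply,
      mul_diagonal, hRR] at h
    simp only at u l
    rw [u, l, if_pos q.2.1, c0, eτ] at h
    have hτ' : (τ : ℂ) ≠ 0 := by exact_mod_cast hτ0.ne'
    have h0 : linP δ ⟨q.1.1, q.2.1⟩ q.1.2 q.1.1 = 0 := by
      have h4 : (4 / τ : ℂ) ≠ 0 := div_ne_zero (by norm_num) hτ'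
      refine (mul_eq_zero.1 (?_ : (4 / τ : ℂ) * _ = 0)).resolve_left h4
      split_ifs at h <;> simp [hτ'] at h
      · rw [h, mul_zero]
      · linear_combination h
    refine tangent_inj (a := q.1.2) (j := q.1.1) (Nat.ne_of_lt q.2.2) (hs q) ?_
    rw [lin_fderiv_Qf]
    exact linDQ_eq_zero δ q h0
  have hP : ∀ j, linP δ j = 0 := by
    intro j
    ext s s'
    by_cases h : s ≤ j.1 ∧ s' ≤ j.1
    · rw [linP_of_le δ j h]; simp [hp, linDQ]
    · rw [linP_of_not_le δ j h]; rfl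
  refine Prod.ext hp (funext fun j => ?_)
  obtain ⟨τ, hτ0, eτ⟩ := hτ j
  have d := lin_dM_Rp_diag δ hP j (k + n)
  rw [if_pos j.1.2, eτ] at d
  have h := h2 j
  simp only [ImM, blk_one_neg_one, Matrix.smul_apply, Matrix.sub_apply, conjTranspose_apply,
    mul_diagonal, hRR] at h
  rw [d, if_pos j.2] at h
  have him : (δ.2 j).im = 0 := by
    simp at h
    exact h.resolve_right hτ0.ne'
  have hcj := hc j
  have ec : c0 k n j = ((-2 / τ : ℝ) : ℂ) := by rw [c0, eτ]; simp
  rw [lin_fderiv_eq (contDiff_circ j) (D := -2 * (δ.2 j).re) (by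
    refine (lin_hasDerivAt_quad (2 * (-2 / τ) + (-2 / τ) ^ 2 * τ) (-2 * (δ.2 j).re)
      ((δ.2 j).re ^ 2 * τ)).congr_of_eventuallyEq (Filter.Eventually.of_forall fun t => ?_)
    simp only [circ, Prod.fst_add, Prod.smul_fst, hp, smul_zero, add_zero, Prod.snd_add,
      Prod.smul_snd, Pi.add_apply, Pi.smul_apply, z0, eτ, ec, Complex.normSq_apply]
    simp [him]
    field_simp
    ring)] at hcj
  exact Complex.ext (by simpa using hcj) him

end

end Crest.Agent.R174
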