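import Crest.Agent.R174.TDefs

/-!
# Row 174: the cyclic shift is a short product of involutions times `Jm`

`T = 2 s + L` is odd, `n = K T`.  `cyc (D, j) = (D, j + 1)` if `j + 1 < T`, `cyc (D, T - 1) = (D + 1, 0)` (`Fin K` is a cyclic
group, `NeZero K`).  A convenient calculus: for `σ : Fin T → Fin T` and `B : Fin T → Matrix (Fin K) (Fin K) ℂ` let
`col σ B q p = if q.2 = σ p.2 then B p.2 q.1 p.1 else 0`; then `col σ B * col σ' B' = col (σ ∘ σ') (fun j => B (σ' j) * B' j)`,
`trace (col σ B) = ∑_{σ j = j} trace (B j)`, and `col σ B` is Hermitian if `σ` is an involution with `(B j)ᴴ = B (σ j)`.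
`Jm = col rev (if rel j then U else 1)`, `pm cyc = col (j ↦ j + 1) (if j = T - 1 then pm (D ↦ D + 1) else 1)`.
`factor`: `ν 0 = 0`, `ν j = T - j` (no other fixed point as `T` is odd), `x₁ = col ν (if s < j < s + L then U else 1)` (trace `K`),
`x₂ = col id (if j = 0 then pm (D ↦ 1 - D) else 1)` (trace `≥ n - K`), `x₃ = col id (if j = 0 then pm (D ↦ -D) else 1)`
(trace `≥ n - K + 2`: `0` and `K/2` are fixed), `x₄ = col id (if j = s then U else 1)` (trace `n - K`).
Check `x₁ x₂ x₃ x₄ = pm cyc * Jm` column by column (`j = 0`, `j = s`, `s < j < s + L`, other) and use `Jm * Jm = 1`.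
-/

set_option autoImplicit false
set_option linter.unusedSectionVars false
set_option linter.unusedVariables false

open Matrix Finset
open scoped ComplexConjugate

namespace Crest.Agent.R174

noncomputable section

theorem posn_injective {K T : ℕ} : Function.Injective (posn : Fin K × Fin T → ℕ) := by
  exact fun p q h => finProdFinEquiv.injective (Fin.ext h)

theorem posn_lt {K T : ℕ} (p : Fin K × Fin T) : posn p < Fintype.card (Fin K × Fin T) := by
  rw [Fintype.card_prod, Fintype.card_fin, Fintype.card_fin]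
  exact (finProdFinEquiv p).2

theorem LowA_finRotate {n : ℕ} (i : Fin n) : (finRotate n i).val = (i.val + 1) % n := by
  cases n with
  | zero => exact i.elim0
  | succ n => rw [finRotate_succ_apply, Fin.val_add, Fin.val_one', Nat.add_mod_mod]

theorem posn_cyc {K T : ℕ} (p : Fin K × Fin T) :
    posn (cyc K T p) = (posn p + 1) % Fintype.card (Fin K × Fin T) := by
  rw [Fintype.card_prod, Fintype.card_fin, Fintype.card_fin]
  simp only [posn, cyc, Equiv.trans_apply, Equiv.apply_symm_apply, LowA_finRotate]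

/-- column-monomial block matrices -/
def LowA_col {K T : ℕ} (σ : Fin T → Fin T) (B : Fin T → Matrix (Fin K) (Fin K) ℂ) :
    Matrix (Fin K × Fin T) (Fin K × Fin T) ℂ :=
  Matrix.of fun q p => if q.2 = σ p.2 then B p.2 q.1 p.1 else 0

theorem LowA_col_mul {K T : ℕ} (σ σ' : Fin T → Fin T) (B B' : Fin T → Matrix (Fin K) (Fin K) ℂ) :
    LowA_col σ B * LowA_col σ' B' = LowA_col (σ ∘ σ') fun j => B (σ' j) * B' j := by
  ext q p
  simp only [LowA_col, Matrix.mul_apply, Matrix.of_apply, Fintype.sum_prod_type, mul_ite, mul_zero,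
    Finset.sum_ite_eq', Finset.mem_univ, if_true, Function.comp_apply]
  split_ifs <;> simp

theorem LowA_col_one {K T : ℕ} : LowA_col (K := K) (T := T) id (fun _ => 1) = 1 := by
  ext ⟨D, j⟩ ⟨D', j'⟩
  simp only [LowA_col, Matrix.of_apply, Matrix.one_apply, id, Prod.mk.injEq]
  by_cases h : j = j' <;> simp [h]

theorem LowA_col_herm {K T : ℕ} {σ : Fin T → Fin T} {B : Fin T → Matrix (Fin K) (Fin K) ℂ}
    (hσ : ∀ j, σ (σ j) = j) (hB : ∀ j, (B j)ᴴ = B (σ j)) : (LowA_col σ B)ᴴ = LowA_col σ B := by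
  ext q p
  simp only [LowA_col, Matrix.conjTranspose_apply, Matrix.of_apply]
  by_cases h : p.2 = σ q.2
  · rw [if_pos h, if_pos (by rw [h, hσ]), h, ← hB, Matrix.conjTranspose_apply]
  · rw [if_neg h, if_neg (fun h' => h (by rw [h', hσ])), star_zero]

theorem LowA_col_sq {K T : ℕ} {σ : Fin T → Fin T} {B : Fin T → Matrix (Fin K) (Fin K) ℂ}
    (hσ : ∀ j, σ (σ j) = j) (hB : ∀ j, B (σ j) * B j = 1) : LowA_col σ B * LowA_col σ B = 1 := by
  rw [LowA_col_mul, ← LowA_col_one]
  congr 1
  · exact funext hσ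
  · exact funext hB

theorem LowA_col_trace {K T : ℕ} (σ : Fin T → Fin T) (B : Fin T → Matrix (Fin K) (Fin K) ℂ) :
    (LowA_col σ B).trace = ∑ j, if j = σ j then (B j).trace else 0 := by
  simp only [Matrix.trace, Matrix.diag_apply, LowA_col, Matrix.of_apply]
  rw [Fintype.sum_prod_type_right]
  refine Finset.sum_congr rfl fun j _ => ?_
  split_ifs <;> simp

theorem LowA_trace_one {K T : ℕ} (j₀ : Fin T) (A : Matrix (Fin K) (Fin K) ℂ) :
    (LowA_col id fun j => if j = j₀ then A else 1).trace.re = (K : ℝ) * T - K + A.trace.re := by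
  rw [LowA_col_trace]
  simp only [id, if_true]
  rw [← Finset.add_sum_erase _ _ (Finset.mem_univ j₀), if_pos rfl,
    Finset.sum_congr rfl fun j hj => by rw [if_neg (Finset.ne_of_mem_erase hj)], Finset.sum_const,
    Finset.card_erase_of_mem (Finset.mem_univ _), Finset.card_univ, Fintype.card_fin,
    nsmul_eq_mul, Nat.cast_sub (Nat.succ_le_of_lt j₀.pos)]
  simp
  ring

theorem LowA_inv_one {K T : ℕ} (j₀ : Fin T) {A : Matrix (Fin K) (Fin K) ℂ} (h1 : Aᴴ = A)
    (h2 : A * A = 1) :
    (LowA_col id fun j => if j = j₀ then A else 1)ᴴ = (LowA_col id fun j => if j = j₀ then A else 1) ∧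
      (LowA_col id fun j => if j = j₀ then A else 1) *
        (LowA_col id fun j => if j = j₀ then A else 1) = 1 :=
  ⟨LowA_col_herm (fun _ => rfl) fun j => by simp only [id]; split_ifs <;> simp [h1],
    LowA_col_sq (fun _ => rfl) fun j => by simp only [id]; split_ifs <;> simp [h2]⟩

theorem LowA_pm_mul {X : Type} [Fintype X] [DecidableEq X] (f g : X → X) :
    pm f * pm g = pm (f ∘ g) := by
  ext q p
  simp [pm, Matrix.mul_apply]

theorem LowA_pm_herm {X : Type} [Fintype X] [DecidableEq X] {f : X → X} (h : ∀ x, f (f x) = x) :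
    (pm f)ᴴ = pm f := by
  ext q p
  simp only [pm, Matrix.conjTranspose_apply, Matrix.of_apply]
  by_cases e : p = f q
  · rw [if_pos e, if_pos (by rw [e, h]), star_one]
  · rw [if_neg e, if_neg (fun e' => e (by rw [e', h])), star_zero]

theorem LowA_pm_sq {X : Type} [Fintype X] [DecidableEq X] {f : X → X} (h : ∀ x, f (f x) = x) :
    pm f * pm f = 1 := by
  rw [LowA_pm_mul]
  ext q p
  simp [pm, h, Matrix.one_apply]

theorem LowA_pm_trace {X : Type} [Fintype X] [DecidableEq X] (f : X → X) :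
    (pm f).trace.re = (Finset.univ.filter fun x => x = f x).card := by
  simp [pm, Matrix.trace]

theorem LowA_Jm {K : ℕ} (s L : ℕ) (U : Matrix (Fin K) (Fin K) ℂ) :
    Jm s L U = LowA_col Fin.rev fun j => if s ≤ j.val ∧ j.val < s + L then U else 1 := by
  ext q p
  simp only [Jm, LowA_col, Matrix.of_apply]
  split_ifs <;> simp [Matrix.one_apply, *]

theorem LowA_rel_rev {s L : ℕ} (j : Fin (2 * s + L)) :
    (s ≤ j.rev.val ∧ j.rev.val < s + L) ↔ (s ≤ j.val ∧ j.val < s + L) := by
  have := j.2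
  rw [Fin.val_rev]; omega

variable {K s L : ℕ} {U : Matrix (Fin K) (Fin K) ℂ}

theorem Jm_conjTranspose (hU1 : Uᴴ = U) : (Jm s L U)ᴴ = Jm s L U := by
  rw [LowA_Jm]
  refine LowA_col_herm Fin.rev_rev fun j => ?_
  simp only [LowA_rel_rev]
  split_ifs <;> simp [hU1]

theorem Jm_mul_self (hU2 : U * U = 1) : Jm s L U * Jm s L U = 1 := by
  rw [LowA_Jm]
  refine LowA_col_sq Fin.rev_rev fun j => ?_
  simp only [LowA_rel_rev]
  split_ifs <;> simp [hU2]

theorem Jm_diag (hL : Odd L) (hU0 : ∀ D, U D D = 0) (p : Fin K × Fin (2 * s + L)) :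
    Jm s L U p p = 0 := by
  simp only [Jm, Matrix.of_apply]
  split_ifs with h1 h2
  · exact hU0 _
  · exfalso
    have h3 := congrArg Fin.val h1
    have := p.2.2
    obtain ⟨l, rfl⟩ := hL
    rw [Fin.val_rev] at h3
    omega
  · rfl

theorem factor (hK0 : 0 < K) (hK : Even K) (hs : 0 < s) (hL : Odd L) (hU1 : Uᴴ = U) (hU2 : U * U = 1)
    (hU0 : ∀ D, U D D = 0) :
    ∃ x₁ x₂ x₃ x₄ : Matrix (Fin K × Fin (2 * s + L)) (Fin K × Fin (2 * s + L)) ℂ,
      (x₁ᴴ = x₁ ∧ x₁ * x₁ = 1) ∧ (x₂ᴴ = x₂ ∧ x₂ * x₂ = 1) ∧ (x₃ᴴ = x₃ ∧ x₃ * x₃ = 1) ∧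
      (x₄ᴴ = x₄ ∧ x₄ * x₄ = 1) ∧ pm (cyc K (2 * s + L)) = x₁ * (x₂ * (x₃ * (x₄ * Jm s L U))) ∧
      3 * (Fintype.card (Fin K × Fin (2 * s + L)) : ℝ) - 2 * K + 2 ≤
        x₁.trace.re + x₂.trace.re + x₃.trace.re + x₄.trace.re := by
  have : NeZero K := ⟨hK0.ne'⟩
  obtain ⟨l, hl⟩ := hL
  let j0 : Fin (2 * s + L) := ⟨0, by omega⟩
  let js : Fin (2 * s + L) := ⟨s, by omega⟩
  let ν : Fin (2 * s + L) → Fin (2 * s + L) := fun j =>
    if h : j.val = 0 then j else ⟨2 * s + L - j.val, by omega⟩
  have hν : ∀ j, (ν j).val = if j.val = 0 then 0 else 2 * s + L - j.val := fun j => by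
    simp only [ν]
    split_ifs with h
    · exact h
    · rfl
  have hνν : ∀ j, ν (ν j) = j := fun j => Fin.ext (by
    have := j.2
    rw [hν, hν]; split_ifs <;> omega)
  have hrel : ∀ j, (s < (ν j).val ∧ (ν j).val < s + L) ↔ (s < j.val ∧ j.val < s + L) := fun j => by
    have := j.2
    rw [hν]; split_ifs <;> omega
  have h2 : ∀ D : Fin K, 1 - (1 - D) = D := fun D => sub_sub_cancel _ _
  have h3 : ∀ D : Fin K, - -D = D := neg_neg
  refine ⟨LowA_col ν fun j => if s < j.val ∧ j.val < s + L then U else 1,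
    LowA_col id fun j => if j = j0 then pm (fun D : Fin K => 1 - D) else 1,
    LowA_col id fun j => if j = j0 then pm (fun D : Fin K => -D) else 1,
    LowA_col id fun j => if j = js then U else 1,
    ⟨LowA_col_herm hνν fun j => ?_, LowA_col_sq hνν fun j => ?_⟩,
    LowA_inv_one _ (LowA_pm_herm h2) (LowA_pm_sq h2),
    LowA_inv_one _ (LowA_pm_herm h3) (LowA_pm_sq h3), LowA_inv_one _ hU1 hU2, ?_, ?_⟩
  · simp only [hrel]
    split_ifs <;> simp [hU1]
  · simp only [hrel]
    split_ifs <;> simp [hU2]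
  · rw [LowA_Jm, LowA_col_mul, LowA_col_mul, LowA_col_mul, LowA_col_mul]
    ext ⟨D', j'⟩ ⟨D, j⟩
    have hj := j.2
    have hp := posn_cyc (D, j)
    rw [Fintype.card_prod, Fintype.card_fin, Fintype.card_fin] at hp
    have hpos : ∀ (D : Fin K) (j : Fin (2 * s + L)), posn (D, j) = j.val + (2 * s + L) * D.val :=
      fun _ _ => rfl
    simp only [LowA_col, Matrix.of_apply, Function.comp_apply, id, ← LowA_rel_rev j]
    by_cases hz : j.rev.val = 0
    · have e0 : j.rev = j0 := Fin.ext hz
      have e1 : cyc K (2 * s + L) (D, j) = (D + 1, ν j.rev) := by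
        apply posn_injective
        rw [Fin.val_rev] at hz
        rw [hp, hpos, hpos, hν, Fin.val_rev, if_pos hz, Fin.val_add, Fin.val_one', Nat.add_mod_mod,
          zero_add, ← Nat.mul_mod_mul_left, mul_comm K]
        congr 1
        rw [mul_add, mul_one]; omega
      rw [if_neg (show ¬ (s < j.rev.val ∧ j.rev.val < s + L) by omega), if_pos e0, if_pos e0,
        if_neg (show ¬ j.rev = js from fun h => by have := congrArg Fin.val h; simp only [js] at this; omega),
        if_neg (show ¬ (s ≤ j.rev.val ∧ j.rev.val < s + L) by omega), one_mul, mul_one, mul_one,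
        LowA_pm_mul]
      simp only [pm, Matrix.of_apply, e1, Prod.mk.injEq, Function.comp_apply, sub_neg_eq_add,
        add_comm D]
      by_cases h : j' = ν j.rev <;> simp [h]
    · have e0 : ¬ j.rev = j0 := fun h => hz (congrArg Fin.val h)
      have e1 : cyc K (2 * s + L) (D, j) = (D, ν j.rev) := by
        apply posn_injective
        have hD := D.2
        rw [Fin.val_rev] at hz
        rw [hp, hpos, hpos, hν, Fin.val_rev, if_neg hz, Nat.mod_eq_of_lt]
        · omega
        · have : (2 * s + L) * (D.val + 1) ≤ (2 * s + L) * K := Nat.mul_le_mul_left _ hD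
          rw [mul_add, mul_one] at this
          rw [mul_comm K]; omega
      have e2 : (if s < j.rev.val ∧ j.rev.val < s + L then U else 1) *
          ((if j.rev = js then U else 1) * if s ≤ j.rev.val ∧ j.rev.val < s + L then U else 1) = 1 := by
        have e3 : j.rev = js ↔ j.rev.val = s := Fin.ext_iff
        simp only [e3]
        split_ifs <;> first | omega | simp [hU2]
      rw [if_neg e0, if_neg e0, one_mul, one_mul, e2]
      simp only [pm, Matrix.of_apply, e1, Prod.mk.injEq, Matrix.one_apply]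
      by_cases h : j' = ν j.rev <;> simp [h]
  · rw [LowA_trace_one, LowA_trace_one, LowA_trace_one, LowA_pm_trace, LowA_pm_trace,
      LowA_col_trace, Finset.sum_eq_single j0]
    · have t1 : U.trace = 0 := Finset.sum_eq_zero fun D _ => hU0 D
      have t2 : 2 ≤ (Finset.univ.filter fun D : Fin K => D = -D).card := by
        obtain ⟨k, hk⟩ := hK
        rw [Nat.succ_le_iff, Finset.one_lt_card]
        refine ⟨0, by simp, ⟨k, by omega⟩, ?_, fun h => ?_⟩
        · rw [Finset.mem_filter, eq_neg_iff_add_eq_zero]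
          exact ⟨Finset.mem_univ _, Fin.ext (by simp [Fin.val_add, ← hk])⟩
        · have := congrArg Fin.val h
          simp at this
          omega
      have t3 : (2 : ℝ) ≤ (Finset.univ.filter fun D : Fin K => D = -D).card := by exact_mod_cast t2
      have t4 : (0 : ℝ) ≤ (Finset.univ.filter fun D : Fin K => D = 1 - D).card := Nat.cast_nonneg _
      rw [if_pos (Fin.ext (by rw [hν]; simp [j0])), if_neg (by simp [j0]), t1, Fintype.card_prod,
        Fintype.card_fin, Fintype.card_fin]
      simp only [Matrix.trace_one, Fintype.card_fin, Complex.natCast_re, Complex.zero_re,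
        Nat.cast_mul K]
      linarith
    · intro j _ hj
      refine if_neg fun h => hj (Fin.ext ?_)
      have h1 := congrArg Fin.val h
      have := j.2
      rw [hν] at h1
      show j.val = 0
      split_ifs at h1 <;> omega
    · simp

end

end Crest.Agent.R174
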