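import Crest.Agent.R174.Key

/-!
# Row 174: the upper bound for `Φ (J M Γ)`

`E = diagonal [x p is a G-letter]`, `D e = diagonal [x p = inr e]`.  `J E = E J`, `J (D (l,b)) = D (l,!b) J` (from `hJx`), `M E = E = E M`.
In `Matrix X X (GA G)`: `Γ = Gam (gp ∘ x)` is unitary, `Γ (1 - E) = 1 - E`, `J Γ = Γ* J` (entrywise, `hJx`).
`ι = J Γ E + (1 - E)` is a self-adjoint involution of trace `n - n_G` (`hJ0`), `y₀ = E + J M (1 - E)` is a unitary complex matrix,
`J M Γ = ι y₀`; `Φ_invol` (move the scalar: `z • (ι y₀) = ι (z • y₀)`).  `J' = E + J (1 - E)` is an involution with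
`J' y₀ J' = y₀ᴴ`, so `trace (y₀^j)` is real.  `Q = E + ∑ l, (q l + J (q l) J)` is a projection (the summands live under the
mutually orthogonal `E`, `D (l,true)`, `D (l,false)`), `y₀ Q = Q` (`M J q = q` from `J M q = q`), `re trace Q ≥ n_G + 2 m k`; `Φ_fix`,
`arg_one_sub_nonpos`, `emb_star`, `trG_emb`, `trG_one`.
-/

set_option autoImplicit false
set_option linter.unusedSectionVars false
set_option linter.unusedVariables false
set_option linter.unusedSimpArgs false

open Matrix Finset
open scoped ComplexConjugate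

namespace Crest.Agent.R174

noncomputable section

variable {X : Type} [Fintype X] [DecidableEq X] {G : Type*} [Group G] {m : ℕ}

theorem LowB_star_Gam (a : X → G) :
    star (Gam a) = Matrix.diagonal fun p => MonoidAlgebra.single (a p) 1 := by
  rw [Gam, Matrix.star_eq_conjTranspose, Matrix.diagonal_conjTranspose]
  congr 1
  funext p
  simp

theorem Gam_unitary (a : X → G) : Gam a ∈ unitary (Matrix X X (GA G)) := by
  rw [Unitary.mem_iff, LowB_star_Gam, Gam, Matrix.diagonal_mul_diagonal,
    Matrix.diagonal_mul_diagonal]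
  simp [MonoidAlgebra.single_mul_single, ← MonoidAlgebra.one_def]

theorem emb_unitary {y : Matrix X X ℂ} (hy : y ∈ Matrix.unitaryGroup X ℂ) :
    emb G y ∈ unitary (Matrix X X (GA G)) := by
  rw [Unitary.mem_iff, ← emb_star, ← map_mul, ← map_mul, ← Matrix.star_eq_conjTranspose,
    (Unitary.mem_iff.1 hy).1, (Unitary.mem_iff.1 hy).2, map_one]
  exact ⟨rfl, rfl⟩

section Alg

variable {R : Type*} [Ring R] {E J M S Γ Γ' : R}

/-- the relations between `E`, `J`, `M` -/
structure LowBRel (E J M : R) : Prop where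
  EE : E * E = E
  JJ : J * J = 1
  MM : M * M = 1
  EJ : E * J = J * E
  ME : M * E = E
  EM : E * M = E

namespace LowBRel

variable (h : LowBRel E J M)
include h

theorem EE' (z : R) : E * (E * z) = E * z := by rw [← mul_assoc, h.EE]
theorem JJ' (z : R) : J * (J * z) = z := by rw [← mul_assoc, h.JJ, one_mul]
theorem MM' (z : R) : M * (M * z) = z := by rw [← mul_assoc, h.MM, one_mul]
theorem EJ' (z : R) : E * (J * z) = J * (E * z) := by rw [← mul_assoc, h.EJ, mul_assoc]
theorem EM' (z : R) : E * (M * z) = E * z := by rw [← mul_assoc, h.EM]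
theorem MJE : M * (J * E) = J * E := by rw [← h.EJ, ← mul_assoc, h.ME]

theorem unit : (E + M * J - E * J) * (E + J * M - J * E) = 1 := by
  simp only [mul_add, add_mul, mul_sub, sub_mul, mul_assoc, h.EE, h.EE', h.JJ', h.MM, h.EJ', h.EM,
    h.ME, h.MJE]
  abel

theorem invol : (E + J - J * E) * (E + J - J * E) = 1 := by
  simp only [mul_add, add_mul, mul_sub, sub_mul, mul_assoc, h.EE, h.EE', h.JJ', h.JJ, h.EJ, h.EJ']
  abel

theorem cnj : (E + J - J * E) * (E + J * M - J * E) * (E + J - J * E) = E + M * J - E * J := by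
  simp only [mul_add, add_mul, mul_sub, sub_mul, mul_assoc, h.EE, h.EE', h.JJ', h.JJ, h.EJ, h.EJ',
    h.EM, h.EM', h.ME, h.MJE]
  abel

theorem proj (hS : S * S = S) (h1 : E * S = 0) (h2 : S * E = 0) (h3 : S * J * S = 0) :
    (E + S + J * S * J) * (E + S + J * S * J) = E + S + J * S * J := by
  have a1 : ∀ z, E * (S * z) = 0 := fun z => by rw [← mul_assoc, h1, zero_mul]
  have a2 : S * (J * E) = 0 := by rw [← h.EJ, ← mul_assoc, h2, zero_mul]
  have a3 : S * (J * S) = 0 := by rw [← mul_assoc, h3]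
  have a4 : ∀ z, S * (J * (S * z)) = 0 := fun z => by rw [← mul_assoc, ← mul_assoc, h3, zero_mul]
  have a5 : ∀ z, S * (S * z) = S * z := fun z => by rw [← mul_assoc, hS]
  simp only [mul_add, add_mul, mul_assoc, h.EE, h.JJ', h.EJ', h1, h2, hS, a1, a2, a3, a4, a5,
    mul_zero, add_zero, zero_add]

theorem fix (h1 : E * S = 0) (h4 : J * M * S = S) :
    (E + J * M - J * E) * (E + S + J * S * J) = E + S + J * S * J := by
  have a1 : ∀ z, E * (S * z) = 0 := fun z => by rw [← mul_assoc, h1, zero_mul]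
  have a2 : J * (M * S) = S := by rw [← mul_assoc, h4]
  have a3 : M * (J * S) = S := by
    conv_lhs => rw [← a2]
    rw [h.JJ', h.MM']
  have a4 : ∀ z, M * (J * (S * z)) = S * z := fun z => by
    rw [← mul_assoc J, ← mul_assoc, a3]
  simp only [mul_add, add_mul, mul_sub, sub_mul, mul_assoc, h.EE, h.EJ', h.ME, h1, a1, a2, a4,
    mul_zero, add_zero, zero_add, sub_zero]
  abel

theorem iota_sq (g1 : E * Γ = Γ * E) (g2 : J * Γ = Γ' * J) (g3 : Γ' * Γ = 1) :
    (J * Γ * E + (1 - E)) * (J * Γ * E + (1 - E)) = 1 := by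
  have a1 : ∀ z, E * (Γ * z) = Γ * (E * z) := fun z => by rw [← mul_assoc, g1, mul_assoc]
  have a2 : J * (Γ * (J * (Γ * E))) = E := by
    rw [← mul_assoc, g2, mul_assoc, h.JJ', ← mul_assoc, g3, one_mul]
  simp only [mul_add, add_mul, mul_sub, sub_mul, mul_assoc, h.EE, h.EJ', a1, a2, mul_one, one_mul]
  abel

theorem iota_mul (g1 : E * Γ = Γ * E) (g4 : Γ * (1 - E) = 1 - E) :
    (J * Γ * E + (1 - E)) * (E + J * M - J * E) = J * M * Γ := by
  have a1 : M * Γ = Γ * E + M - E := by
    calc M * Γ = M * (Γ * E) + M * (Γ * (1 - E)) := by noncomm_ring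
      _ = Γ * E + M - E := by
        rw [g4, ← g1, ← mul_assoc, h.ME, mul_sub, mul_one, h.ME, add_sub_assoc]
  simp only [mul_add, add_mul, mul_sub, sub_mul, mul_assoc, h.EE, h.EJ', h.EM, a1, mul_one, one_mul]
  abel

end LowBRel

end Alg

theorem LowB_trace_real {y J : Matrix X X ℂ} (h1 : J * J = 1) (h2 : J * y * J = yᴴ) (j : ℕ) :
    (y ^ j).trace.im = 0 := by
  have a1 : J * y ^ j * J = (y ^ j)ᴴ := by
    induction j with
    | zero => simp [h1]
    | succ j ih =>
      rw [Matrix.conjTranspose_pow] at ih ⊢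
      rw [pow_succ, pow_succ, ← ih, ← h2]
      simp only [mul_assoc]
      rw [← mul_assoc J J, h1, one_mul]
  have a2 : (y ^ j).trace = star (y ^ j).trace := by
    rw [← Matrix.trace_conjTranspose, ← a1, Matrix.trace_mul_cycle, h1, one_mul]
  have := congrArg Complex.im a2
  simp only [RCLike.star_def, Complex.conj_im] at this
  linarith

theorem LowB_isLeft_inv (z : Let G m) : z.inv.isLeft = z.isLeft := by
  cases z <;> rfl

theorem LowB_gp_inv (z : Let G m) : z.inv.gp = z.gp⁻¹ := by
  cases z <;> simp [Let.inv, Let.gp]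

theorem lowB (x : X → Let G m) (J M : Matrix X X ℂ) (hJ1 : Jᴴ = J) (hJ2 : J * J = 1)
    (hJ0 : ∀ p, J p p = 0) (hJx : ∀ p q, J q p ≠ 0 → x q = (x p).inv) (hM1 : Mᴴ = M)
    (hM2 : M * M = 1) (hMG : ∀ p, (x p).isLeft = true → ∀ q, M q p = if q = p then 1 else 0) (k : ℕ)
    (hq : ∀ l : Fin m, ∃ q : Matrix X X ℂ, qᴴ = q ∧ q * q = q ∧
      (∀ p p', q p p' ≠ 0 → x p = .inr (l, true)) ∧ J * M * q = q ∧ (k : ℝ) ≤ q.trace.re)
    {r η : ℝ} (hr0 : 0 ≤ r) (hr1 : r < 1) (hη0 : 0 ≤ η) (hη1 : η ≤ Real.pi) :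
    (trG X G).Φ r (Complex.exp (η * Complex.I) • (emb G (J * M) * Gam fun p => (x p).gp)) ≤
      ((univ.filter fun p => (x p).isLeft = true).card + 2 * m * k : ℝ) *
          Complex.arg (1 - (r : ℂ) * Complex.exp (η * Complex.I)) +
        η * Fintype.card X / 2 + Real.pi * (univ.filter fun p => (x p).isLeft = true).card / 4 := by
  choose q hq1 hq2 hq3 hq4 hq5 using hq
  set E : Matrix X X ℂ := Matrix.diagonal fun p => if (x p).isLeft = true then 1 else 0 with hE
  have hE1 : Eᴴ = E := by
    rw [hE, Matrix.diagonal_conjTranspose]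
    congr 1
    funext p
    simp
  have hME : M * E = E := by
    ext a b
    simp only [hE, Matrix.mul_diagonal, Matrix.diagonal_apply]
    by_cases hb : (x b).isLeft = true
    · rw [hMG b hb, if_pos hb, mul_one]
      by_cases hab : a = b
      · rw [if_pos hab, if_pos hab, hab, if_pos hb]
      · rw [if_neg hab, if_neg hab]
    · rw [if_neg hb, mul_zero]
      by_cases hab : a = b
      · rw [if_pos hab, hab, if_neg hb]
      · rw [if_neg hab]
  have hrel : LowBRel E J M := by
    refine ⟨?_, hJ2, hM2, ?_, hME, ?_⟩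
    · rw [hE, Matrix.diagonal_mul_diagonal]
      congr 1
      funext p
      split_ifs <;> simp
    · ext a b
      simp only [hE, Matrix.mul_diagonal, Matrix.diagonal_mul]
      by_cases h0 : J a b = 0
      · simp [h0]
      · rw [hJx b a h0, LowB_isLeft_inv, mul_comm]
    · have := congrArg Matrix.conjTranspose hME
      rwa [Matrix.conjTranspose_mul, hE1, hM1] at this
  have htrE : E.trace = ((univ.filter fun p => (x p).isLeft = true).card : ℂ) := by
    simp [hE, Matrix.trace_diagonal]
  -- the projections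
  have hq3' : ∀ l p p', q l p p' ≠ 0 → x p' = .inr (l, true) := by
    intro l p p' h
    refine hq3 l p' p fun h0 => h ?_
    rw [← hq1 l, Matrix.conjTranspose_apply, h0, star_zero]
  set S : Matrix X X ℂ := ∑ l, q l with hS
  have hS1 : Sᴴ = S := by simp [hS, Matrix.conjTranspose_sum, hq1]
  have hS2 : S * S = S := by
    rw [hS, Finset.sum_mul]
    refine Finset.sum_congr rfl fun l _ => ?_
    rw [Finset.mul_sum, Finset.sum_eq_single l, hq2]
    · intro l' _ hl
      ext a b
      rw [Matrix.mul_apply, Matrix.zero_apply]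
      refine Finset.sum_eq_zero fun s _ => ?_
      by_contra h
      have h1 := hq3' l a s (left_ne_zero_of_mul h)
      rw [hq3 l' s b (right_ne_zero_of_mul h)] at h1
      simp [hl] at h1
    · simp
  have hES : E * S = 0 := by
    rw [hS, Finset.mul_sum]
    refine Finset.sum_eq_zero fun l _ => ?_
    ext a b
    rw [hE, Matrix.diagonal_mul, Matrix.zero_apply]
    by_cases h0 : q l a b = 0
    · simp [h0]
    · simp [hq3 l a b h0]
  have hSE : S * E = 0 := by
    have := congrArg Matrix.conjTranspose hES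
    rwa [Matrix.conjTranspose_mul, hE1, hS1, Matrix.conjTranspose_zero] at this
  have hSJS : S * J * S = 0 := by
    rw [hS, Finset.sum_mul, Finset.sum_mul]
    refine Finset.sum_eq_zero fun l _ => ?_
    rw [Finset.mul_sum]
    refine Finset.sum_eq_zero fun l' _ => ?_
    ext a b
    rw [Matrix.mul_apply, Matrix.zero_apply]
    refine Finset.sum_eq_zero fun t _ => ?_
    rw [Matrix.mul_apply, Finset.sum_mul]
    refine Finset.sum_eq_zero fun s _ => ?_
    by_contra h
    have h1 := hq3' l a s (left_ne_zero_of_mul (left_ne_zero_of_mul h))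
    rw [hJx t s (right_ne_zero_of_mul (left_ne_zero_of_mul h)),
      hq3 l' t b (right_ne_zero_of_mul h)] at h1
    simp [Let.inv] at h1
  have hJMS : J * M * S = S := by
    rw [hS, Finset.mul_sum]
    exact Finset.sum_congr rfl fun l _ => hq4 l
  have htrS : (m : ℝ) * k ≤ S.trace.re := by
    rw [hS, Matrix.trace_sum, Complex.re_sum]
    simpa using Finset.sum_le_sum fun l (_ : l ∈ (univ : Finset (Fin m))) => hq5 l
  set Q : Matrix X X ℂ := E + S + J * S * J with hQ
  have hQ1 : Qᴴ = Q := by
    simp only [hQ, Matrix.conjTranspose_add, Matrix.conjTranspose_mul, hE1, hS1, hJ1, mul_assoc]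
  have htrQ : ((univ.filter fun p => (x p).isLeft = true).card + 2 * m * k : ℝ) ≤ Q.trace.re := by
    rw [hQ, Matrix.trace_add, Matrix.trace_add, Matrix.trace_mul_cycle, hJ2, one_mul, htrE]
    simp only [Complex.add_re, Complex.natCast_re]
    linarith
  -- the scalar unitary
  set y : Matrix X X ℂ := E + J * M - J * E with hy
  have hyH : yᴴ = E + M * J - E * J := by
    simp only [hy, Matrix.conjTranspose_add, Matrix.conjTranspose_sub, Matrix.conjTranspose_mul, hE1,
      hM1, hJ1]
  have hyu : y ∈ Matrix.unitaryGroup X ℂ := by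
    rw [Matrix.mem_unitaryGroup_iff', Matrix.star_eq_conjTranspose, hyH]
    exact hrel.unit
  have hfix := (trG X G).Φ_fix hr0 hr1 (q := emb G Q) (y := emb G y) (by rw [← emb_star, hQ1])
    (by rw [← map_mul, hrel.proj hS2 hES hSE hSJS]) (emb_unitary hyu)
    (by rw [← map_mul, hrel.fix hES hJMS])
    (fun j => by
      rw [← map_pow, trG_emb]
      exact LowB_trace_real hrel.invol (hrel.cnj.trans hyH.symm) j) hη0
  -- the involution
  set Γ : Matrix X X (GA G) := Gam fun p => (x p).gp with hΓ
  have hrel' : LowBRel (emb G E) (emb G J) (emb G M) :=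
    ⟨by rw [← map_mul, hrel.EE], by rw [← map_mul, hrel.JJ, map_one],
      by rw [← map_mul, hrel.MM, map_one], by rw [← map_mul, ← map_mul, hrel.EJ],
      by rw [← map_mul, hrel.ME], by rw [← map_mul, hrel.EM]⟩
  have hEd : emb G E = Matrix.diagonal fun p => if (x p).isLeft = true then 1 else 0 := by
    ext1 a b
    rw [emb_apply, hE, Matrix.diagonal_apply, Matrix.diagonal_apply]
    split_ifs <;> simp [MonoidAlgebra.one_def]
  have g1 : emb G E * Γ = Γ * emb G E := by
    rw [hEd, hΓ, Gam, Matrix.diagonal_mul_diagonal, Matrix.diagonal_mul_diagonal]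
    congr 1
    funext p
    split_ifs <;> simp
  have g2 : emb G J * Γ = star Γ * emb G J := by
    rw [hΓ, LowB_star_Gam, Gam]
    ext1 a b
    rw [Matrix.mul_diagonal, Matrix.diagonal_mul, emb_apply]
    by_cases h0 : J a b = 0
    · simp [h0]
    · rw [hJx b a h0, LowB_gp_inv]
      simp [MonoidAlgebra.single_mul_single]
  have g3 : star Γ * Γ = 1 := (Unitary.mem_iff.1 (Gam_unitary _)).1
  have g4 : Γ * (1 - emb G E) = 1 - emb G E := by
    rw [hEd, hΓ, Gam, ← Matrix.diagonal_one, Matrix.diagonal_sub, Matrix.diagonal_mul_diagonal]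
    congr 1
    funext p
    rcases hx : x p with a | e <;> simp [Let.gp, ← MonoidAlgebra.one_def]
  have hι1 : star (emb G J * Γ * emb G E + (1 - emb G E)) = emb G J * Γ * emb G E + (1 - emb G E) := by
    rw [star_add, star_sub, star_one, star_mul, star_mul, ← emb_star, ← emb_star, hE1, hJ1, ← g2,
      hrel'.EJ', g1, mul_assoc]
  have hιt : (trG X G).τ (emb G J * Γ * emb G E) = 0 := by
    rw [trG_apply, hEd, hΓ, Gam]
    refine Finset.sum_eq_zero fun p _ => ?_
    rw [Matrix.mul_diagonal, Matrix.mul_diagonal, emb_apply, hJ0]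
    simp
  have hz : Complex.exp (η * Complex.I) • y ∈ Matrix.unitaryGroup X ℂ := by
    rw [Matrix.mem_unitaryGroup_iff', star_smul, smul_mul_smul_comm,
      Matrix.mem_unitaryGroup_iff'.1 hyu, RCLike.star_def, Complex.conj_mul',
      Complex.norm_exp_ofReal_mul_I]
    simp
  have hinv := (trG X G).Φ_invol hr0 hr1 hι1 (hrel'.iota_sq g1 g2 g3) (emb_unitary (G := G) hz)
  have hprod : (emb G J * Γ * emb G E + (1 - emb G E)) * emb G y = emb G (J * M) * Γ := by
    rw [hy, map_sub, map_add, map_mul, map_mul]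
    exact hrel'.iota_mul g1 g4
  rw [map_smul, mul_smul_comm, hprod, (trG X G).τ.map_add, (trG X G).τ.map_sub, hιt, trG_one, trG_emb,
    htrE] at hinv
  rw [trG_emb, trG_one] at hfix
  simp only [Complex.natCast_re, zero_add, Complex.sub_re, sub_sub_cancel] at hinv hfix
  have harg := arg_one_sub_nonpos hr0 hr1 hη0 hη1
  have := mul_le_mul_of_nonpos_right htrQ harg
  linarith

end

end Crest.Agent.R174
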