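import Crest.Agent.R174.TDefs

/-!
# Row 174: a word spelling an element of `G` has a noncrossing matching of its `t`-letters

`exists_fox` (Fox derivative): let `V = Multiplicative (FP G m × Fin m → ℤ)` with the action `(γ • v) (π, l) = v (γ⁻¹ π, l)`, and
`F : FP G m →* V ⋊[φ] FP G m` (`SemidirectProduct`) given by `Coprod.lift`, `inl a ↦ (0, inl a)`, `t_l ↦ (δ_(1,l), t_l)`; its right component is the
identity; `κ π = (F π).left`.  (Or let `FP G m` act on `FP G m × (FP G m × Fin m → ℤ)` by permutations.)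
`exists_match`: `π p = ((List.ofFn (ev ∘ x)).take p).prod`, `π 0 = 1`, `π n = inl g`, `π (p+1) = π p * ev (x p)`.  A `t`-letter at `p` crosses
the edge `edge p = (π p, l)` if `x p = inr (l, true)`, `(π (p+1), l)` if `x p = inr (l, false)`; `κ (π ·) e` changes only at crossings of `e`:
from `A e = κ e.1 e` to `A e + 1` at a positive letter, back at a negative one.  It starts and ends at `0`.  Call `p` opening if
`κ (π p) (edge p) = 0`, closing otherwise; by induction `κ (π p) e ∈ {A e, A e + 1}` from the first crossing on, and `0` is one of the two values, so closing means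
`κ (π (p+1)) (edge p) = 0`.  `M p` = next crossing of the same edge for `p` opening (exists since the value returns to `0`), previous crossing for `p`
closing (`Nat.find`, `Nat.findGreatest`, or `Finset.min'`/`max'`; alternatively define the relation
`R p q := p < q ∧ opening p ∧ edge p = edge q ∧ no crossing strictly between` and show it is a perfect matching).  Matched letters are
inverse, `π (M p + 1) = π p` for `p` opening.  Noncrossing: if `p < q < M p < M q` with edges `e ≠ e'`, then `κ · e ≠ 0` at both ends of `e'` and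
`κ · e' ≠ 0` at both ends of `e` (ends: `γ` and `γ t_l`); at the first position `p₀` crossing `e` or `e'`, say `e`, `π p₀` is an end of `e` and
`κ (π p₀) e' = 0`, contradiction.  Finally `γ p = ρ (π p)`, `ρ = Coprod.fst`.
-/

set_option autoImplicit false
set_option linter.unusedSectionVars false
set_option linter.unusedVariables false

open Matrix Finset
open scoped ComplexConjugate

namespace Crest.Agent.R174

noncomputable section

variable {G : Type*} [Group G] {m : ℕ}

open Classical in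
theorem exists_fox : ∃ κ : FP G m → FP G m × Fin m → ℤ, κ 1 = 0 ∧
    (∀ π (a : G), κ (π * Monoid.Coprod.inl a) = κ π) ∧
    ∀ π l e, κ (π * Monoid.Coprod.inr (FreeGroup.of l)) e = κ π e + if e = (π, l) then 1 else 0 := by
  let φ : FP G m →* MulAut (FP G m → Fin m → Multiplicative ℤ) := mulAutArrow
  let F : FP G m →* (FP G m → Fin m → Multiplicative ℤ) ⋊[φ] FP G m :=
    Monoid.Coprod.lift (SemidirectProduct.inr.comp Monoid.Coprod.inl)
      (FreeGroup.lift fun l => ⟨fun π l' => Multiplicative.ofAdd (if π = 1 ∧ l' = l then 1 else 0),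
        Monoid.Coprod.inr (FreeGroup.of l)⟩)
  have hF : SemidirectProduct.rightHom.comp F = MonoidHom.id _ := by
    refine Monoid.Coprod.hom_ext ?_ ?_
    · ext a
      simp [F]
    · ext l
      simp [F]
  have hr : ∀ π, (F π).right = π := fun π => DFunLike.congr_fun hF π
  refine ⟨fun π e => ((F π).left e.1 e.2).toAdd, ?_, fun π a => ?_, fun π l e => ?_⟩
  · funext e
    simp
  · funext e
    have : (F (Monoid.Coprod.inl a)).left = 1 := by simp [F]
    simp only [map_mul, SemidirectProduct.mul_left, this, map_one, mul_one]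
  · have : (F (Monoid.Coprod.inr (FreeGroup.of l))).left =
        fun π l' => Multiplicative.ofAdd (if π = 1 ∧ l' = l then 1 else 0) := by simp [F]
    simp only [map_mul, SemidirectProduct.mul_left, this, hr, Pi.mul_apply, toAdd_mul]
    congr 1
    show (if π⁻¹ * e.1 = 1 ∧ e.2 = l then (1 : ℤ) else 0) = _
    congr 1
    rw [inv_mul_eq_one, Prod.ext_iff, eq_comm (a := π)]

/-- a symmetric functional relation is an involution -/
theorem Match_invol {α : Type*} {S : α → α → Prop} (hs : ∀ p q, S p q → S q p)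
    (hu : ∀ p q q', S p q → S p q' → q = q') :
    ∃ M : α → α, (∀ p, M (M p) = p) ∧ ∀ p, S p (M p) ∨ (M p = p ∧ ∀ q, ¬ S p q) := by
  have h : ∀ p, ∃ q, S p q ∨ (q = p ∧ ∀ q, ¬ S p q) := fun p => by
    by_cases h : ∃ q, S p q
    · obtain ⟨q, hq⟩ := h
      exact ⟨q, Or.inl hq⟩
    · exact ⟨p, Or.inr ⟨rfl, not_exists.1 h⟩⟩
  choose M hM using h
  refine ⟨M, fun p => ?_, hM⟩
  rcases hM p with h | h
  · rcases hM (M p) with h' | h'
    · exact hu _ _ _ h' (hs _ _ h)
    · exact absurd (hs _ _ h) (h'.2 p)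
  · rw [h.1, h.1]

/-- abstract form: a path crossing edges, with a side function `f` -/
structure Match_Path (E : Type*) where
  cr : E → ℕ → Prop
  f : E → ℕ → ℤ
  A : E → ℤ
  n : ℕ
  uniq : ∀ {e e' p}, cr e p → cr e' p → e = e'
  zero : ∀ e, f e 0 = 0
  fin : ∀ e, f e n = 0
  const : ∀ {e p}, p < n → ¬ cr e p → f e (p + 1) = f e p
  jump : ∀ {e p}, cr e p → (f e p = A e ∧ f e (p + 1) = A e + 1) ∨ (f e p = A e + 1 ∧ f e (p + 1) = A e)
  ends : ∀ {e p q}, cr e p → cr e q → ∀ e', f e' q = f e' p ∨ f e' q = f e' (p + 1)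

namespace Match_Path

variable {E : Type*} (P : Match_Path E)

/-- `p` opens, `q` is the next crossing of the same edge -/
def R (p q : ℕ) : Prop :=
  p < q ∧ q < P.n ∧ ∃ e, P.cr e p ∧ P.cr e q ∧ P.f e p = 0 ∧ ∀ j, p < j → j < q → ¬ P.cr e j

variable {P}

theorem stay {e : E} {i j : ℕ} (hij : i ≤ j) (hj : j ≤ P.n) (h : ∀ s, i ≤ s → s < j → ¬ P.cr e s) :
    P.f e j = P.f e i := by
  induction j, hij using Nat.le_induction with
  | base => rfl
  | succ j hij ih =>
    rw [P.const hj (h j hij (Nat.lt_succ_self j)), ih (by omega) fun s h1 h2 => h s h1 (by omega)]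

theorem zero_mem {e : E} {p : ℕ} (hp : p ≤ P.n) : P.f e p = 0 ∨ P.A e = 0 ∨ P.A e + 1 = 0 := by
  induction p with
  | zero => exact Or.inl (P.zero e)
  | succ p ih =>
    rcases ih (by omega) with h | h
    · by_cases hc : P.cr e p
      · have := P.jump hc
        omega
      · exact Or.inl (by rw [P.const hp hc, h])
    · exact Or.inr h

theorem inside {e : E} {p q j : ℕ} (hp : P.cr e p) (h0 : P.f e p = 0) (hq : q < P.n)
    (h : ∀ j, p < j → j < q → ¬ P.cr e j) (h1 : p < j) (h2 : j ≤ q) : P.f e j ≠ 0 := by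
  rw [stay (Nat.succ_le_of_lt h1) (by omega) fun s h3 h4 => h s h3 (by omega)]
  have := P.jump hp
  simp only [Nat.succ_eq_add_one]
  omega

theorem exists_R {e : E} {p : ℕ} (hn : p < P.n) (hp : P.cr e p) : ∃ q, P.R p q ∨ P.R q p := by
  classical
  have hj := P.jump hp
  by_cases h0 : P.f e p = 0
  · have hex : ∃ q, p < q ∧ q < P.n ∧ P.cr e q := by
      by_contra hno
      push Not at hno
      have := stay (e := e) (Nat.succ_le_of_lt hn) le_rfl fun s h1 h2 => hno s h1 h2
      rw [P.fin, Nat.succ_eq_add_one] at this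
      omega
    obtain ⟨h1, h2, h3⟩ := Nat.find_spec hex
    exact ⟨_, Or.inl ⟨h1, h2, e, hp, h3, h0, fun j h4 h5 h6 =>
      Nat.find_min hex h5 ⟨h4, by omega, h6⟩⟩⟩
  · have hex : ∃ q, q < p ∧ P.cr e q := by
      by_contra hno
      push Not at hno
      exact h0 (by rw [stay (Nat.zero_le p) hn.le fun s _ h2 => hno s h2, P.zero])
    obtain ⟨q₀, hq₀⟩ := hex
    obtain ⟨h1, h2⟩ := Nat.findGreatest_spec (P := fun q => q < p ∧ P.cr e q) hq₀.1.le hq₀
    have h3 : ∀ j, Nat.findGreatest (fun q => q < p ∧ P.cr e q) p < j → j < p → ¬ P.cr e j :=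
      fun j h4 h5 h6 => Nat.findGreatest_is_greatest h4 h5.le ⟨h5, h6⟩
    refine ⟨_, Or.inr ⟨h1, hn, e, h2, hp, ?_, h3⟩⟩
    have h4 := stay (Nat.succ_le_of_lt h1) hn.le fun s h4 h5 => h3 s h4 h5
    have h5 := P.jump h2
    have h6 := zero_mem (e := e) hn.le
    rw [Nat.succ_eq_add_one] at h4
    omega

theorem R.right_uniq {p q q' : ℕ} (h : P.R p q) (h' : P.R p q') : q = q' := by
  obtain ⟨h1, -, e, h2, h3, -, h4⟩ := h
  obtain ⟨h1', -, e', h2', h3', -, h4'⟩ := h'
  obtain rfl := P.uniq h2 h2'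
  by_contra hne
  rcases lt_or_gt_of_ne hne with h | h
  · exact h4' q h1 h h3
  · exact h4 q' h1' h h3'

theorem R.left_uniq {p p' q : ℕ} (h : P.R p q) (h' : P.R p' q) : p = p' := by
  obtain ⟨h1, -, e, h2, h3, -, h4⟩ := h
  obtain ⟨h1', -, e', h2', h3', -, h4'⟩ := h'
  obtain rfl := P.uniq h3 h3'
  by_contra hne
  rcases lt_or_gt_of_ne hne with h | h
  · exact h4 p' h h1' h2'
  · exact h4' p h h1 h2

theorem R.no_chain {p q r : ℕ} (h : P.R p q) (h' : P.R q r) : False := by
  obtain ⟨h1, hn, e, h2, h3, h0, h4⟩ := h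
  obtain ⟨-, -, e', h2', -, h0', -⟩ := h'
  obtain rfl := P.uniq h3 h2'
  exact inside h2 h0 hn h4 h1 le_rfl h0'

theorem R.no_cross {p q p' q' : ℕ} (h : P.R p p') (h' : P.R q q') (a : p < q) (b : q < p')
    (c : p' < q') : False := by
  obtain ⟨h1, hn, e, h2, h3, h0, h4⟩ := h
  obtain ⟨h1', hn', e', h2', h3', h0', h4'⟩ := h'
  have k1 : ∀ j, P.cr e' j → P.f e j ≠ 0 := fun j hj => by
    rcases P.ends h2' hj e with h | h <;> rw [h]
    · exact inside h2 h0 hn h4 a b.le
    · exact inside h2 h0 hn h4 (by omega) b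
  have k2 : ∀ j, P.cr e j → P.f e' j ≠ 0 := fun j hj => by
    rcases P.ends h3 hj e' with h | h <;> rw [h]
    · exact inside h2' h0' hn' h4' b c.le
    · exact inside h2' h0' hn' h4' (by omega) c
  have k : ∀ j ≤ P.n, P.f e j = 0 ∧ P.f e' j = 0 := by
    intro j hj
    induction j with
    | zero => exact ⟨P.zero e, P.zero e'⟩
    | succ j ih =>
      obtain ⟨i1, i2⟩ := ih (by omega)
      exact ⟨by rw [P.const hj fun h => k2 j h i2, i1], by rw [P.const hj fun h => k1 j h i1, i2]⟩
  exact k2 p h2 (k p (by omega)).2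

/-- matched crossings go in opposite directions -/
theorem R.opp {p q : ℕ} (h : P.R p q) :
    ∃ e, P.cr e p ∧ P.cr e q ∧ P.f e q = P.f e (p + 1) := by
  obtain ⟨h1, hn, e, h2, h3, h0, h4⟩ := h
  exact ⟨e, h2, h3, stay (Nat.succ_le_of_lt h1) hn.le h4⟩

end Match_Path

theorem exists_match {n : ℕ} (x : Fin n → Let G m) (g : G)
    (h : (List.ofFn fun p => (x p).ev).prod = Monoid.Coprod.inl g) :
    ∃ (M : Fin n → Fin n) (γ : ℕ → G), (∀ p, M (M p) = p) ∧
      (∀ p, (x p).isLeft = true → M p = p) ∧ (∀ p, (x p).isLeft = false → x (M p) = (x p).inv) ∧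
      (∀ p q, p < q → q < M p → M p < M q → False) ∧ γ 0 = 1 ∧ γ n = g ∧
      ∀ p : Fin n, γ p * (x p).gp = γ (M p + 1) := by
  classical
  obtain ⟨κ, κ1, κa, κt⟩ := exists_fox (G := G) (m := m)
  obtain ⟨π, π0, πn, πs⟩ : ∃ π : ℕ → FP G m, π 0 = 1 ∧ π n = Monoid.Coprod.inl g ∧
      ∀ p : Fin n, π (p + 1) = π p * (x p).ev := by
    refine ⟨fun p => ((List.ofFn fun p => (x p).ev).take p).prod, by simp, ?_, fun p => ?_⟩
    · simp only
      rw [List.take_of_length_le (by simp), h]
    · simp only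
      rw [List.prod_take_succ _ _ (by simp), List.getElem_ofFn]
  let t : Fin m → FP G m := fun l => Monoid.Coprod.inr (FreeGroup.of l)
  let cr : FP G m × Fin m → ℕ → Prop := fun e p => ∃ hp : p < n,
    (x ⟨p, hp⟩ = .inr (e.2, true) ∧ π p = e.1 ∧ π (p + 1) = e.1 * t e.2) ∨
      (x ⟨p, hp⟩ = .inr (e.2, false) ∧ π p = e.1 * t e.2 ∧ π (p + 1) = e.1)
  have κe : ∀ e : FP G m × Fin m, κ (e.1 * t e.2) e = κ e.1 e + 1 := fun e => by
    rw [κt, if_pos rfl]
  have pos : ∀ (p : Fin n) l, x p = .inr (l, true) → cr (π p, l) p := fun p l hx =>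
    ⟨p.2, Or.inl ⟨hx, rfl, by rw [πs, hx]; rfl⟩⟩
  have neg : ∀ (p : Fin n) l, x p = .inr (l, false) → cr (π (p + 1), l) p := fun p l hx =>
    ⟨p.2, Or.inr ⟨hx, by
      rw [πs, hx]
      exact (inv_mul_cancel_right _ _).symm, rfl⟩⟩
  let P : Match_Path (FP G m × Fin m) :=
    { cr := cr
      f := fun e p => κ (π p) e
      A := fun e => κ e.1 e
      n := n
      uniq := by
        rintro e e' p ⟨hp, ⟨h1, h2, h3⟩ | ⟨h1, h2, h3⟩⟩ ⟨_, ⟨h1', h2', h3'⟩ | ⟨h1', h2', h3'⟩⟩ <;>
          rw [h1] at h1' <;> simp only [Sum.inr.injEq, Prod.mk.injEq] at h1'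
        · exact Prod.ext (h2.symm.trans h2') h1'.1
        · exact absurd h1'.2 (by simp)
        · exact absurd h1'.2 (by simp)
        · exact Prod.ext (h3.symm.trans h3') h1'.1
      zero := fun e => by rw [π0, κ1]; rfl
      fin := fun e => by rw [πn, ← one_mul (Monoid.Coprod.inl g), κa, κ1]; rfl
      const := by
        intro e p hp hc
        rcases hx : x ⟨p, hp⟩ with a | ⟨l, _ | _⟩
        · have := πs ⟨p, hp⟩
          rw [hx] at this
          rw [this]
          exact congrFun (κa _ a) e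
        · have h1 := neg _ l hx
          have h2 : π p = π (p + 1) * t l := by
            rw [show π (p + 1) = _ from πs ⟨p, hp⟩, hx]
            exact (inv_mul_cancel_right _ _).symm
          rw [h2, κt, if_neg (by rintro rfl; exact hc h1), add_zero]
        · have h1 := pos _ l hx
          have h2 : π (p + 1) = π p * t l := by
            rw [show π (p + 1) = _ from πs ⟨p, hp⟩, hx]
            rfl
          rw [h2, κt, if_neg (by rintro rfl; exact hc h1), add_zero]
      jump := by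
        rintro e p ⟨hp, ⟨h1, h2, h3⟩ | ⟨h1, h2, h3⟩⟩ <;> rw [h2, h3, κe]
        · exact Or.inl ⟨rfl, rfl⟩
        · exact Or.inr ⟨rfl, rfl⟩
      ends := by
        rintro e p q ⟨hp, ⟨h1, h2, h3⟩ | ⟨h1, h2, h3⟩⟩ ⟨_, ⟨h1', h2', h3'⟩ | ⟨h1', h2', h3'⟩⟩ e' <;>
          rw [h2, h3, h2']
        · exact Or.inl rfl
        · exact Or.inr rfl
        · exact Or.inr rfl
        · exact Or.inl rfl }
  have hR : ∀ p q : Fin n, P.R p q →
      (x p).isLeft = false ∧ x q = (x p).inv ∧ π p = π (q + 1) ∧ π q = π (p + 1) := by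
    intro p q hpq
    obtain ⟨e, ⟨hp, hc⟩, ⟨hq, hc'⟩, hf⟩ := hpq.opp
    have hf' : κ (π q) e = κ (π (p + 1)) e := hf
    have := κe e
    rcases hc with ⟨h1, h2, h3⟩ | ⟨h1, h2, h3⟩ <;> rcases hc' with ⟨h1', h2', h3'⟩ | ⟨h1', h2', h3'⟩ <;>
      rw [Fin.eta] at h1 h1' <;> rw [h3, h2'] at hf'
    · omega
    · rw [h1, h1', h2, h3, h2', h3']
      exact ⟨rfl, rfl, rfl, rfl⟩
    · rw [h1, h1', h2, h3, h2', h3']
      exact ⟨rfl, rfl, rfl, rfl⟩
    · omega
  have hS : ∀ p q : Fin n, P.R p q ∨ P.R q p →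
      (x p).isLeft = false ∧ x q = (x p).inv ∧ π p = π (q + 1) := by
    rintro p q (hpq | hpq)
    · obtain ⟨h1, h2, h3, -⟩ := hR p q hpq
      exact ⟨h1, h2, h3⟩
    · obtain ⟨h1, h2, -, h3⟩ := hR q p hpq
      refine ⟨?_, ?_, h3⟩ <;> rw [h2] <;> rcases hx : x q with a | ⟨l, b⟩ <;> rw [hx] at h1
      · exact absurd h1 (by simp)
      · rfl
      · exact absurd h1 (by simp)
      · simp [Let.inv]
  obtain ⟨M, hMM, hM⟩ := Match_invol (S := fun p q : Fin n => P.R p q ∨ P.R q p)
    (fun p q h => h.symm) (by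
      rintro p q q' (h1 | h1) (h2 | h2)
      · exact Fin.ext (h1.right_uniq h2)
      · exact (h2.no_chain h1).elim
      · exact (h1.no_chain h2).elim
      · exact Fin.ext (h1.left_uniq h2))
  have hL : ∀ p, (x p).isLeft = true → M p = p := fun p hp => by
    rcases hM p with h1 | h1
    · rw [(hS _ _ h1).1] at hp
      exact absurd hp (by simp)
    · exact h1.1
  have hT : ∀ p, (x p).isLeft = false → P.R p (M p) ∨ P.R (M p) p := fun p hp => by
    refine (hM p).resolve_right fun h1 => ?_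
    obtain ⟨e, he⟩ : ∃ e, cr e p := by
      rcases hx : x p with a | ⟨l, _ | _⟩
      · rw [hx] at hp
        exact absurd hp (by simp)
      · exact ⟨_, neg p l hx⟩
      · exact ⟨_, pos p l hx⟩
    obtain ⟨q, hq⟩ := Match_Path.exists_R (P := P) p.2 he
    have hqn : q < n := by
      rcases hq with hq | hq
      · exact hq.2.1
      · exact hq.1.trans p.2
    exact h1.2 ⟨q, hqn⟩ hq
  have hO : ∀ p, p < M p → P.R p (M p) := fun p hp => by
    rcases hM p with (h1 | h1) | h1
    · exact h1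
    · exact absurd h1.1 (not_lt.2 hp.le)
    · exact absurd h1.1 hp.ne'
  refine ⟨M, fun p => Monoid.Coprod.fst (π p), hMM, hL, fun p hp => (hS _ _ (hT p hp)).2.1,
    fun p q a b c => (hO p (a.trans b)).no_cross (hO q (b.trans c)) a b c, by simp [π0],
    by simp [πn], fun p => ?_⟩
  rcases hx : x p with a | e
  · simp only
    rw [hL p (by rw [hx]; rfl), πs, hx, map_mul]
    rfl
  · simp only
    rw [← (hS _ _ (hT p (by rw [hx]; rfl))).2.2]
    exact mul_one _

end

end Crest.Agent.R174
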