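import Crest.Agent.R174.WP
import Crest.Agent.R174.Arg

/-!
# Row 174: the lower bound for `Φ` of the labelled permutation

By `trace_pow` the series is a finite sum over `p` (`hasSum_sum`) of series handled by `hasSum_arg` (off the cycle of `o`:
the contribution to `Φ` is `arg (1 - r^ℓ exp (-i (ε-η) ℓ)) / ℓ → π/(2ℓ) - (ε-η)/2`, `tendsto_arg_neg`, `0 < (ε-η) ℓ < π`) and
`labelled_cycle` (contribution `≥ -π/(4ℓ)`); then `faces`, `sum_cycle`.
-/

set_option autoImplicit false
set_option linter.unusedSectionVars false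
set_option linter.unusedVariables false

open Matrix Finset
open scoped ComplexConjugate

namespace Crest.Agent.R174

noncomputable section

open Filter Topology

variable {X : Type} [Fintype X] [DecidableEq X] {G : Type*} [Group G]

theorem upper (pos : X → ℕ) (hinj : Function.Injective pos) (hlt : ∀ p, pos p < Fintype.card X)
    (c : Equiv.Perm X) (hc : ∀ p, pos (c p) = (pos p + 1) % Fintype.card X) (o : X) (ho : pos o = 0)
    (M : Equiv.Perm X) (hM : ∀ p, M (M p) = p)
    (hnc : ∀ p q, pos p < pos q → pos q < pos (M p) → pos (M p) < pos (M q) → False)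
    (a : X → G) (γ : ℕ → G) (g : G) (hg : g ≠ 1) (hγ0 : γ 0 = 1) (hγn : γ (Fintype.card X) = g)
    (hγ : ∀ p, γ (pos p) * a p = γ (pos (M p) + 1)) {ε η δ : ℝ} (hη : 0 < η) (hηε : η < ε)
    (hε : Fintype.card X * ε ≤ Real.pi) (hδ : 0 < δ) :
    ∀ᶠ r in 𝓝[<] (1 : ℝ),
      Real.pi * (univ.filter fun p => M p ≠ p).card / 4 - Fintype.card X * ε / 2 - Real.pi / 4 - δ ≤
        (trG X G).Φ r (Complex.exp (η * Complex.I) • (emb G (pm c * Mth pos M ε) * Gam a)) := by
  classical
  have hγ' : ∀ p, γ (pos p) * a p = if c (M p) = o then g else γ (pos (c (M p))) := by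
    intro p
    have h1 := hlt (M p)
    rw [hγ]
    split_ifs with h
    · have h2 := hc (M p)
      rw [h, ho] at h2
      have h3 : pos (M p) + 1 = Fintype.card X := by
        by_contra h3
        rw [Nat.mod_eq_of_lt (by omega)] at h2
        omega
      rw [h3, hγn]
    · have h3 : pos (M p) + 1 ≠ Fintype.card X := by
        intro h3
        apply h
        apply hinj
        rw [hc, h3, Nat.mod_self, ho]
      rw [hc, Nat.mod_eq_of_lt (by omega)]
  have htr := trace_pow pos hinj hlt c hc o ho M a (fun p => γ (pos p)) g (by rw [ho, hγ0]) hγ' ε η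
  set ℓ : X → ℕ := fun p => Function.minimalPeriod (c * M) p with hℓ
  have hℓ0 : ∀ p, 0 < ℓ p := fun p => (minimalPeriod_bounds (c * M) p).1
  have hℓ0' : ∀ p, (0 : ℝ) < ℓ p := fun p => by exact_mod_cast hℓ0 p
  have hℓn : ∀ p, (ℓ p : ℝ) ≤ Fintype.card X := fun p => by
    exact_mod_cast (minimalPeriod_bounds (c * M) p).2
  set off := univ.filter fun p => ¬ (c * M).SameCycle o p with hoff
  have hlim : Tendsto (fun r : ℝ => ∑ p ∈ off, Complex.arg (1 - (r : ℂ) ^ ℓ p *
      Complex.exp (-((((ε - η) * ℓ p : ℝ) : ℂ) * Complex.I))) / ℓ p) (𝓝[<] 1)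
      (𝓝 (∑ p ∈ off, (Real.pi - (ε - η) * ℓ p) / 2 / ℓ p)) := by
    refine tendsto_finsetSum _ fun p _ => Tendsto.div_const (tendsto_arg_neg (ℓ p) ?_ ?_) _
    · exact mul_pos (sub_pos.2 hηε) (hℓ0' p)
    · have := Real.pi_pos
      have h1 := hℓn p
      have h2 := hℓ0' p
      nlinarith
  have hB : Real.pi * (univ.filter fun p => M p ≠ p).card / 4 - Fintype.card X * ε / 2 ≤
      ∑ p ∈ off, (Real.pi - (ε - η) * ℓ p) / 2 / ℓ p := by
    have h1 := faces pos hinj hlt c hc o ho M hM hnc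
    have h2 : ∑ p ∈ off, (Real.pi - (ε - η) * ℓ p) / 2 / ℓ p =
        Real.pi / 2 * ∑ p ∈ off, 1 / (ℓ p : ℝ) - off.card * ((ε - η) / 2) := by
      rw [Finset.mul_sum, ← nsmul_eq_mul, ← Finset.sum_const, ← Finset.sum_sub_distrib]
      refine Finset.sum_congr rfl fun p _ => ?_
      have := (hℓ0' p).ne'
      field_simp
    have h3 : (off.card : ℝ) ≤ Fintype.card X := by exact_mod_cast Finset.card_le_univ off
    have h4 := mul_le_mul_of_nonneg_left h1 (half_pos Real.pi_pos).le
    have h5 : (off.card : ℝ) * ((ε - η) / 2) ≤ Fintype.card X * (ε / 2) :=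
      mul_le_mul h3 (by linarith) (by linarith) (Nat.cast_nonneg _)
    rw [h2]
    linarith
  filter_upwards [hlim.eventually (lt_mem_nhds (sub_lt_self _ hδ)),
    Ioo_mem_nhdsLT (zero_lt_one' ℝ)] with r hr hr'
  have hon : ∀ p, ∃ s : ℝ, s ≤ Real.pi / 4 / ℓ p ∧ HasSum (fun j : ℕ => r ^ j / j *
      (if ℓ p ∣ j then Complex.exp (((ε * Fintype.card X - (ε - η) * ℓ p : ℝ) : ℂ) *
        Complex.I) ^ (j / ℓ p) * (if g ^ (j / ℓ p) = 1 then 1 else 0) else 0).im) s := fun p =>
    labelled_cycle hg (hℓ0 p) hr'.1.le hr'.2 (Complex.norm_exp_ofReal_mul_I _)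
  choose s hs hs' using hon
  have hall : ∀ p, HasSum (fun j : ℕ => r ^ j / j * (if ℓ p ∣ j then
      (if (c * M).SameCycle o p then
        Complex.exp (((ε * Fintype.card X - (ε - η) * ℓ p : ℝ) : ℂ) * Complex.I) ^ (j / ℓ p) *
          (if g ^ (j / ℓ p) = 1 then 1 else 0)
      else Complex.exp (-((((ε - η) * ℓ p : ℝ) : ℂ) * Complex.I)) ^ (j / ℓ p)) else 0).im)
      (if (c * M).SameCycle o p then s p else -(Complex.arg (1 - (r : ℂ) ^ ℓ p *
        Complex.exp (-((((ε - η) * ℓ p : ℝ) : ℂ) * Complex.I))) / ℓ p)) := by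
    intro p
    by_cases h : (c * M).SameCycle o p
    · simp only [if_pos h]
      exact hs' p
    · simp only [if_neg h]
      refine hasSum_arg (hℓ0 p) hr'.1.le hr'.2 ?_
      rw [← neg_mul, ← Complex.ofReal_neg]
      exact Complex.norm_exp_ofReal_mul_I _
  have hsum := hasSum_sum (s := univ) fun p _ => hall p
  simp only [← Finset.mul_sum, ← Complex.im_sum] at hsum
  rw [TrData.Φ]
  simp only [htr]
  rw [hsum.tsum_eq, Finset.sum_ite, Finset.sum_neg_distrib]
  have h1 : ∑ p ∈ univ.filter (fun p => (c * M).SameCycle o p), s p ≤ Real.pi / 4 := by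
    refine (Finset.sum_le_sum fun p _ => hs p).trans (le_of_eq ?_)
    refine Eq.trans ?_ ((congrArg (Real.pi / 4 * ·) (sum_cycle (c * M) o)).trans (mul_one _))
    rw [Finset.mul_sum]
    exact Finset.sum_congr rfl fun p _ => (mul_one_div _ _).symm
  linarith

end

end Crest.Agent.R174
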