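import Crest.Agent.R174.Red
import Crest.Agent.R174.Match
import Crest.Agent.R174.Fix
import Crest.Agent.R174.LowB
import Crest.Agent.R174.Upper

/-!
# Row 174: assembly

* `lolli_trivial`: suppose `g ≠ 1`.  `X = Fin K × Fin T`, `n = card X`, `K = m * (k * 2)`.  `exists_match` for `x ∘ finProdFinEquiv.symm`, transported to a
  permutation `M` of `X` (`Function.Involutive.toPerm`); `M p ≠ p ↔ x p` is a `t`-letter, so `#{M p ≠ p} + n_G = n`.  `ε = 1/(10 n)`, `η = ε/2`,
  `δ = 1/10`.  `upper` against `factor`, four times `Φ_invol`, `lowB` with `exists_fix`; let `r → 1` (`tendsto_arg_pos`):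
  `-π/4 - nε/2 - δ ≤ -π/2 + η (n_G + K + n)/2`, absurd.
* `exists_right_inverse`: rank `m` means `mulVecLin` is onto; clear denominators (`IsLocalization.exist_integer_multiples_of_finite`).
* `main`: substitute `t_j ↦ ∏_l s_l ^ lam j l` (a homomorphism `FP G n →* FP G m` fixing `G`); the new exponent matrix is `d • 1`.
-/

set_option autoImplicit false
set_option linter.unusedSectionVars false
set_option linter.unusedVariables false

open Matrix Finset
open scoped ComplexConjugate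

namespace Crest.Agent.R174

noncomputable section

open Filter Topology

theorem Let.inv_ne {G : Type*} [Group G] {m : ℕ} {a : Let G m} (h : a.isLeft = false) : a.inv ≠ a := by
  rcases a with a | ⟨l, b⟩
  · simp at h
  · cases b <;> simp [Let.inv]

theorem emb_invol {X : Type} [Fintype X] [DecidableEq X] (G : Type*) [Group G] {x : Matrix X X ℂ}
    (h : xᴴ = x ∧ x * x = 1) : star (emb G x) = emb G x ∧ emb G x * emb G x = 1 :=
  ⟨by rw [← emb_star, h.1], by rw [← map_mul, h.2, map_one]⟩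

theorem invol_unitary {X : Type} [Fintype X] [DecidableEq X] {x : Matrix X X ℂ}
    (h : xᴴ = x ∧ x * x = 1) : x ∈ Matrix.unitaryGroup X ℂ := by
  rw [Matrix.mem_unitaryGroup_iff, Matrix.star_eq_conjTranspose, h.1, h.2]

theorem smul_unitary {A : Type*} [Ring A] [StarRing A] [Algebra ℂ A] [StarModule ℂ A] (η : ℝ) {y : A}
    (hy : y ∈ unitary A) : Complex.exp (η * Complex.I) • y ∈ unitary A := by
  have h : conj (Complex.exp (η * Complex.I)) * Complex.exp (η * Complex.I) = 1 := by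
    rw [Complex.conj_mul', Complex.norm_exp_ofReal_mul_I]; simp
  refine ⟨?_, ?_⟩
  · rw [star_smul, smul_mul_smul_comm, hy.1, Complex.star_def, h, one_smul]
  · rw [star_smul, smul_mul_smul_comm, hy.2, Complex.star_def, mul_comm, h, one_smul]

theorem Φ_step {X : Type} [Fintype X] [DecidableEq X] (G : Type*) [Group G] {x y : Matrix X X ℂ}
    (h : xᴴ = x ∧ x * x = 1) (hy : y ∈ Matrix.unitaryGroup X ℂ) (a : X → G) {r : ℝ} (hr0 : 0 ≤ r)
    (hr1 : r < 1) (η : ℝ) :
    (trG X G).Φ r (Complex.exp (η * Complex.I) • (emb G (x * y) * Gam a)) ≤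
      (trG X G).Φ r (Complex.exp (η * Complex.I) • (emb G y * Gam a)) +
        Real.pi * (Fintype.card X - x.trace.re) / 4 := by
  have h1 := (trG X G).Φ_invol hr0 hr1 (emb_invol G h).1 (emb_invol G h).2
    (smul_unitary η (mul_mem (emb_unitary (G := G) hy) (Gam_unitary a)))
  rw [trG_one, trG_emb, mul_smul_comm, ← mul_assoc, ← map_mul] at h1
  simpa using h1

theorem lolli_trivial {G : Type*} [Group G] {g : G} (Λ : Lolli g) : g = 1 := by
  classical
  by_contra hg
  set T := 2 * Λ.s + Λ.L with hT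
  have hK : Λ.K = Λ.m * (Λ.k * 2) := by simpa using Fintype.card_congr Λ.disc
  have hK0 : 0 < Λ.K := by rw [hK]; have := Λ.hm; have := Λ.hk; positivity
  have hKe : Even Λ.K := by rw [hK, ← mul_assoc]; exact even_two.mul_left _
  have hT0 : 0 < T := by have := Λ.hs; omega
  let e : Fin Λ.K × Fin T ≃ Fin (Λ.K * T) := finProdFinEquiv
  obtain ⟨M₀, γ, hM1, hM2, hM3, hM4, hγ0, hγn, hγ⟩ :=
    exists_match (fun p => Λ.x (e.symm p)) g Λ.prod
  let M' : Fin Λ.K × Fin T → Fin Λ.K × Fin T := fun p => e.symm (M₀ (e p))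
  have hM' : ∀ p, M' (M' p) = p := fun p => by simp [M', hM1]
  let M : Equiv.Perm (Fin Λ.K × Fin T) := Function.Involutive.toPerm M' hM'
  have hMM : (M : _ → _) = M' := rfl
  have hMG : ∀ p, (Λ.x p).isLeft = true → M' p = p := fun p hp => by
    have := hM2 (e p) (by simpa using hp)
    simp [M', this]
  have hMt : ∀ p, (Λ.x p).isLeft = false → Λ.x (M' p) = (Λ.x p).inv := fun p hp => by
    simpa using hM3 (e p) (by simpa using hp)
  have hpos : ∀ p, posn (M' p) = (M₀ (e p)).val := fun p => by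
    simp only [M', posn]
    exact congrArg Fin.val (e.apply_symm_apply _)
  have hcard : Fintype.card (Fin Λ.K × Fin T) = Λ.K * T := by simp
  set n : ℕ := Fintype.card (Fin Λ.K × Fin T) with hn
  have hn0 : (0 : ℝ) < n := by rw [hcard]; positivity
  have hn1 : (1 : ℝ) ≤ n := by
    have : 0 < n := by exact_mod_cast hn0
    exact_mod_cast this
  have hKn : (Λ.K : ℝ) ≤ n := by
    rw [hcard]; exact_mod_cast Nat.le_mul_of_pos_right _ hT0
  set nG : ℕ := (univ.filter fun p => (Λ.x p).isLeft = true).card with hnG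
  have hsum : (univ.filter fun p => M p ≠ p).card + nG = n := by
    have : (univ.filter fun p => M p ≠ p) = univ.filter fun p => ¬ (Λ.x p).isLeft = true := by
      refine Finset.filter_congr fun p _ => ⟨fun h h' => h (hMG p h'), fun h h' => ?_⟩
      have h1 : (Λ.x p).isLeft = false := by simpa using h
      have h2 := hMt p h1
      rw [show M' p = p from h'] at h2
      exact Let.inv_ne h1 h2.symm
    rw [this, add_comm, hnG, Finset.card_filter_add_card_filter_not]
    rfl
  have hsumR : ((univ.filter fun p => M p ≠ p).card : ℝ) = n - nG := by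
    rw [← hsum]; push_cast; ring
  have hnGn : (nG : ℝ) ≤ n := by exact_mod_cast (by omega : nG ≤ n)
  set ε : ℝ := 1 / (10 * n) with hε
  have hε0 : 0 < ε := by positivity
  have hnε : (n : ℝ) * ε = 1 / 10 := by rw [hε]; field_simp
  have hε1 : ε ≤ 1 / 10 := by nlinarith
  have hpi := Real.pi_gt_three
  let o : Fin Λ.K × Fin T := (⟨0, hK0⟩, ⟨0, hT0⟩)
  have hup := upper posn posn_injective posn_lt (cyc Λ.K T) posn_cyc o (by simp [o, posn]) M hM'
    (fun p q h1 h2 h3 => hM4 (e p) (e q) h1 (by rw [hMM, hpos] at h2; exact h2)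
      (by rw [hMM, hpos, hpos] at h3; exact h3))
    (fun p => (Λ.x p).gp) γ g hg hγ0 (by rw [← hn, hcard]; exact hγn)
    (fun p => by
      have := hγ (e p)
      rw [e.symm_apply_apply] at this
      rw [hMM, hpos]; exact this) (ε := ε) (η := ε / 2) (δ := 1 / 10)
    (by positivity) (by linarith) (by rw [← hn, hnε]; linarith) (by norm_num)
  obtain ⟨u, hu, hq⟩ := exists_fix Λ posn M' hM' hMG hMt ε
  have hU1 := uu_conjTranspose Λ.disc u
  have hU2 := uu_mul_self Λ.disc u hu
  have hU0 := uu_diag Λ.disc u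
  obtain ⟨x₁, x₂, x₃, x₄, h1, h2, h3, h4, hfac, htr⟩ := factor hK0 hKe Λ.hs Λ.hL hU1 hU2 hU0
  have hJ := And.intro (Jm_conjTranspose (s := Λ.s) (L := Λ.L) hU1) (Jm_mul_self (s := Λ.s) (L := Λ.L) hU2)
  have hMθ := And.intro (Mth_conjTranspose posn M' ε hM') (Mth_mul_self posn M' ε hM')
  have hu0 := mul_mem (invol_unitary hJ) (invol_unitary hMθ)
  have hu4 := mul_mem (invol_unitary h4) hu0
  have hu3 := mul_mem (invol_unitary h3) hu4
  have hu2 := mul_mem (invol_unitary h2) hu3
  have hlim := tendsto_arg_pos (ψ := ε / 2) (by positivity) (by linarith)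
  have hev : ∀ᶠ r : ℝ in 𝓝[<] (1 : ℝ),
      Complex.arg (1 - (r : ℂ) * Complex.exp (((ε / 2 : ℝ) : ℂ) * Complex.I)) <
        (ε / 2 - Real.pi) / 2 + ε / 4 := hlim.eventually (gt_mem_nhds (by linarith))
  have hr : ∀ᶠ r : ℝ in 𝓝[<] (1 : ℝ), r ∈ Set.Ioo (0 : ℝ) 1 := Ioo_mem_nhdsLT one_pos
  obtain ⟨r, hr1, hr2, hr3⟩ := (hup.and (hev.and hr)).exists
  have hlow := lowB Λ.x _ _ hJ.1 hJ.2 (Jm_diag Λ.hL hU0) (Jm_compat Λ u) hMθ.1 hMθ.2
    (fun p hp q => Mth_fixed posn M' ε (hMG p hp) q) Λ.k hq hr3.1.le hr3.2 (η := ε / 2)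
    (by positivity) (by linarith)
  have s4 := Φ_step G h4 hu0 (fun p => (Λ.x p).gp) hr3.1.le hr3.2 (ε / 2)
  have s3 := Φ_step G h3 hu4 (fun p => (Λ.x p).gp) hr3.1.le hr3.2 (ε / 2)
  have s2 := Φ_step G h2 hu3 (fun p => (Λ.x p).gp) hr3.1.le hr3.2 (ε / 2)
  have s1 := Φ_step G h1 hu2 (fun p => (Λ.x p).gp) hr3.1.le hr3.2 (ε / 2)
  have hfac' : pm (cyc Λ.K T) * Mth posn M ε =
      x₁ * (x₂ * (x₃ * (x₄ * (Jm Λ.s Λ.L (uu Λ.disc u) * Mth posn M' ε)))) := by
    rw [hfac, hMM]; simp only [mul_assoc]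
  rw [hfac', hsumR, ← hn, hnε] at hr1
  rw [← hnG, ← hn] at hlow
  rw [← hn] at s1 s2 s3 s4 htr
  have hKR : (2 * Λ.m * Λ.k : ℝ) = Λ.K := by rw [hK]; push_cast; ring
  rw [hKR] at hlow
  set A := Complex.arg (1 - (r : ℂ) * Complex.exp (((ε / 2 : ℝ) : ℂ) * Complex.I)) with hA
  have hKpos : (0 : ℝ) ≤ Λ.K := by positivity
  have hnGpos : (0 : ℝ) ≤ nG := by positivity
  have b1 : ((nG : ℝ) + Λ.K) * A ≤ ((nG : ℝ) + Λ.K) * ((ε / 2 - Real.pi) / 2 + ε / 4) :=
    mul_le_mul_of_nonneg_left hr2.le (by positivity)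
  have b2 : ((nG : ℝ) + Λ.K) * ε ≤ 2 * (n * ε) := by nlinarith
  have b3 : Real.pi * (3 * n - 2 * Λ.K + 2) ≤
      Real.pi * (x₁.trace.re + x₂.trace.re + x₃.trace.re + x₄.trace.re) :=
    mul_le_mul_of_nonneg_left htr (by positivity)
  nlinarith

theorem exists_right_inverse {m n : ℕ} (E : Fin m → Fin n → ℤ)
    (h : (Matrix.of fun i j => (E i j : ℚ)).rank = m) :
    ∃ (d : ℕ) (lam : Fin n → Fin m → ℤ), 0 < d ∧
      ∀ i l, ∑ j, E i j * lam j l = if i = l then (d : ℤ) else 0 := by
  classical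
  set A : Matrix (Fin m) (Fin n) ℚ := Matrix.of fun i j => (E i j : ℚ) with hA
  have hs : LinearMap.range A.mulVecLin = ⊤ := by
    apply Submodule.eq_top_of_finrank_eq
    rw [Module.finrank_fin_fun]
    exact h
  have hv : ∀ l : Fin m, ∃ v : Fin n → ℚ, A *ᵥ v = Pi.single l 1 := fun l =>
    LinearMap.range_eq_top.1 hs _
  choose v hv using hv
  obtain ⟨b, hb⟩ := IsLocalization.exist_integer_multiples_of_finite (nonZeroDivisors ℤ)
    (fun p : Fin n × Fin m => v p.2 p.1)
  choose c hc using hb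
  have hb0 : (b : ℤ) ≠ 0 := nonZeroDivisors.coe_ne_zero b
  refine ⟨((b : ℤ) * b).toNat, fun j l => b * c (j, l), ?_, fun i l => ?_⟩
  · have : 0 < (b : ℤ) * b := mul_self_pos.2 hb0
    omega
  · rw [Int.toNat_of_nonneg (mul_self_nonneg _)]
    have h1 := congrFun (hv l) i
    simp only [Matrix.mulVec, dotProduct, hA, Matrix.of_apply] at h1
    have h2 : ∀ j, ((c (j, l) : ℤ) : ℚ) = (b : ℤ) * v l j := fun j => by
      simpa [Algebra.smul_def] using hc (j, l)
    apply Int.cast_injective (α := ℚ)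
    push_cast
    simp only [h2]
    have : ∑ j, (E i j : ℚ) * (((b : ℤ) : ℚ) * (((b : ℤ) : ℚ) * v l j)) =
        ((b : ℤ) : ℚ) * ((b : ℤ) : ℚ) * ∑ j, (E i j : ℚ) * v l j := by
      rw [Finset.mul_sum]; exact Finset.sum_congr rfl fun j _ => by ring
    rw [this, h1, Pi.single_apply]
    split_ifs <;> simp

theorem main {G : Type*} [Group G] {n m : ℕ} (hm : 1 ≤ m) (w : Fin m → FP G n)
    (hrank : (Matrix.of fun (i : Fin m) (j : Fin n) =>
      ((Multiplicative.toAdd (ex G n (w i)) j : ℤ) : ℚ)).rank = m) {g : G}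
    (hg : Monoid.Coprod.inl g ∈ Subgroup.normalClosure (Set.range w)) : g = 1 := by
  classical
  obtain ⟨d, lam, hd, hlam⟩ := exists_right_inverse _ hrank
  let s : Fin n → FreeGroup (Fin m) := fun j =>
    (List.ofFn fun l => FreeGroup.of l ^ lam j l).prod
  let ψ : FP G n →* FP G m := Monoid.Coprod.map (MonoidHom.id G) (FreeGroup.lift s)
  let lin : Multiplicative (Fin n → ℤ) →* Multiplicative (Fin m → ℤ) :=
    AddMonoidHom.toMultiplicative
      { toFun := fun v l => ∑ j, v j * lam j l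
        map_zero' := by ext l; simp
        map_add' := fun v v' => by ext l; simp [add_mul, Finset.sum_add_distrib] }
  have hs : ∀ j, ex G m (Monoid.Coprod.inr (s j)) = Multiplicative.ofAdd (lam j) := by
    intro j
    simp only [s, ex, Monoid.Coprod.lift_apply_inr, map_list_prod, List.map_ofFn,
      List.prod_ofFn, Function.comp_apply, map_zpow, FreeGroup.lift_apply_of]
    apply Multiplicative.toAdd.injective
    ext l
    simp [toAdd_prod, Finset.sum_apply, Pi.single_apply]
  have hcomp : (ex G m).comp ψ = lin.comp (ex G n) := by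
    refine Monoid.Coprod.hom_ext ?_ ?_
    · ext1 a; simp [ψ, ex]
    · ext1 j
      simp only [MonoidHom.comp_apply, ψ, Monoid.Coprod.map_apply_inr, FreeGroup.lift_apply_of, hs]
      apply Multiplicative.toAdd.injective
      ext l
      simp [ex, lin, Pi.single_apply]
  refine lolli_trivial (exists_lolli (m := m) hm hd (fun i => ψ (w i)) (fun i l => ?_) ?_).some
  · rw [← hlam i l, ← MonoidHom.comp_apply, hcomp]; rfl
  · have h1 : Subgroup.normalClosure (Set.range w) ≤
        (Subgroup.normalClosure (Set.range fun i => ψ (w i))).comap ψ := by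
      refine Subgroup.normalClosure_le_normal ?_
      rintro _ ⟨i, rfl⟩
      exact Subgroup.subset_normalClosure ⟨i, rfl⟩
    simpa [ψ] using h1 hg

end

end Crest.Agent.R174
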