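import Mathlib

/-!
# Row 174, degree theory 1: `φ(f) det Df` is a null Lagrangian (Lax / Milnor–Rogers trick)

Recipe (no Piola identity needed).
* `nl_id`: `v` is `C¹` with compact support, so Lipschitz, `‖fderiv v x‖ ≤ C`.  For `|s| C < 1/2` the map
  `F_s x = x + s • v x` is a bijection of `E` (`ApproximatesLinearOn.surjective`, `.injective`), the identity
  off `K`, so `F_s '' K = K`; `det (1 + s Dv x) > 0` (never `0` along `[0,s]`, or uniformly close to `1`);
  `integral_image_eq_integral_abs_det_fderiv_smul` gives the identity for small `s` and every `φ`.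
  Let `𝒫` be the set of `F : ℝ → E → ℝ` of the form `F s x = (p.eval (const s)) x`, `p : Polynomial C(E, ℝ)`
  (closed under `+`, `*`, contains constants).  `(s,x) ↦ φ (x + s • v x)` is in `𝒫` for `φ` in the subalgebra
  of `C(E,ℝ)` generated by the continuous linear functionals (`Algebra.adjoin_induction`), and so is
  `det (1 + s Dv x)` (`LinearMap.det_toMatrix` in a basis, `Matrix.det_apply`).  For `F ∈ 𝒫`,
  `s ↦ ∫ x in K, F s x` is a real polynomial; constant near `0` ⇒ constant (`Polynomial.eq_of_infinite_eval_eq`).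
  Finally Stone–Weierstrass on the compact set `K ∪ F_1 '' K`
  (`ContinuousMap.exists_mem_subalgebra_near_continuous_of_isCompact_of_separatesPoints`).
* `nl`: take a smooth bump `χ = 1` on a ball containing `K` in its interior (`ContDiffBump`), `K' = closedBall`
  containing the support; `f̃ = id + χ • (f - id)`, `g̃` likewise.  `nl_id` for both on `K'`; on the set
  `K' \ K` we have `f̃ = g̃` near every point (`Kᶜ` is open), on `K` we have `f̃ = f`, `g̃ = g` near every point.
-/

set_option autoImplicit false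

open MeasureTheory Set

namespace Crest.Agent.R174

variable {E : Type*} [NormedAddCommGroup E] [NormedSpace ℝ E] [FiniteDimensional ℝ E]
  [MeasurableSpace E] [BorelSpace E] (μ : Measure E) [μ.IsAddHaarMeasure]

/-- continuous functions of `x` as functions of `(s, x)` -/
def NL_iota (E : Type*) [TopologicalSpace E] : C(E, ℝ) →+* (ℝ × E → ℝ) where
  toFun f q := f q.2
  map_one' := rfl
  map_mul' _ _ := rfl
  map_zero' := rfl
  map_add' _ _ := rfl

/-- polynomials in `s` with coefficients continuous in `x` -/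
noncomputable def NL_P (E : Type*) [TopologicalSpace E] : Subring (ℝ × E → ℝ) :=
  (Polynomial.eval₂RingHom (NL_iota E) fun q => q.1).range

theorem NL_mem_c {E : Type*} [TopologicalSpace E] {c : E → ℝ} (hc : Continuous c) :
    (fun q : ℝ × E => c q.2) ∈ NL_P E :=
  ⟨Polynomial.C ⟨c, hc⟩, by rw [Polynomial.coe_eval₂RingHom, Polynomial.eval₂_C]; rfl⟩

theorem NL_mem_s {E : Type*} [TopologicalSpace E] : (fun q : ℝ × E => q.1) ∈ NL_P E :=
  ⟨Polynomial.X, by rw [Polynomial.coe_eval₂RingHom, Polynomial.eval₂_X]⟩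

omit [NormedSpace ℝ E] [FiniteDimensional ℝ E] in
theorem NL_poly {K : Set E} (hK : IsCompact K) {F : ℝ × E → ℝ} (hF : F ∈ NL_P E) :
    ∃ P : Polynomial ℝ, ∀ s, ∫ x in K, F (s, x) ∂μ = P.eval s := by
  obtain ⟨p, rfl⟩ := hF
  refine ⟨∑ i ∈ Finset.range (p.natDegree + 1),
    Polynomial.C (∫ x in K, p.coeff i x ∂μ) * Polynomial.X ^ i, fun s => ?_⟩
  rw [Polynomial.coe_eval₂RingHom, Polynomial.eval₂_eq_sum_range, Polynomial.eval_finsetSum]
  simp only [Finset.sum_apply, Pi.mul_apply, Pi.pow_apply, Polynomial.eval_mul, Polynomial.eval_C,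
    Polynomial.eval_pow, Polynomial.eval_X]
  rw [integral_finsetSum]
  · refine Finset.sum_congr rfl fun i _ => ?_
    rw [integral_mul_const]; rfl
  · intro i _
    exact (((p.coeff i).continuous.continuousOn.integrableOn_compact hK).mul_const _)

omit [MeasurableSpace E] [BorelSpace E] in
theorem NL_det_mem {A : E → E →L[ℝ] E} (hA : Continuous A) :
    (fun q : ℝ × E => (ContinuousLinearMap.id ℝ E + q.1 • A q.2).det) ∈ NL_P E := by
  classical
  let b := Module.finBasis ℝ E
  have e : (fun q : ℝ × E => (ContinuousLinearMap.id ℝ E + q.1 • A q.2).det) =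
      ∑ σ : Equiv.Perm (Fin (Module.finrank ℝ E)), (Equiv.Perm.sign σ : ℤ) • ∏ i,
        ((fun q : ℝ × E => b.repr (b i) (σ i)) +
          (fun q : ℝ × E => q.1) * fun q : ℝ × E => b.repr (A q.2 (b i)) (σ i)) := by
    funext q
    rw [ContinuousLinearMap.det, ← LinearMap.det_toMatrix b, Matrix.det_apply]
    simp only [Finset.sum_apply, Pi.smul_apply, Finset.prod_apply, Pi.add_apply, Pi.mul_apply,
      LinearMap.toMatrix_apply, Units.smul_def, ContinuousLinearMap.coe_coe,
      add_apply, ContinuousLinearMap.id_apply, smul_apply,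
      map_add, map_smul, Finsupp.add_apply, Finsupp.smul_apply, smul_eq_mul]
  rw [e]
  refine sum_mem fun σ _ => zsmul_mem (prod_mem fun i _ => add_mem
    (NL_mem_c (c := fun _ => b.repr (b i) (σ i)) continuous_const)
    (mul_mem NL_mem_s (NL_mem_c (c := fun x => b.repr (A x (b i)) (σ i)) ?_))) _
  exact ((b.coord (σ i)).continuous_of_finiteDimensional).comp (hA.clm_apply continuous_const)

/-- the algebra generated by the linear functionals -/
noncomputable def NL_A (E : Type*) [NormedAddCommGroup E] [NormedSpace ℝ E] :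
    Subalgebra ℝ C(E, ℝ) :=
  Algebra.adjoin ℝ (range fun l : E →L[ℝ] ℝ => (⟨l, l.continuous⟩ : C(E, ℝ)))

theorem NL_sep (E : Type*) [NormedAddCommGroup E] [NormedSpace ℝ E] :
    (NL_A E).SeparatesPoints := by
  intro x y hxy
  obtain ⟨l, hl⟩ := SeparatingDual.exists_separating_of_ne (R := ℝ) hxy
  exact ⟨l, ⟨⟨l, l.continuous⟩, Algebra.subset_adjoin ⟨l, rfl⟩, rfl⟩, hl⟩

theorem NL_comp_mem {E : Type*} [NormedAddCommGroup E] [NormedSpace ℝ E] {v : E → E}
    (hv : Continuous v) {ψ : C(E, ℝ)} (hψ : ψ ∈ NL_A E) :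
    (fun q : ℝ × E => ψ (q.2 + q.1 • v q.2)) ∈ NL_P E := by
  induction hψ using Algebra.adjoin_induction with
  | mem x hx =>
    obtain ⟨l, rfl⟩ := hx
    have e : (fun q : ℝ × E => (⟨l, l.continuous⟩ : C(E, ℝ)) (q.2 + q.1 • v q.2)) =
        (fun q : ℝ × E => l q.2) + (fun q : ℝ × E => q.1) * fun q : ℝ × E => l (v q.2) := by
      funext q
      simp
    rw [e]
    exact add_mem (NL_mem_c l.continuous) (mul_mem NL_mem_s (NL_mem_c (l.continuous.comp hv)))
  | algebraMap r => exact NL_mem_c (c := fun _ : E => r) continuous_const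
  | add x y _ _ hx hy => exact add_mem hx hy
  | mul x y _ _ hx hy => exact mul_mem hx hy

/-- change of variables for small `s` -/
theorem NL_small {v : E → E} (hv : ContDiff ℝ 1 v) {K : Set E} (hK : IsCompact K)
    (hvK : ∀ x, x ∉ K → v x = 0) : ∃ δ : ℝ, 0 < δ ∧ ∀ s ∈ Ioo (0 : ℝ) δ, ∀ φ : E → ℝ,
      ∫ x in K, φ (x + s • v x) * (ContinuousLinearMap.id ℝ E + s • fderiv ℝ v x).det ∂μ =
        ∫ x in K, φ x ∂μ := by
  obtain ⟨C, hC⟩ := ContDiff.lipschitzWith_of_hasCompactSupport (HasCompactSupport.intro hK hvK)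
    hv one_ne_zero
  have hd : Differentiable ℝ v := hv.differentiable one_ne_zero
  obtain ⟨η, hη, hdet⟩ : ∃ η > 0, ∀ A : E →L[ℝ] E, dist A (ContinuousLinearMap.id ℝ E) < η →
      0 < A.det := by
    have h1 : ∀ᶠ A in nhds (ContinuousLinearMap.id ℝ E), 0 < ContinuousLinearMap.det A :=
      ContinuousLinearMap.continuous_det.continuousAt.eventually (lt_mem_nhds (by
        simp [ContinuousLinearMap.det]))
    obtain ⟨η, hη, h⟩ := Metric.eventually_nhds_iff.1 h1
    exact ⟨η, hη, fun A hA => h hA⟩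
  have hC0 : (0 : ℝ) < C + 1 := by positivity
  refine ⟨min η (1 / 2) / (C + 1), by positivity, fun s hs φ => ?_⟩
  have hs1 : s * C < min η (1 / 2) := by
    have := (lt_div_iff₀ hC0).1 hs.2
    nlinarith [hs.1]
  have happ : ApproximatesLinearOn (fun x => x + s • v x)
      ((ContinuousLinearEquiv.refl ℝ E : E ≃L[ℝ] E) : E →L[ℝ] E) univ (1 / 2) := by
    intro x _ y _
    have e : x + s • v x - (y + s • v y) -
        ((ContinuousLinearEquiv.refl ℝ E : E ≃L[ℝ] E) : E →L[ℝ] E) (x - y) = s • (v x - v y) := by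
      simp only [ContinuousLinearEquiv.coe_refl, ContinuousLinearMap.id_apply, smul_sub]
      abel
    rw [e, norm_smul, Real.norm_of_nonneg hs.1.le]
    have h1 := hC.norm_sub_le x y
    have h2 : s * C ≤ 1 / 2 := hs1.le.trans (min_le_right _ _)
    calc s * ‖v x - v y‖ ≤ s * (C * ‖x - y‖) := mul_le_mul_of_nonneg_left h1 hs.1.le
      _ = s * C * ‖x - y‖ := by ring
      _ ≤ 1 / 2 * ‖x - y‖ := mul_le_mul_of_nonneg_right h2 (norm_nonneg _)
      _ = _ := by norm_num
  have hc : Subsingleton E ∨ (1 / 2 : NNReal) <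
      ‖(((ContinuousLinearEquiv.refl ℝ E).symm : E ≃L[ℝ] E) : E →L[ℝ] E)‖₊⁻¹ := by
    rcases subsingleton_or_nontrivial E with h | h
    · exact Or.inl h
    · right
      rw [ContinuousLinearEquiv.refl_symm, ContinuousLinearEquiv.coe_refl,
        ContinuousLinearMap.nnnorm_id, inv_one]
      norm_num
  have hinj := happ.injOn hc
  have hsurj := happ.surjective hc
  have himg : (fun x => x + s • v x) '' K = K := by
    apply Subset.antisymm
    · rintro _ ⟨x, hx, rfl⟩
      by_contra h
      have h1 : x + s • v x = x := hinj (mem_univ _) (mem_univ _) (by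
        simp only at h ⊢
        rw [hvK _ h, smul_zero, add_zero])
      exact h (by simp only; rw [h1]; exact hx)
    · intro y hy
      obtain ⟨x, rfl⟩ := hsurj y
      refine ⟨x, ?_, rfl⟩
      by_contra h
      simp only [hvK _ h, smul_zero, add_zero] at hy
      exact h hy
  have := integral_image_eq_integral_abs_det_fderiv_smul μ hK.measurableSet
    (f := fun x => x + s • v x) (f' := fun x => ContinuousLinearMap.id ℝ E + s • fderiv ℝ v x)
    (fun x _ => ((hasFDerivAt_id x).add ((hd x).hasFDerivAt.const_smul s)).hasFDerivWithinAt)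
    (hinj.mono (subset_univ _)) φ
  rw [himg] at this
  rw [this]
  refine integral_congr_ae (ae_of_all _ fun x => ?_)
  have hpos : 0 < (ContinuousLinearMap.id ℝ E + s • fderiv ℝ v x).det := by
    refine hdet _ ?_
    rw [dist_eq_norm, add_sub_cancel_left, norm_smul, Real.norm_of_nonneg hs.1.le]
    calc s * ‖fderiv ℝ v x‖ ≤ s * C :=
          mul_le_mul_of_nonneg_left (norm_fderiv_le_of_lipschitz ℝ hC) hs.1.le
      _ < η := hs1.trans_le (min_le_left _ _)
  simp only [abs_of_pos hpos, smul_eq_mul, mul_comm]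

theorem nl_id {v : E → E} (hv : ContDiff ℝ 1 v) {K : Set E} (hK : IsCompact K)
    (hvK : ∀ x, x ∉ K → v x = 0) {φ : E → ℝ} (hφ : Continuous φ) :
    ∫ x in K, φ (x + v x) * (fderiv ℝ (fun y => y + v y) x).det ∂μ = ∫ x in K, φ x ∂μ := by
  have hd : Differentiable ℝ v := hv.differentiable one_ne_zero
  have hvc := hv.continuous
  have hDc : Continuous (fderiv ℝ v) := hv.continuous_fderiv one_ne_zero
  have hfd : ∀ x, fderiv ℝ (fun y => y + v y) x = ContinuousLinearMap.id ℝ E + fderiv ℝ v x :=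
    fun x => ((hasFDerivAt_id x).add (hd x).hasFDerivAt).fderiv
  simp only [hfd]
  have hdc : Continuous fun x => (ContinuousLinearMap.id ℝ E + fderiv ℝ v x).det :=
    ContinuousLinearMap.continuous_det.comp (continuous_const.add hDc)
  have hA : ∀ ψ ∈ NL_A E,
      ∫ x in K, ψ (x + v x) * (ContinuousLinearMap.id ℝ E + fderiv ℝ v x).det ∂μ =
        ∫ x in K, ψ x ∂μ := by
    intro ψ hψ
    obtain ⟨δ, hδ, hsm⟩ := NL_small μ hv hK hvK
    obtain ⟨P, hP⟩ := NL_poly μ hK (mul_mem (NL_comp_mem hvc hψ) (NL_det_mem hDc))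
    have hPC : P = Polynomial.C (∫ x in K, ψ x ∂μ) := by
      refine Polynomial.eq_of_infinite_eval_eq _ _ ((Ioo_infinite hδ).mono fun s hs => ?_)
      change P.eval s = _
      rw [← hP s, Polynomial.eval_C, ← hsm s hs ψ]
      rfl
    have := hP 1
    rw [hPC, Polynomial.eval_C] at this
    rw [← this]
    simp only [Pi.mul_apply, one_smul]
  have hI : ∀ {F : E → ℝ}, Continuous F → IntegrableOn F K μ :=
    fun hF => hF.continuousOn.integrableOn_compact hK
  set C₁ := ∫ x in K, |(ContinuousLinearMap.id ℝ E + fderiv ℝ v x).det| ∂μ with hC₁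
  set C₂ := ∫ _x in K, (1 : ℝ) ∂μ with hC₂
  have hC₁0 : 0 ≤ C₁ := integral_nonneg fun _ => abs_nonneg _
  have hC₂0 : 0 ≤ C₂ := integral_nonneg fun _ => zero_le_one
  refine eq_of_forall_dist_le fun ε hε => ?_
  have hε' : 0 < ε / (C₁ + C₂ + 1) := by positivity
  obtain ⟨ψ, hψ, hnear⟩ :=
    ContinuousMap.exists_mem_subalgebra_near_continuous_of_isCompact_of_separatesPoints (NL_sep E)
      ⟨φ, hφ⟩ (hK.union (hK.image (f := fun x => x + v x) (by fun_prop))) hε'
  have hψc := ψ.continuous
  have h1 : |(∫ x in K, φ (x + v x) * (ContinuousLinearMap.id ℝ E + fderiv ℝ v x).det ∂μ) -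
      ∫ x in K, ψ (x + v x) * (ContinuousLinearMap.id ℝ E + fderiv ℝ v x).det ∂μ| ≤
      ε / (C₁ + C₂ + 1) * C₁ := by
    rw [← integral_sub (hI (by fun_prop)) (hI (by fun_prop)), hC₁, ← integral_const_mul,
      ← Real.norm_eq_abs]
    refine norm_integral_le_of_norm_le (hI (by fun_prop)) ?_
    filter_upwards [ae_restrict_mem hK.measurableSet] with x hx
    rw [← sub_mul, norm_mul, norm_sub_rev]
    exact mul_le_mul_of_nonneg_right (hnear _ (Or.inr ⟨x, hx, rfl⟩)).le (abs_nonneg _)
  have h2 : |(∫ x in K, ψ x ∂μ) - ∫ x in K, φ x ∂μ| ≤ ε / (C₁ + C₂ + 1) * C₂ := by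
    rw [← integral_sub (hI hψc) (hI hφ), hC₂, ← integral_const_mul, ← Real.norm_eq_abs]
    refine norm_integral_le_of_norm_le (hI (by fun_prop)) ?_
    filter_upwards [ae_restrict_mem hK.measurableSet] with x hx
    rw [mul_one]
    exact (hnear _ (Or.inl hx)).le
  rw [hA ψ hψ] at h1
  rw [Real.dist_eq]
  have h3 : ε / (C₁ + C₂ + 1) * (C₁ + C₂ + 1) = ε := div_mul_cancel₀ _ (by positivity)
  refine (abs_sub_le _ _ _).trans ((add_le_add h1 h2).trans ?_)
  nlinarith

theorem nl {f g : E → E} (hf : ContDiff ℝ 1 f) (hg : ContDiff ℝ 1 g) {K : Set E} (hK : IsCompact K)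
    (hfg : ∀ x, x ∉ K → f x = g x) {φ : E → ℝ} (hφ : Continuous φ) :
    ∫ x in K, φ (f x) * (fderiv ℝ f x).det ∂μ = ∫ x in K, φ (g x) * (fderiv ℝ g x).det ∂μ := by
  obtain ⟨r, hr, hKr⟩ := hK.isBounded.subset_ball_lt 0 (0 : E)
  let χ : ContDiffBump (0 : E) := ⟨r, r + 1, hr, by linarith⟩
  have hχ : ContDiff ℝ 1 χ := χ.contDiff
  have hK' : IsCompact (Metric.closedBall (0 : E) (r + 1)) := isCompact_closedBall _ _
  have hsub : K ⊆ Metric.closedBall (0 : E) (r + 1) :=
    hKr.trans (Metric.ball_subset_closedBall.trans (Metric.closedBall_subset_closedBall (by linarith)))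
  have key : ∀ {f : E → E}, ContDiff ℝ 1 f →
      ∫ x in K, φ (f x) * (fderiv ℝ f x).det ∂μ =
        (∫ x in Metric.closedBall (0 : E) (r + 1), φ x ∂μ) -
        ∫ x in Metric.closedBall (0 : E) (r + 1) \ K, φ (x + χ x • (f x - x)) *
          (fderiv ℝ (fun y => y + χ y • (f y - y)) x).det ∂μ := by
    intro f hf
    have hv : ContDiff ℝ 1 fun y => χ y • (f y - y) := hχ.smul (hf.sub contDiff_id)
    have hF : ContDiff ℝ 1 fun y => y + χ y • (f y - y) := contDiff_id.add hv
    have h1 := nl_id μ hv hK' (fun x hx => by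
      rw [χ.zero_of_le_dist (by
        rw [Metric.mem_closedBall, not_le] at hx
        exact hx.le), zero_smul]) hφ
    have hI : IntegrableOn (fun x => φ (x + χ x • (f x - x)) *
        (fderiv ℝ (fun y => y + χ y • (f y - y)) x).det) (Metric.closedBall (0 : E) (r + 1)) μ :=
      ((hφ.comp hF.continuous).mul (ContinuousLinearMap.continuous_det.comp
        (hF.continuous_fderiv one_ne_zero))).continuousOn.integrableOn_compact hK'
    rw [setIntegral_sdiff hK.measurableSet hI hsub, h1, sub_sub_cancel]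
    refine setIntegral_congr_fun hK.measurableSet fun x hx => ?_
    have h2 : (fun y => y + χ y • (f y - y)) =ᶠ[nhds x] f := by
      filter_upwards [Metric.isOpen_ball.mem_nhds (hKr hx)] with y hy
      rw [χ.one_of_mem_closedBall (Metric.ball_subset_closedBall hy), one_smul, add_sub_cancel]
    rw [h2.fderiv_eq, h2.eq_of_nhds]
  rw [key hf, key hg]
  congr 1
  refine setIntegral_congr_fun (hK'.measurableSet.diff hK.measurableSet) fun x hx => ?_
  have h2 : (fun y => y + χ y • (f y - y)) =ᶠ[nhds x] fun y => y + χ y • (g y - y) := by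
    filter_upwards [hK.isClosed.isOpen_compl.mem_nhds hx.2] with y hy
    rw [hfg y hy]
  rw [h2.fderiv_eq, hfg x hx.2]

end Crest.Agent.R174
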