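import Crest.Agent.R174.NL

/-!
# Row 174, degree theory 2: continuation of zeros of one sign

Recipe for `posdeg` (`borelize E`, `μ = Measure.addHaar`).  Suppose there is no zero at `t = 1`.  `Z` is the compact
zero set.  Choose an open `V`, `Z ⊆ V`, `closure V` compact `⊆ O` (`exists_compact_between` / `exists_open_between_and_isCompact_closure`).
Choose `δ > 0` such that (i) `‖H p‖ > 2δ` on the compact set `(closure V \ V) ∩ {0 ≤ t ≤ 1}`, (ii) `‖H (1,x)‖ > 2δ` on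
`closure V`, (iii) `0 < ε * det` at all `x` with `(0,x) ∈ closure V`, `‖H (0,x)‖ ≤ 2δ` (compactness: the set where
`ε * det ≤ 0` is compact and has no zero).  `φ y = max 0 (δ - ‖y‖)`.
`I t = ∫ x in {x | (t,x) ∈ V}, φ (H (t,x)) * det (fderiv (H (t,·)) x)`.  `I 1 = 0`, `0 < ε * I 0` (integrand
continuous, `≥ 0`, positive at a zero: `setIntegral_pos_iff_support_of_nonneg_ae` / `IsOpen.measure_pos`).
`I` is locally constant on `Icc 0 1` (then `IsPreconnected.constant` / `IsLocallyConstant` on the subtype): fix `t₀`,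
`A = {p ∈ closure V | 0 ≤ p.1 ≤ 1, ‖H p‖ ≤ 2δ}` is compact and `⊆ V`.  Take a `C¹` function `ρ : E → [0,1]` with compact
support `K ⊆ V_{t₀}` and `ρ = 1` on an open `U ⊇ A_{t₀}` (`exists_contDiff_tsupport_subset`-type lemmas, or
`exists_contMDiff_one_nhds_of_subset_interior`, `exists_smooth_zero_one_of_isClosed`).  For `t ∈ [0,1]` near `t₀`:
(a) `K ⊆ V_t` (tube lemma), (b) `A_t ⊆ U`, (c) `‖H (t,x) - H (t₀,x)‖ < δ` on `K`.  Apply `nl` to `f = H (t₀,·)` and
`g = f + ρ • (H (t,·) - f)`: on `U`, `g = H (t,·)` locally; on `K \ U` both `φ (g x)` and `φ (H (t,x))` vanish;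
on `V_t \ K` and `V_{t₀} \ K` the integrands vanish.

`det_pos_of_complex`: `LinearMap.det_restrictScalars`, `Algebra.norm_complex_apply`.
`det_pos_of_sq`: `det A = (det B)^2`, nonzero by injectivity (`LinearMap.isUnit_iff_ker_eq_bot`, `LinearMap.isUnit_det`).
-/

set_option autoImplicit false

open MeasureTheory Set Filter Topology

namespace Crest.Agent.R174

/-- A `C¹` cut-off: `1` on an open neighbourhood `U` of the compact set `A`, zero off a compact set `K ⊆ V`. -/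
theorem PosDeg_cutoff {E : Type*} [NormedAddCommGroup E] [NormedSpace ℝ E] [FiniteDimensional ℝ E]
    {A V : Set E} (hA : IsCompact A) (hV : IsOpen V) (hAV : A ⊆ V) :
    ∃ (K U : Set E) (ρ : E → ℝ), IsCompact K ∧ K ⊆ V ∧ IsOpen U ∧ A ⊆ U ∧ U ⊆ K ∧
      ContDiff ℝ 1 ρ ∧ (∀ x ∈ U, ρ x = 1) ∧ (∀ x, x ∉ K → ρ x = 0) ∧ ∀ x, ρ x ∈ Icc (0 : ℝ) 1 := by
  obtain ⟨K, hK, hAK, hKV⟩ := exists_compact_between hA hV hAV
  obtain ⟨ρ, h1, h0, h01⟩ := exists_contMDiffMap_one_nhds_of_subset_interior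
    (modelWithCornersSelf ℝ E) (n := 1) hA.isClosed hAK
  obtain ⟨U, hU, hAU, hU1⟩ := eventually_nhdsSet_iff_exists.1 h1
  refine ⟨K, U ∩ interior K, ρ, hK, hKV, hU.inter isOpen_interior, subset_inter hAU hAK,
    fun x hx => interior_subset hx.2, ?_, fun x hx => hU1 x hx.1, h0, h01⟩
  exact ρ.contMDiff.contDiff

theorem PosDeg_slice_compact {E : Type*} [TopologicalSpace E] {A : Set (ℝ × E)} (hA : IsCompact A)
    (hA' : IsClosed A) (t : ℝ) : IsCompact {x | (t, x) ∈ A} := by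
  refine (hA.image continuous_snd).of_isClosed_subset
    (hA'.preimage (Continuous.prodMk_right t)) ?_
  intro x hx
  exact ⟨(t, x), hx, rfl⟩

/-- Local constancy of the degree integral. -/
theorem PosDeg_loc {E : Type*} [NormedAddCommGroup E] [NormedSpace ℝ E] [FiniteDimensional ℝ E]
    [MeasurableSpace E] [BorelSpace E] (μ : Measure E) [μ.IsAddHaarMeasure]
    {L : Set (ℝ × E)} (hL : IsCompact L) {H : ℝ × E → E} (hH : Continuous H)
    (hd : ∀ t, ContDiff ℝ 1 fun x => H (t, x)) {δ : ℝ} (hδ : 0 < δ)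
    (hb : ∀ p ∈ L, p ∉ interior L → p.1 ∈ Icc (0 : ℝ) 1 → 2 * δ < ‖H p‖)
    {φ : E → ℝ} (hφ : Continuous φ) (hφ0 : ∀ y, δ ≤ ‖y‖ → φ y = 0)
    {t₀ : ℝ} (ht₀ : t₀ ∈ Icc (0 : ℝ) 1) :
    ∀ᶠ t in 𝓝 t₀, t ∈ Icc (0 : ℝ) 1 →
      ∫ x in {x | (t, x) ∈ interior L}, φ (H (t, x)) * (fderiv ℝ (fun y => H (t, y)) x).det ∂μ
        = ∫ x in {x | (t₀, x) ∈ interior L},
            φ (H (t₀, x)) * (fderiv ℝ (fun y => H (t₀, y)) x).det ∂μ := by
  set A : Set (ℝ × E) := L ∩ {p | p.1 ∈ Icc (0 : ℝ) 1 ∧ ‖H p‖ ≤ 2 * δ} with hAdef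
  have hA : IsCompact A := by
    refine hL.inter_right ?_
    exact (isClosed_Icc.preimage continuous_fst).inter (isClosed_le hH.norm continuous_const)
  have hAV : A ⊆ interior L := by
    rintro p ⟨hp, hp1, hp2⟩
    by_contra h
    exact absurd (hb p hp h hp1) (not_lt.2 hp2)
  have hVo : ∀ t : ℝ, IsOpen {x : E | (t, x) ∈ interior L} := fun t =>
    isOpen_interior.preimage (Continuous.prodMk_right t)
  obtain ⟨K, U, ρ, hK, hKV, hU, hAU, hUK, hρ, hρ1, hρ0, hρI⟩ :=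
    PosDeg_cutoff (PosDeg_slice_compact hA hA.isClosed t₀) (hVo t₀) (fun x hx => hAV hx)
  -- reduction of the integral to `K`
  have hred : ∀ t ∈ Icc (0 : ℝ) 1, (∀ x ∈ K, (t, x) ∈ interior L) → (∀ x, (t, x) ∈ A → x ∈ U) →
      ∫ x in {x | (t, x) ∈ interior L}, φ (H (t, x)) * (fderiv ℝ (fun y => H (t, y)) x).det ∂μ
        = ∫ x in K, φ (H (t, x)) * (fderiv ℝ (fun y => H (t, y)) x).det ∂μ := by
    intro t ht h1 h2
    refine setIntegral_eq_of_subset_of_forall_sdiff_eq_zero (hVo t).measurableSet h1 ?_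
    rintro x ⟨hx, hxK⟩
    have : ¬ ‖H (t, x)‖ ≤ 2 * δ := fun h => hxK (hUK (h2 x ⟨interior_subset hx, ht, h⟩))
    rw [hφ0 _ (by linarith), zero_mul]
  have ha : ∀ᶠ t in 𝓝 t₀, ∀ x ∈ K, (t, x) ∈ interior L := by
    refine hK.eventually_forall_of_forall_eventually (P := fun t x => (t, x) ∈ interior L) ?_
    intro y hy
    exact isOpen_interior.mem_nhds (hKV hy)
  have hb' : ∀ᶠ t in 𝓝 t₀, ∀ x, (t, x) ∈ A → x ∈ U := by
    have hc : IsCompact (Prod.fst '' (A ∩ {p : ℝ × E | p.2 ∈ U}ᶜ)) :=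
      (hA.inter_right (hU.preimage continuous_snd).isClosed_compl).image continuous_fst
    have hn : t₀ ∈ (Prod.fst '' (A ∩ {p : ℝ × E | p.2 ∈ U}ᶜ))ᶜ := by
      rintro ⟨⟨t, x⟩, ⟨hp, hp'⟩, rfl⟩
      exact hp' (hAU hp)
    filter_upwards [hc.isClosed.isOpen_compl.mem_nhds hn] with t ht x hx
    by_contra h
    exact ht ⟨(t, x), ⟨hx, h⟩, rfl⟩
  have hc : ∀ᶠ t in 𝓝 t₀, ∀ x ∈ K, ‖H (t, x) - H (t₀, x)‖ < δ := by
    refine hK.eventually_forall_of_forall_eventually
      (P := fun t x => ‖H (t, x) - H (t₀, x)‖ < δ) ?_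
    intro y hy
    have hcont : Continuous fun z : ℝ × E => ‖H (z.1, z.2) - H (t₀, z.2)‖ := by fun_prop
    exact (isOpen_lt hcont continuous_const).mem_nhds (by simpa using hδ)
  filter_upwards [ha, hb', hc] with t h1 h2 h3 ht
  rw [hred t ht h1 h2, hred t₀ ht₀ (fun x hx => hKV hx) (fun x hx => hAU hx)]
  have hg : ContDiff ℝ 1 fun x => H (t₀, x) + ρ x • (H (t, x) - H (t₀, x)) :=
    (hd t₀).add (hρ.smul ((hd t).sub (hd t₀)))
  rw [nl μ (hd t₀) hg hK (fun x hx => by simp [hρ0 x hx]) hφ]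
  refine setIntegral_congr_fun hK.measurableSet fun x hx => ?_
  by_cases hxU : x ∈ U
  · have he : (fun x => H (t₀, x) + ρ x • (H (t, x) - H (t₀, x))) =ᶠ[𝓝 x] fun y => H (t, y) := by
      filter_upwards [hU.mem_nhds hxU] with y hy
      simp [hρ1 y hy]
    rw [he.fderiv_eq, hρ1 x hxU]
    simp
  · have h4 : 2 * δ < ‖H (t₀, x)‖ := by
      by_contra h
      exact hxU (hAU ⟨interior_subset (hKV hx), ht₀, not_lt.1 h⟩)
    have h5 := h3 x hx
    have h6 : δ ≤ ‖H (t, x)‖ := by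
      have := norm_sub_norm_le (H (t₀, x)) (H (t, x))
      rw [norm_sub_rev] at h5
      linarith
    have h7 : δ ≤ ‖H (t₀, x) + ρ x • (H (t, x) - H (t₀, x))‖ := by
      have e1 : ‖ρ x • (H (t, x) - H (t₀, x))‖ ≤ ‖H (t, x) - H (t₀, x)‖ := by
        rw [norm_smul, Real.norm_eq_abs, abs_of_nonneg (hρI x).1]
        exact mul_le_of_le_one_left (norm_nonneg _) (hρI x).2
      have e2 := norm_sub_le (H (t₀, x) + ρ x • (H (t, x) - H (t₀, x)))
        (ρ x • (H (t, x) - H (t₀, x)))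
      rw [add_sub_cancel_right] at e2
      linarith
    rw [hφ0 _ h6, hφ0 _ h7, zero_mul, zero_mul]

theorem posdeg {E : Type*} [NormedAddCommGroup E] [NormedSpace ℝ E] [FiniteDimensional ℝ E]
    {O : Set (ℝ × E)} (hO : IsOpen O) {H : ℝ × E → E} (hH : Continuous H)
    (hd : ∀ t, ContDiff ℝ 1 fun x => H (t, x))
    (hZ : IsCompact {p | p ∈ O ∧ p.1 ∈ Icc (0 : ℝ) 1 ∧ H p = 0}) (ε : ℝ)
    (hex : ∃ x, (0, x) ∈ O ∧ H (0, x) = 0)
    (hpos : ∀ x, (0, x) ∈ O → H (0, x) = 0 → 0 < ε * (fderiv ℝ (fun y => H (0, y)) x).det) :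
    ∃ x, (1, x) ∈ O ∧ H (1, x) = 0 := by
  by_contra hno
  push Not at hno
  borelize E
  set μ : Measure E := Measure.addHaar
  obtain ⟨L, hL, hZL, hLO⟩ := exists_compact_between hZ hO (fun p hp => hp.1)
  have hdet : ∀ t, Continuous fun x => (fderiv ℝ (fun y => H (t, y)) x).det := fun t =>
    ContinuousLinearMap.continuous_det.comp ((hd t).continuous_fderiv one_ne_zero)
  set S : Set (ℝ × E) := L ∩ (((interior L)ᶜ ∩ {p | p.1 ∈ Icc (0 : ℝ) 1}) ∪ {p | p.1 = 1} ∪
    ({p | p.1 = 0} ∩ {p | ε * (fderiv ℝ (fun y => H (0, y)) p.2).det ≤ 0})) with hS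
  have hSc : IsCompact S := by
    refine hL.inter_right ?_
    refine ((isOpen_interior.isClosed_compl.inter (isClosed_Icc.preimage continuous_fst)).union
      (isClosed_eq continuous_fst continuous_const)).union
      ((isClosed_eq continuous_fst continuous_const).inter ?_)
    exact isClosed_le (continuous_const.mul ((hdet 0).comp continuous_snd)) continuous_const
  have hSne : ∀ p ∈ S, 0 < ‖H p‖ := by
    rintro ⟨t, x⟩ ⟨hp, (⟨h1, h2⟩ | h1) | ⟨h1, h2⟩⟩
    · rw [norm_pos_iff]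
      exact fun h => h1 (hZL ⟨hLO hp, h2, h⟩)
    · obtain rfl : t = 1 := h1
      exact norm_pos_iff.2 (hno x (hLO hp))
    · obtain rfl : t = 0 := h1
      rw [norm_pos_iff]
      exact fun h => absurd (hpos x (hLO hp) h) (not_lt.2 h2)
  obtain ⟨a, ha, haS⟩ := hSc.exists_forall_le' hH.norm.continuousOn hSne
  set δ : ℝ := a / 3 with hδdef
  have hδ : 0 < δ := by positivity
  have hδS : ∀ p ∈ S, 2 * δ < ‖H p‖ := fun p hp => by
    have := haS p hp
    linarith
  set φ : E → ℝ := fun y => max 0 (δ - ‖y‖) with hφdef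
  have hφ : Continuous φ := by fun_prop
  have hφ0 : ∀ y, δ ≤ ‖y‖ → φ y = 0 := fun y hy => max_eq_left (by linarith)
  set I : ℝ → ℝ := fun t =>
    ∫ x in {x | (t, x) ∈ interior L}, φ (H (t, x)) * (fderiv ℝ (fun y => H (t, y)) x).det ∂μ
    with hI
  have hVo : ∀ t : ℝ, IsOpen {x : E | (t, x) ∈ interior L} := fun t =>
    isOpen_interior.preimage (Continuous.prodMk_right t)
  have hlc : IsLocallyConstant fun t : Icc (0 : ℝ) 1 => I t := by
    rw [IsLocallyConstant.iff_eventually_eq]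
    intro t₀
    have := PosDeg_loc μ hL hH hd hδ
      (fun p hp h1 h2 => hδS p ⟨hp, Or.inl (Or.inl ⟨h1, h2⟩)⟩) hφ hφ0 t₀.2
    filter_upwards [continuous_subtype_val.continuousAt.eventually this] with t ht
    exact ht t.2
  have : PreconnectedSpace (Icc (0 : ℝ) 1) := Subtype.preconnectedSpace isPreconnected_Icc
  have h01 : I 0 = I 1 :=
    hlc.apply_eq_of_preconnectedSpace ⟨0, left_mem_Icc.2 zero_le_one⟩
      ⟨1, right_mem_Icc.2 zero_le_one⟩
  have h1 : I 1 = 0 := by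
    refine setIntegral_eq_zero_of_forall_eq_zero fun x hx => ?_
    have := hδS (1, x) ⟨interior_subset hx, Or.inl (Or.inr rfl)⟩
    rw [hφ0 _ (by linarith), zero_mul]
  have hcont : Continuous fun x => ε * (φ (H (0, x)) * (fderiv ℝ (fun y => H (0, y)) x).det) :=
    continuous_const.mul ((hφ.comp (hH.comp (Continuous.prodMk_right 0))).mul (hdet 0))
  have h0 : 0 < ε * I 0 := by
    rw [hI, ← integral_const_mul, setIntegral_pos_iff_support_of_nonneg_ae]
    · obtain ⟨x, hxO, hx0⟩ := hex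
      refine (hcont.isOpen_support.inter (hVo 0)).measure_pos μ ⟨x, ?_, ?_⟩
      · have e : φ (H (0, x)) = δ := by simp [hφdef, hx0, hδ.le]
        rw [Function.mem_support, e, mul_left_comm]
        exact (mul_pos hδ (hpos x hxO hx0)).ne'
      · exact hZL ⟨hxO, left_mem_Icc.2 zero_le_one, hx0⟩
    · refine (ae_restrict_iff' (hVo 0).measurableSet).2 (Eventually.of_forall fun x hx => ?_)
      simp only [Pi.zero_apply]
      by_cases h : ε * (fderiv ℝ (fun y => H (0, y)) x).det ≤ 0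
      · have := hδS (0, x) ⟨interior_subset hx, Or.inr ⟨rfl, h⟩⟩
        rw [hφ0 _ (by linarith), zero_mul, mul_zero]
      · rw [mul_left_comm]
        exact mul_nonneg (le_max_left _ _) (not_le.1 h).le
    · exact (hcont.continuousOn.integrableOn_compact
        (PosDeg_slice_compact hL hL.isClosed 0)).mono_set
          fun x hx => (interior_subset (s := L) hx :)
  rw [h01, h1, mul_zero] at h0
  exact lt_irrefl _ h0

theorem det_pos_of_complex {E : Type*} [AddCommGroup E] [Module ℝ E] [Module ℂ E]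
    [IsScalarTower ℝ ℂ E] [FiniteDimensional ℂ E] (T : E →ₗ[ℂ] E) (hT : Function.Injective T) :
    0 < LinearMap.det (T.restrictScalars ℝ) := by
  rw [LinearMap.det_restrictScalars, Algebra.norm_complex_apply, Complex.normSq_pos]
  exact (LinearMap.isUnit_det T
    ((LinearMap.isUnit_iff_ker_eq_bot T).2 (LinearMap.ker_eq_bot.2 hT))).ne_zero

theorem det_ne_zero_of_injective {E : Type*} [AddCommGroup E] [Module ℝ E] [FiniteDimensional ℝ E]
    (A : E →ₗ[ℝ] E) (hA : Function.Injective A) : LinearMap.det A ≠ 0 := by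
  exact (LinearMap.isUnit_det A
    ((LinearMap.isUnit_iff_ker_eq_bot A).2 (LinearMap.ker_eq_bot.2 hA))).ne_zero

theorem det_pos_of_sq {E : Type*} [AddCommGroup E] [Module ℝ E] [FiniteDimensional ℝ E]
    (B : E →ₗ[ℝ] E) (hB : Function.Injective B) : 0 < LinearMap.det (B ∘ₗ B) := by
  rw [LinearMap.det_comp]
  exact mul_self_pos.2 (det_ne_zero_of_injective B hB)

end Crest.Agent.R174
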