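import Crest.Agent.R174.Red0

/-!
# Row 174: from a relation to a bouquet of lollipops

* `exists_word`: `Monoid.Coprod.induction_on`/closure induction gives a list of letters; pad with `inl 1`.
* `exists_lolli`: stems `hs D : Fin s → Let`, relators `ws i : Fin L → Let` (`s = bound + 1`, `L = 2 bound + 1`);
  `y i true j = ws i (j - s)`, `y i false j = inv (ws i (s + L - 1 - j))`; `x (D, j) = hs D j` for `j < s`, `inv (hs D (rev j))` for `s + L ≤ j`.
  `prod`: `List.ofFn_mul`, `List.prod_flatten`, `List.ofFn_add`, `ev (inv a) = (ev a)⁻¹`, `List.prod_inv_reverse`.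
  `count`: `toAdd (ex (∏ ev (ws i a))) l = #{a | ws i a = inr (l,true)} - #{a | ws i a = inr (l,false)}` (`ex_word`), then reindex.
-/

set_option autoImplicit false
set_option linter.unusedSectionVars false
set_option linter.unusedVariables false

open Matrix Finset
open scoped ComplexConjugate

namespace Crest.Agent.R174

noncomputable section

variable {G : Type*} [Group G] {m : ℕ}

theorem Let.ev_inv (a : Let G m) : a.inv.ev = a.ev⁻¹ := by
  rcases a with a | ⟨l, _ | _⟩ <;> simp [Let.inv, Let.ev]

theorem Let.inv_inv (a : Let G m) : a.inv.inv = a := by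
  rcases a with a | ⟨l, _ | _⟩ <;> simp [Let.inv]

/-- ordered product over `range n` -/
def redP {Γ : Type*} [Group Γ] (f : ℕ → Γ) (n : ℕ) : Γ := ((List.range n).map f).prod

section redP

variable {Γ : Type*} [Group Γ]

theorem redP_zero (f : ℕ → Γ) : redP f 0 = 1 := rfl

theorem redP_succ (f : ℕ → Γ) (n : ℕ) : redP f (n + 1) = redP f n * f n := by
  simp [redP, List.range_succ]

theorem redP_add (f : ℕ → Γ) (a b : ℕ) :
    redP f (a + b) = redP f a * redP (fun j => f (a + j)) b := by
  induction b with
  | zero => simp [redP_zero]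
  | succ b ih => rw [← add_assoc, redP_succ, redP_succ, ih, mul_assoc]

theorem redP_congr {f g : ℕ → Γ} {n : ℕ} (h : ∀ j < n, f j = g j) : redP f n = redP g n := by
  induction n with
  | zero => rfl
  | succ n ih =>
    rw [redP_succ, redP_succ, ih fun j hj => h j (Nat.lt_succ_of_lt hj), h n (Nat.lt_succ_self n)]

theorem redP_rev (f : ℕ → Γ) (n : ℕ) :
    redP (fun j => (f (n - 1 - j))⁻¹) n = (redP f n)⁻¹ := by
  induction n with
  | zero => simp [redP_zero]
  | succ n ih =>
    rw [redP_succ f n, _root_.mul_inv_rev, ← ih, add_comm n 1, redP_add, redP_succ, redP_zero, one_mul]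
    congr 1
    · congr 2; omega
    · refine redP_congr fun j hj => ?_
      congr 2; omega

theorem redP_ofFn (f : ℕ → Γ) (n : ℕ) : (List.ofFn fun j : Fin n => f j).prod = redP f n := by
  induction n with
  | zero => simp [redP_zero]
  | succ n ih =>
    rw [List.ofFn_succ_last, List.prod_append, redP_succ, ← ih]
    simp

theorem red_ofFn_prod {K T : ℕ} (F : Fin K × Fin T → Γ) :
    (List.ofFn fun p : Fin (K * T) => F (finProdFinEquiv.symm p)).prod =
      (List.ofFn fun D => (List.ofFn fun j => F (D, j)).prod).prod := by
  rw [List.ofFn_mul, List.prod_flatten, List.map_ofFn]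
  congr 2
  funext D
  simp only [Function.comp]
  congr 2
  funext j
  congr 1
  rw [Equiv.symm_apply_eq]
  refine Fin.ext ?_
  simp only [finProdFinEquiv_apply_val]
  ring

end redP

theorem red_list (z : FP G m) : ∃ l : List (Let G m), (l.map Let.ev).prod = z := by
  induction z using Monoid.Coprod.induction_on with
  | inl a => exact ⟨[.inl a], by simp [Let.ev]⟩
  | inr u =>
    induction u using FreeGroup.induction_on with
    | C1 => exact ⟨[], by simp⟩
    | of x => exact ⟨[.inr (x, true)], by simp [Let.ev]⟩
    | inv_of x _ => exact ⟨[.inr (x, false)], by simp [Let.ev]⟩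
    | mul x y hx hy =>
      obtain ⟨l, hl⟩ := hx
      obtain ⟨l', hl'⟩ := hy
      exact ⟨l ++ l', by simp [hl, hl']⟩
  | mul x y hx hy =>
    obtain ⟨l, hl⟩ := hx
    obtain ⟨l', hl'⟩ := hy
    exact ⟨l ++ l', by simp [hl, hl']⟩

theorem red_word (z : FP G m) : ∃ (N : ℕ) (a : ℕ → Let G m), ∀ s, N ≤ s →
    redP (fun j => (a j).ev) s = z := by
  obtain ⟨l, rfl⟩ := red_list z
  refine ⟨l.length, fun j => l.getD j (.inl 1), fun s hs => ?_⟩
  induction s, hs using Nat.le_induction with
  | base =>
    rw [← redP_ofFn (fun j => (l.getD j (.inl 1)).ev)]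
    conv_rhs => rw [← List.ofFn_get l, List.map_ofFn]
    congr 2
    funext j
    simp
  | succ s hs ih =>
    rw [redP_succ, ih]
    simp only
    rw [List.getD_eq_default _ _ hs]
    simp [Let.ev]

theorem exists_word (z : FP G m) : ∃ N : ℕ, ∀ s, N ≤ s → ∃ a : Fin s → Let G m,
    (List.ofFn fun j => (a j).ev).prod = z := by
  obtain ⟨N, a, h⟩ := red_word z
  exact ⟨N, fun s hs => ⟨fun j => a j, (redP_ofFn (fun j => (a j).ev) s).trans (h s hs)⟩⟩

open Classical in
theorem red_ex_letter (a : Let G m) (l : Fin m) :
    Multiplicative.toAdd (ex G m a.ev) l =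
      (if a = .inr (l, true) then (1 : ℤ) else 0) - (if a = .inr (l, false) then 1 else 0) := by
  rcases a with a | ⟨i, _ | _⟩
  · simp [Let.ev, ex]
  · by_cases h : i = l
    · subst h; simp [Let.ev, ex]
    · simp [Let.ev, ex, h, Ne.symm h]
  · by_cases h : i = l
    · subst h; simp [Let.ev, ex]
    · simp [Let.ev, ex, h, Ne.symm h]

open Classical in
theorem ex_word {s : ℕ} (a : Fin s → Let G m) (l : Fin m) :
    Multiplicative.toAdd (ex G m (List.ofFn fun j => (a j).ev).prod) l =
      ((univ.filter fun j => a j = .inr (l, true)).card : ℤ) -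
        (univ.filter fun j => a j = .inr (l, false)).card := by
  rw [map_list_prod, List.map_ofFn, List.prod_ofFn, toAdd_prod, Finset.sum_apply]
  simp only [Function.comp, red_ex_letter, Finset.sum_sub_distrib, Finset.sum_boole]

/-- the relator letters -/
def redY (s L : ℕ) (W : Fin m → ℕ → Let G m) (i : Fin m) (b : Bool) (j : ℕ) : Let G m :=
  if b then W i (j - s) else (W i (s + L - 1 - j)).inv

/-- the letters of a lollipop -/
def redX (s L : ℕ) (H Y : ℕ → Let G m) (j : ℕ) : Let G m :=
  if j < s then H j else if j < s + L then Y j else (H (2 * s + L - 1 - j)).inv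

theorem redX_prod (s L : ℕ) (H Y : ℕ → Let G m) :
    redP (fun j => (redX s L H Y j).ev) (2 * s + L) =
      redP (fun j => (H j).ev) s * redP (fun j => (Y (s + j)).ev) L *
        (redP (fun j => (H j).ev) s)⁻¹ := by
  rw [show 2 * s + L = s + L + s by ring, redP_add, redP_add, ← redP_rev]
  congr 1
  · congr 1
    · exact redP_congr fun j hj => by simp only [redX, if_pos hj]
    · refine redP_congr fun j hj => ?_
      simp only [redX]
      rw [if_neg (by omega), if_pos (by omega)]
  · refine redP_congr fun j hj => ?_
    simp only [redX]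
    rw [if_neg (by omega), if_neg (by omega), Let.ev_inv]
    congr 3
    omega

theorem redY_prod (s L : ℕ) (W : Fin m → ℕ → Let G m) (i : Fin m) (b : Bool) :
    redP (fun j => (redY s L W i b (s + j)).ev) L =
      if b then redP (fun j => (W i j).ev) L else (redP (fun j => (W i j).ev) L)⁻¹ := by
  cases b
  · rw [if_neg (by simp), ← redP_rev]
    refine redP_congr fun j hj => ?_
    simp only [redY]
    rw [if_neg (by simp), Let.ev_inv]
    congr 3
    omega
  · rw [if_pos rfl]
    refine redP_congr fun j hj => ?_
    simp [redY]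

open Classical in
theorem redY_card_true (s L : ℕ) (W : Fin m → ℕ → Let G m) (i l : Fin m) :
    (univ.filter fun j : Fin (2 * s + L) =>
      (s ≤ j.val ∧ j.val < s + L) ∧ redY s L W i true j = .inr (l, true)).card =
    (univ.filter fun a : Fin L => W i a = .inr (l, true)).card := by
  symm
  refine Finset.card_bij (fun a _ => ⟨s + a.val, by omega⟩) ?_ ?_ ?_
  · intro a ha
    simp only [Finset.mem_filter, Finset.mem_univ, true_and] at ha ⊢
    refine ⟨⟨by omega, by omega⟩, ?_⟩
    simpa [redY] using ha
  · intro a _ a' _ h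
    have := congrArg Fin.val h
    simp only at this
    exact Fin.ext (by omega)
  · intro j hj
    simp only [Finset.mem_filter, Finset.mem_univ, true_and] at hj
    obtain ⟨⟨h1, h2⟩, h3⟩ := hj
    refine ⟨⟨j.val - s, by omega⟩, ?_, Fin.ext ?_⟩
    · simp only [Finset.mem_filter, Finset.mem_univ, true_and]
      simpa [redY] using h3
    · simp only; omega

theorem red_inv_eq {a : Let G m} {l : Fin m} : a.inv = .inr (l, true) ↔ a = .inr (l, false) := by
  constructor
  · intro h
    rw [← Let.inv_inv a, h]; rfl
  · rintro rfl; rfl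

open Classical in
theorem redY_card_false (s L : ℕ) (W : Fin m → ℕ → Let G m) (i l : Fin m) :
    (univ.filter fun j : Fin (2 * s + L) =>
      (s ≤ j.val ∧ j.val < s + L) ∧ redY s L W i false j = .inr (l, true)).card =
    (univ.filter fun a : Fin L => W i a = .inr (l, false)).card := by
  symm
  refine Finset.card_bij (fun a _ => ⟨s + L - 1 - a.val, by omega⟩) ?_ ?_ ?_
  · intro a ha
    simp only [Finset.mem_filter, Finset.mem_univ, true_and] at ha ⊢
    refine ⟨⟨by omega, by omega⟩, ?_⟩
    simp only [redY]
    rw [if_neg (by simp), red_inv_eq, show s + L - 1 - (s + L - 1 - a.val) = a.val by omega]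
    exact ha
  · intro a _ a' _ h
    have := congrArg Fin.val h
    simp only at this
    exact Fin.ext (by omega)
  · intro j hj
    simp only [Finset.mem_filter, Finset.mem_univ, true_and] at hj
    obtain ⟨⟨h1, h2⟩, h3⟩ := hj
    refine ⟨⟨s + L - 1 - j.val, by omega⟩, ?_, Fin.ext ?_⟩
    · simp only [Finset.mem_filter, Finset.mem_univ, true_and]
      simp only [redY] at h3
      rw [if_neg (by simp), red_inv_eq] at h3
      exact h3
    · simp only; omega

theorem exists_lolli (hm : 0 < m) {d : ℕ} (hd : 0 < d) (w : Fin m → FP G m)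
    (hw : ∀ i l, Multiplicative.toAdd (ex G m (w i)) l = if i = l then (d : ℤ) else 0) {g : G}
    (hg : Monoid.Coprod.inl g ∈ Subgroup.normalClosure (Set.range w)) : Nonempty (Lolli g) := by
  classical
  obtain ⟨K, k, hk, disc, h, hprod⟩ := exists_discs hd w hw hg
  choose NH H hH using fun D => red_word (h D)
  choose NW W hW using fun i => red_word (w i)
  set s := univ.sup NH + 1 with hs
  set L := 2 * univ.sup NW + 1 with hL
  have hH' : ∀ D, redP (fun j => (H D j).ev) s = h D := fun D =>
    hH D s ((Finset.le_sup (f := NH) (Finset.mem_univ D)).trans (Nat.le_succ _))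
  have hW' : ∀ i, redP (fun j => (W i j).ev) L = w i := fun i =>
    hW i L (by have := Finset.le_sup (f := NW) (Finset.mem_univ i); omega)
  refine ⟨{
    m := m, k := k, d := d, s := s, L := L, K := K, hm := hm, hk := hk, hd := hd
    hs := Nat.succ_pos _
    hL := ⟨_, hL⟩
    disc := disc
    x := fun p => redX s L (H p.1) (redY s L W (disc p.1).1 (disc p.1).2.2) p.2.val
    y := fun i b j => redY s L W i b j.val
    stem := ?_, rel := ?_, yinv := ?_, count := ?_, prod := ?_ }⟩
  · intro D j hj
    have hj2 := j.isLt
    simp only [redX, Fin.val_rev]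
    by_cases h1 : j.val < s
    · rw [if_neg (by omega), if_neg (by omega), if_pos h1]
      congr 2
      omega
    · rw [if_pos (by omega), if_neg h1, if_neg (by omega), Let.inv_inv]
      congr 1
      omega
  · intro D j hj
    simp only [redX]
    rw [if_neg (by omega), if_pos hj.2]
  · intro i b j hj
    have hj2 := j.isLt
    cases b
    · simp only [redY, Fin.val_rev, Bool.not_false, if_true]
      rw [if_neg (by simp), Let.inv_inv]
      congr 1
      omega
    · simp only [redY, Fin.val_rev, Bool.not_true, if_true]
      rw [if_neg (by simp)]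
      congr 2
      omega
  · intro i l
    have h1 := ex_word (fun a : Fin L => W i a) l
    rw [redP_ofFn (fun j => (W i j).ev) L, hW', hw] at h1
    have h2 := redY_card_true s L W i l
    have h3 := redY_card_false s L W i l
    have key : (univ.filter fun a : Fin L => W i a = .inr (l, true)).card =
        (univ.filter fun a : Fin L => W i a = .inr (l, false)).card + if i = l then d else 0 := by
      split_ifs at h1 ⊢ <;> omega
    convert h2.trans (key.trans (congrArg (· + if i = l then d else 0) h3.symm))
  · rw [red_ofFn_prod (fun p : Fin K × Fin (2 * s + L) =>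
      (redX s L (H p.1) (redY s L W (disc p.1).1 (disc p.1).2.2) p.2.val).ev), ← hprod]
    congr 2
    funext D
    rw [redP_ofFn (fun j => (redX s L (H D) (redY s L W (disc D).1 (disc D).2.2) j).ev),
      redX_prod, redY_prod, hH', hW']

end

end Crest.Agent.R174
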