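import Crest.Agent.R174.TDefs

/-!
# Row 174: products of conjugates, balanced discs

* `exists_conj_list`: `Subgroup.closure_induction` (`normalClosure = closure (conjugatesOfSet _)`); the inverse of a list is the reversed
  list with flipped signs.
* `exists_discs`: apply `ex`: for every `i`, `d * (#(i,true) - #(i,false)) = 0`.  Append dipoles `(1,i,true), (1,i,false)` (`k - #(i,true)` of them,
  `k = length + 1`), which does not change the product.  Now each fibre of `D ↦ (type, sign)` on `Fin K` (`K` = new length, `List.get`) has `k`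
  elements: `Equiv.ofFiberEquiv` / `Equiv.sigmaFiberEquiv` / `Fintype.equivOfCardEq`.
-/

set_option autoImplicit false
set_option linter.unusedSectionVars false
set_option linter.unusedVariables false

open Matrix Finset
open scoped ComplexConjugate

namespace Crest.Agent.R174

noncomputable section

variable {G : Type*} [Group G] {m : ℕ}

theorem exists_conj_list {Γ : Type*} [Group Γ] (w : Fin m → Γ) {z : Γ}
    (hz : z ∈ Subgroup.normalClosure (Set.range w)) :
    ∃ l : List (Γ × Fin m × Bool),
      (l.map fun e => e.1 * (if e.2.2 then w e.2.1 else (w e.2.1)⁻¹) * e.1⁻¹).prod = z := by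
  induction hz using Subgroup.closure_induction with
  | mem x hx =>
    obtain ⟨a, ⟨i, rfl⟩, hc⟩ := Group.mem_conjugatesOfSet_iff.1 hx
    obtain ⟨c, rfl⟩ := isConj_iff.1 hc
    exact ⟨[(c, i, true)], by simp⟩
  | one => exact ⟨[], by simp⟩
  | mul x y _ _ hx hy =>
    obtain ⟨l, rfl⟩ := hx
    obtain ⟨l', rfl⟩ := hy
    exact ⟨l ++ l', by simp⟩
  | inv x hx' hx =>
    clear hx'
    obtain ⟨l, rfl⟩ := hx
    refine ⟨(l.map fun e => (e.1, e.2.1, !e.2.2)).reverse, ?_⟩
    induction l with
    | nil => simp
    | cons e l ih =>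
      rw [List.map_cons, List.reverse_cons, List.map_append, List.prod_append, ih, List.map_cons,
        List.map_cons, List.prod_cons, List.prod_cons, _root_.mul_inv_rev]
      rcases e with ⟨c, i, _ | _⟩ <;> simp [mul_assoc]

theorem Red0_ex {d : ℕ} (w : Fin m → FP G m)
    (hw : ∀ i l, Multiplicative.toAdd (ex G m (w i)) l = if i = l then (d : ℤ) else 0)
    (l : List (FP G m × Fin m × Bool)) (i : Fin m) :
    Multiplicative.toAdd (ex G m
      (l.map fun e => e.1 * (if e.2.2 then w e.2.1 else (w e.2.1)⁻¹) * e.1⁻¹).prod) i =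
      d * (((l.map Prod.snd).count (i, true) : ℤ) - (l.map Prod.snd).count (i, false)) := by
  induction l with
  | nil => simp
  | cons e l ih =>
    rw [List.map_cons, List.prod_cons, map_mul, toAdd_mul, Pi.add_apply, ih, map_mul (ex G m),
      map_mul (ex G m), map_inv, mul_inv_cancel_comm]
    rcases e with ⟨c, j, _ | _⟩
    · by_cases h : j = i
      · subst h
        simp [hw, List.count_cons]
        ring
      · simp [hw, List.count_cons, h]
    · by_cases h : j = i
      · subst h
        simp [hw, List.count_cons]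
        ring
      · simp [hw, List.count_cons, h]

theorem Red0_dipoles {Γ : Type*} [Group Γ] (w : Fin m → Γ) (L : List (Fin m)) :
    ∃ l : List (Γ × Fin m × Bool),
      (l.map fun e => e.1 * (if e.2.2 then w e.2.1 else (w e.2.1)⁻¹) * e.1⁻¹).prod = 1 ∧
      ∀ i b, (l.map Prod.snd).count (i, b) = L.count i := by
  induction L with
  | nil => exact ⟨[], by simp, by simp⟩
  | cons j L ih =>
    obtain ⟨l, h1, h2⟩ := ih
    refine ⟨(1, j, true) :: (1, j, false) :: l, ?_, fun i b => ?_⟩
    · rw [List.map_cons, List.map_cons, List.prod_cons, List.prod_cons, h1]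
      simp
    by_cases h : j = i
    · subst h
      cases b <;> simp [List.count_cons, h2]
    · simp [List.count_cons, h2, h]

theorem Red0_card {α : Type*} [DecidableEq α] [BEq α] [LawfulBEq α] (l : List α) (a : α) :
    Fintype.card {D : Fin l.length // l.get D = a} = l.count a := by
  rw [Fintype.card_subtype]
  convert Fin.card_filter_univ_eq_vector_get_eq_count a (⟨l, rfl⟩ : List.Vector α l.length)
  all_goals rfl

theorem exists_discs {d : ℕ} (hd : 0 < d) (w : Fin m → FP G m)
    (hw : ∀ i l, Multiplicative.toAdd (ex G m (w i)) l = if i = l then (d : ℤ) else 0) {g : G}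
    (hg : Monoid.Coprod.inl g ∈ Subgroup.normalClosure (Set.range w)) :
    ∃ (K k : ℕ) (_ : 0 < k) (disc : Fin K ≃ Fin m × Fin k × Bool) (h : Fin K → FP G m),
      (List.ofFn fun D => h D * (if (disc D).2.2 then w (disc D).1 else (w (disc D).1)⁻¹) *
        (h D)⁻¹).prod = Monoid.Coprod.inl g := by
  classical
  obtain ⟨l, hl⟩ := exists_conj_list w hg
  have hbal : ∀ i, (l.map Prod.snd).count (i, true) = (l.map Prod.snd).count (i, false) := by
    intro i
    have h := Red0_ex w hw l i
    rw [hl] at h
    have h0 : ex G m (Monoid.Coprod.inl g) = 1 := by simp [ex]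
    rw [h0] at h
    have h2 : (d : ℤ) ≠ 0 := by exact_mod_cast hd.ne'
    have h3 := (mul_eq_zero.1 h.symm).resolve_left h2
    omega
  set k := l.length + 1 with hk
  let s : Multiset (Fin m) := ∑ i, Multiset.replicate (k - (l.map Prod.snd).count (i, true)) i
  have hs : ∀ i, s.toList.count i = k - (l.map Prod.snd).count (i, true) := by
    intro i
    rw [← Multiset.coe_count, Multiset.coe_toList]
    simp [s, Multiset.count_sum', Multiset.count_replicate]
  obtain ⟨l₂, h1, h2⟩ := Red0_dipoles w s.toList
  have hc : ∀ c, ((l ++ l₂).map Prod.snd).count c = k := by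
    rintro ⟨i, b⟩
    have h3 : (l.map Prod.snd).count (i, true) ≤ l.length := by
      simpa using List.count_le_length (a := (i, true)) (l := l.map Prod.snd)
    have h4 := hbal i
    rw [List.map_append, List.count_append, h2, hs]
    cases b <;> omega
  have hp : ((l ++ l₂).map fun e => e.1 * (if e.2.2 then w e.2.1 else (w e.2.1)⁻¹) * e.1⁻¹).prod =
      Monoid.Coprod.inl g := by
    rw [List.map_append, List.prod_append, hl, h1, mul_one]
  generalize l ++ l₂ = L at hc hp
  have hcard : ∀ c : Fin m × Bool, Fintype.card {D : Fin L.length // (L.get D).2 = c} =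
      Fintype.card {p : Fin m × Fin k × Bool // (p.1, p.2.2) = c} := by
    intro c
    have e1 : Fintype.card {D : Fin L.length // (L.get D).2 = c} = k := by
      rw [← hc c, ← Red0_card]
      refine Fintype.card_congr ((finCongr (by simp)).subtypeEquiv fun D => ?_)
      simp
    have e2 : Fintype.card {p : Fin m × Fin k × Bool // (p.1, p.2.2) = c} = k := by
      refine (Fintype.card_congr (β := Fin k) ⟨fun p => p.1.2.1, fun j => ⟨(c.1, j, c.2), rfl⟩, ?_,
        fun j => rfl⟩).trans (Fintype.card_fin k)
      rintro ⟨⟨i, j, b⟩, rfl⟩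
      rfl
    rw [e1, e2]
  let disc : Fin L.length ≃ Fin m × Fin k × Bool :=
    Equiv.ofFiberEquiv (f := fun D => (L.get D).2) (g := fun p => (p.1, p.2.2))
      fun c => Fintype.equivOfCardEq (hcard c)
  have hdisc : ∀ D, ((disc D).1, (disc D).2.2) = (L.get D).2 := fun D =>
    Equiv.ofFiberEquiv_map (f := fun D => (L.get D).2)
      (g := fun p : Fin m × Fin k × Bool => (p.1, p.2.2)) _ D
  refine ⟨L.length, k, Nat.succ_pos _, disc, fun D => (L.get D).1, ?_⟩
  rw [← hp]
  congr 1
  conv_rhs => rw [← List.ofFn_get L, List.map_ofFn]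
  congr 1
  funext D
  simp only [Function.comp_apply, ← hdisc D]

end

end Crest.Agent.R174
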