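import Crest.Agent.R174.DCalc

/-!
# Row 174: products of complex reflections

Recipes.  Write `p = (w, h + i y)`; `sph p = 0 ↔ |w|² = h (1 - h) ∧ y = 0`; then `0 ≤ h ≤ 1`.
* `Qf_minor`: `Q s s' Q t t' - Q s t' Q t s' = (h (1-h) - |w|²) (s - t) (s' - t')`.
* `h * Q s s = |h s + conj w|²` on the sphere; if `h = 0` then `w = 0`, `Q s s = 1`.  `Q s s = 0` forces
  `conj w = - h s`, `h = 1/(1+s²)`.
* `Pm_trace_pos`: there are `j` spheres `(j,b)`, `b < j`, and `j + 1` nodes `s ≤ j`; pigeonhole gives `s ≤ j` with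
  `p b ≠ node s` for all `b`, so `P s s > 0`; the other diagonal entries are `≥ 0`.
* `rf_unitary`: `(1 + conj c P)(1 + c P) = 1 + (c + conj c + |c|² τ) P`.
* `RR_fix`: for each `j` choose `s j` with `P_j (s j) (s j) ≠ 0`; by the minor identity `P_j x = 0` iff the row
  `s j` of `P_j` kills `x`.  The linear map `x ↦ (row_j · x)_j : ℂ^(k+n) → (CC k n → ℂ)` has a kernel of dimension
  `≥ k` (`card (CC k n) = n`, rank-nullity), contained in the fixed space of every `Rp z j`.
* `isCompact_con`: closed; `‖p q‖ ≤ 1`; `|c|² τ = -2 re c ≤ 2 |c|` and `τ` is bounded below on the compact set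
  `{p | ∀ q, sph (p q) = 0}`.
-/

set_option autoImplicit false
set_option linter.unusedSectionVars false
set_option linter.unusedVariables false

open Matrix Finset
open scoped ComplexConjugate

namespace Crest.Agent.R174

noncomputable section

variable {k n : ℕ}

theorem Refl_sph {p : ℂ × ℂ} (hp : sph p = 0) :
    Complex.normSq p.1 = p.2.re * (1 - p.2.re) ∧ p.2.im = 0 := by
  have h1 := congrArg Complex.re hp
  have h2 := congrArg Complex.im hp
  simp only [sph, Complex.add_re, Complex.ofReal_re, Complex.mul_re, Complex.I_re, mul_zero,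
    Complex.ofReal_im, Complex.I_im, zero_mul, sub_zero, add_zero, Complex.zero_re, Complex.add_im,
    Complex.mul_im, mul_one, zero_add, Complex.zero_im] at h1 h2
  exact ⟨by linarith, h2⟩

theorem Refl_Qf_self {p : ℂ × ℂ} (hp : sph p = 0) (s : ℕ) :
    Qf p s s = (((p.2.re * s + p.1.re) ^ 2 + p.1.im ^ 2 + (p.1.re * s + (1 - p.2.re)) ^ 2 +
      (p.1.im * s) ^ 2 : ℝ) : ℂ) := by
  have h := (Refl_sph hp).1
  rw [Complex.normSq_apply] at h
  refine Complex.ext ?_ ?_
  · rw [Complex.ofReal_re]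
    simp only [Qf, Complex.add_re, Complex.mul_re, Complex.ofReal_re, Complex.natCast_re,
      Complex.ofReal_im, Complex.natCast_im, Complex.mul_im, Complex.conj_re, Complex.conj_im,
      Complex.sub_re, Complex.one_re]
    linear_combination (-(1 + (s : ℝ) ^ 2)) * h
  · rw [Complex.ofReal_im]
    simp [Qf]

theorem Refl_node (a : ℕ) : node a =
    (((-(a : ℝ) / (1 + (a : ℝ) ^ 2) : ℝ) : ℂ), ((1 / (1 + (a : ℝ) ^ 2) : ℝ) : ℂ)) := by
  simp [node]

theorem Refl_Qf_node (a s s' : ℕ) :
    Qf (node a) s s' = ((s : ℂ) - a) * ((s' : ℂ) - a) / (1 + (a : ℂ) ^ 2) := by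
  have hs : (1 + (a : ℂ) ^ 2) ≠ 0 := by
    have h : (1 + (a : ℝ) ^ 2) ≠ 0 := by positivity
    exact_mod_cast h
  rw [Refl_node]
  simp only [Qf, Complex.ofReal_re, Complex.conj_ofReal]
  push_cast
  field_simp
  ring

theorem Refl_contDiff_normSq : ContDiff ℝ 1 fun w : ℂ => Complex.normSq w := by
  simp only [Complex.normSq_apply]
  exact (Complex.reCLM.contDiff.mul Complex.reCLM.contDiff).add
    (Complex.imCLM.contDiff.mul Complex.imCLM.contDiff)

theorem Refl_norm_le {p : ℂ × ℂ} (hp : sph p = 0) : ‖p‖ ≤ 1 := by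
  obtain ⟨h1, h2⟩ := Refl_sph hp
  have h0 := Complex.normSq_nonneg p.1
  rw [Prod.norm_def, max_le_iff]
  constructor
  · rw [← sq_le_one_iff₀ (norm_nonneg _), ← Complex.normSq_eq_norm_sq]
    nlinarith [sq_nonneg (p.2.re - 1 / 2)]
  · rw [← sq_le_one_iff₀ (norm_nonneg _), ← Complex.normSq_eq_norm_sq, Complex.normSq_apply, h2]
    nlinarith [sq_nonneg (p.2.re - 1)]

theorem Refl_card_CC : Fintype.card (CC k n) ≤ n := by
  have h := Fintype.card_le_of_injective
    (fun j : CC k n => (⟨j.1.val - k, by have := j.1.2; have := j.2; omega⟩ : Fin n)) (by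
      intro a b hab
      have h1 := congrArg Fin.val hab
      have := a.2
      have := b.2
      refine Subtype.ext (Fin.ext ?_)
      simp only at h1
      omega)
  simpa using h

theorem Qf_conj (p : ℂ × ℂ) (s s' : ℕ) : conj (Qf p s s') = Qf p s' s := by
  simp only [Qf, map_add, map_mul, map_sub, map_one, Complex.conj_ofReal, Complex.conj_natCast,
    Complex.conj_conj]
  ring

theorem Qf_minor {p : ℂ × ℂ} (hp : sph p = 0) (s s' t t' : ℕ) :
    Qf p s s' * Qf p t t' = Qf p s t' * Qf p t s' := by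
  have h := (Refl_sph hp).1
  have h2 : p.1 * conj p.1 = (p.2.re : ℂ) * (1 - (p.2.re : ℂ)) := by
    rw [Complex.mul_conj, h]
    push_cast
    ring
  unfold Qf
  linear_combination (-((s : ℂ) - t) * ((s' : ℂ) - t')) * h2

theorem Qf_self_nonneg {p : ℂ × ℂ} (hp : sph p = 0) (s : ℕ) :
    0 ≤ (Qf p s s).re ∧ (Qf p s s).im = 0 := by
  rw [Refl_Qf_self hp]
  refine ⟨?_, Complex.ofReal_im _⟩
  rw [Complex.ofReal_re]
  positivity

theorem Qf_self_eq_zero {p : ℂ × ℂ} (hp : sph p = 0) (s : ℕ) : Qf p s s = 0 ↔ p = node s := by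
  constructor
  · intro h
    rw [Refl_Qf_self hp, Complex.ofReal_eq_zero] at h
    have h1 := sq_nonneg (p.2.re * s + p.1.re)
    have h2 := sq_nonneg p.1.im
    have h3 := sq_nonneg (p.1.re * s + (1 - p.2.re))
    have h4 := sq_nonneg (p.1.im * s)
    have e1 : p.2.re * s + p.1.re = 0 := pow_eq_zero_iff (two_ne_zero) |>.1 (by linarith)
    have e2 : p.1.im = 0 := pow_eq_zero_iff (two_ne_zero) |>.1 (by linarith)
    have e3 : p.1.re * s + (1 - p.2.re) = 0 := pow_eq_zero_iff (two_ne_zero) |>.1 (by linarith)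
    have e4 := (Refl_sph hp).2
    have hs : (1 + (s : ℝ) ^ 2) ≠ 0 := by positivity
    have e5 : p.2.re = 1 / (1 + (s : ℝ) ^ 2) := by
      rw [eq_div_iff hs]
      linear_combination (s : ℝ) * e1 - e3
    have e6 : p.1.re = -(s : ℝ) / (1 + (s : ℝ) ^ 2) := by
      rw [eq_div_iff hs]
      linear_combination e1 + (s : ℝ) * e3
    rw [Refl_node]
    refine Prod.ext (Complex.ext ?_ ?_) (Complex.ext ?_ ?_)
    · rw [e6, Complex.ofReal_re]
    · rw [e2, Complex.ofReal_im]
    · rw [e5, Complex.ofReal_re]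
    · rw [e4, Complex.ofReal_im]
  · rintro rfl
    rw [Refl_Qf_node]
    simp

theorem sph_node (a : ℕ) : sph (node a) = 0 := by
  have hs : (1 + (a : ℝ) ^ 2) ≠ 0 := by positivity
  rw [Refl_node]
  simp only [sph, Complex.normSq_ofReal, Complex.ofReal_re, Complex.ofReal_im, Complex.ofReal_zero,
    zero_mul, add_zero, Complex.ofReal_eq_zero]
  field_simp
  ring

theorem node_injective : Function.Injective node := by
  intro a b h
  rw [Refl_node, Refl_node] at h
  have h1 := Complex.ofReal_injective (congrArg Prod.snd h)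
  have ha : (1 + (a : ℝ) ^ 2) ≠ 0 := by positivity
  have hb : (1 + (b : ℝ) ^ 2) ≠ 0 := by positivity
  rw [div_eq_div_iff ha hb] at h1
  have h2 : (a : ℝ) ^ 2 = (b : ℝ) ^ 2 := by linarith
  have h3 : a ^ 2 = b ^ 2 := by exact_mod_cast h2
  exact Nat.pow_left_injective two_ne_zero h3

theorem Qf_node (a s s' : ℕ) :
    Qf (node a) s s' = ((s : ℂ) - a) * ((s' : ℂ) - a) / (1 + (a : ℂ) ^ 2) := by
  exact Refl_Qf_node a s s'

theorem contDiff_Qf (s s' : ℕ) : ContDiff ℝ 1 fun p : ℂ × ℂ => Qf p s s' := by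
  have h1 : ContDiff ℝ 1 fun p : ℂ × ℂ => (p.2.re : ℂ) :=
    Complex.ofRealCLM.contDiff.comp (Complex.reCLM.contDiff.comp contDiff_snd)
  have h2 : ContDiff ℝ 1 fun p : ℂ × ℂ => conj p.1 :=
    Complex.conjCLE.contDiff.comp contDiff_fst
  unfold Qf
  exact ((((h1.mul contDiff_const).mul contDiff_const).add (contDiff_fst.mul contDiff_const)).add
    (h2.mul contDiff_const)).add (contDiff_const.sub h1)

theorem contDiff_sph : ContDiff ℝ 1 sph := by
  have h1 : ContDiff ℝ 1 fun p : ℂ × ℂ => p.2.re := Complex.reCLM.contDiff.comp contDiff_snd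
  have h2 : ContDiff ℝ 1 fun p : ℂ × ℂ => p.2.im := Complex.imCLM.contDiff.comp contDiff_snd
  have h3 : ContDiff ℝ 1 fun p : ℂ × ℂ => Complex.normSq p.1 := Refl_contDiff_normSq.comp contDiff_fst
  unfold sph
  exact (Complex.ofRealCLM.contDiff.comp (h3.sub (h1.mul (contDiff_const.sub h1)))).add
    ((Complex.ofRealCLM.contDiff.comp h2).mul contDiff_const)

theorem SM_Pm (j : CC k n) : SM fun z : RP k n => Pm z.1 j := by
  intro s s'
  simp only [Pm, Matrix.of_apply]
  split_ifs
  · refine contDiff_prod fun b _ => ?_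
    exact (contDiff_Qf _ _).comp ((contDiff_apply ℝ (ℂ × ℂ) b).comp contDiff_fst)
  · exact contDiff_const

theorem contDiff_circ (j : CC k n) : ContDiff ℝ 1 fun z : RP k n => circ z j := by
  have h1 : ContDiff ℝ 1 fun z : RP k n => z.2 j := (contDiff_apply ℝ ℂ j).comp contDiff_snd
  have h2 : ContDiff ℝ 1 fun z : RP k n => (Pm z.1 j).trace := by
    simp only [Matrix.trace, Matrix.diag_apply]
    exact ContDiff.sum fun s _ => SM_Pm j s s
  unfold circ
  exact (contDiff_const.mul (Complex.reCLM.contDiff.comp h1)).add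
    ((Refl_contDiff_normSq.comp h1).mul (Complex.reCLM.contDiff.comp h2))

theorem SM_rf (j : CC k n) : SM fun z : RP k n => rf z j := by
  have h1 : ContDiff ℝ 1 fun z : RP k n => z.2 j := (contDiff_apply ℝ ℂ j).comp contDiff_snd
  exact (SM.const _).add (SM.smul h1 (SM_Pm j))

theorem SM_Rp (j : ℕ) : SM fun z : RP k n => Rp z j := by
  induction j with
  | zero => exact SM.const _
  | succ j ih =>
    simp only [Rp]
    refine SM.mul ?_ ih
    by_cases h : j < k + n ∧ k ≤ j
    · simp only [dif_pos h]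
      exact SM_rf _
    · simp only [dif_neg h]
      exact SM.const _

theorem SM_RR : SM fun z : RP k n => RR z := by
  exact SM_Rp _

theorem Pm_conjTranspose (p : PP k n → ℂ × ℂ) (j : CC k n) : (Pm p j)ᴴ = Pm p j := by
  ext s s'
  simp only [Pm, Matrix.conjTranspose_apply, Matrix.of_apply]
  by_cases h : s ≤ j.1 ∧ s' ≤ j.1
  · rw [if_pos h, if_pos h.symm]
    change conj _ = _
    rw [map_prod]
    exact Finset.prod_congr rfl fun b _ => Qf_conj _ _ _
  · rw [if_neg h, if_neg fun h' => h h'.symm, star_zero]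

theorem Pm_minor {p : PP k n → ℂ × ℂ} (hp : ∀ q, sph (p q) = 0) (j : CC k n)
    (s s' t t' : Fin (k + n)) : Pm p j s s' * Pm p j t t' = Pm p j s t' * Pm p j t s' := by
  simp only [Pm, Matrix.of_apply]
  by_cases h1 : s ≤ j.1 <;> by_cases h2 : s' ≤ j.1 <;> by_cases h3 : t ≤ j.1 <;>
    by_cases h4 : t' ≤ j.1 <;> simp only [h1, h2, h3, h4, and_self, and_true, and_false,
      if_true, if_false, zero_mul, mul_zero]
  rw [← Finset.prod_mul_distrib, ← Finset.prod_mul_distrib]
  exact Finset.prod_congr rfl fun b _ => Qf_minor (hp b) _ _ _ _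

theorem Pm_mul_self {p : PP k n → ℂ × ℂ} (hp : ∀ q, sph (p q) = 0) (j : CC k n) :
    Pm p j * Pm p j = (Pm p j).trace • Pm p j := by
  ext s t
  simp only [Matrix.mul_apply, Matrix.smul_apply, Matrix.trace, Matrix.diag_apply, smul_eq_mul,
    Finset.sum_mul]
  refine Finset.sum_congr rfl fun u _ => ?_
  rw [Pm_minor hp j s u u t, mul_comm]

theorem Refl_diag {p : PP k n → ℂ × ℂ} (hp : ∀ q, sph (p q) = 0) (j : CC k n) (s : Fin (k + n)) :
    0 ≤ (Pm p j s s).re ∧ (Pm p j s s).im = 0 := by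
  simp only [Pm, Matrix.of_apply]
  split_ifs
  · have e : ∏ b ∈ univ.filter (fun b : PP k n => b.1.1 = j.1), Qf (p b) s s =
        ((∏ b ∈ univ.filter (fun b : PP k n => b.1.1 = j.1), (Qf (p b) s s).re : ℝ) : ℂ) := by
      rw [Complex.ofReal_prod]
      exact Finset.prod_congr rfl fun b _ =>
        Complex.ext (Complex.ofReal_re _).symm (Qf_self_nonneg (hp b) s).2
    rw [e]
    exact ⟨by
      rw [Complex.ofReal_re]
      exact Finset.prod_nonneg fun b _ => (Qf_self_nonneg (hp b) s).1, Complex.ofReal_im _⟩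
  · simp

theorem Refl_exists_diag {p : PP k n → ℂ × ℂ} (hp : ∀ q, sph (p q) = 0) (j : CC k n) :
    ∃ s : Fin (k + n), Pm p j s s ≠ 0 := by
  by_contra hcon
  push Not at hcon
  have h1 : ∀ s : Fin (j.1.val + 1), ∃ b : PP k n, b.1.1 = j.1 ∧ p b = node s := by
    intro s
    have hs : s.val < k + n := by have := s.2; have := j.1.2; omega
    have h2 := hcon ⟨s, hs⟩
    have h3 : (⟨s, hs⟩ : Fin (k + n)) ≤ j.1 := by
      rw [Fin.le_def]
      have := s.2
      simp only
      omega
    simp only [Pm, Matrix.of_apply, h3, and_self, if_true] at h2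
    obtain ⟨b, hb, hb0⟩ := Finset.prod_eq_zero_iff.1 h2
    exact ⟨b, (Finset.mem_filter.1 hb).2, (Qf_self_eq_zero (hp b) _).1 hb0⟩
  choose b hb hpb using h1
  have h4 : ∀ s, (b s).1.2.val < j.1.val := fun s => by
    have h5 := (b s).2.2
    rw [hb s] at h5
    exact h5
  have h6 := Fintype.card_le_of_injective
    (fun s : Fin (j.1.val + 1) => (⟨(b s).1.2.val, h4 s⟩ : Fin j.1.val)) (by
      intro s t hst
      have h9 : (b s).1.2.val = (b t).1.2.val := Fin.mk.inj_iff.1 hst
      have h7 : b s = b t := Subtype.ext (Prod.ext ((hb s).trans (hb t).symm) (Fin.ext h9))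
      have h8 : node s = node t := by rw [← hpb s, ← hpb t, h7]
      exact Fin.ext (node_injective h8))
  simp at h6

theorem Pm_trace_pos {p : PP k n → ℂ × ℂ} (hp : ∀ q, sph (p q) = 0) (j : CC k n) :
    0 < (Pm p j).trace.re ∧ (Pm p j).trace.im = 0 := by
  obtain ⟨s, hs⟩ := Refl_exists_diag hp j
  simp only [Matrix.trace, Matrix.diag_apply, Complex.re_sum, Complex.im_sum]
  refine ⟨Finset.sum_pos' (fun u _ => (Refl_diag hp j u).1) ⟨s, Finset.mem_univ _, ?_⟩,
    Finset.sum_eq_zero fun u _ => (Refl_diag hp j u).2⟩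
  refine lt_of_le_of_ne (Refl_diag hp j s).1 fun h => hs ?_
  exact Complex.ext h.symm (Refl_diag hp j s).2

theorem Pm_perm (p : PP k n → ℂ × ℂ) (σ : Equiv.Perm (PP k n)) (hσ : ∀ q, (σ q).1.1 = q.1.1)
    (j : CC k n) : Pm (p ∘ σ) j = Pm p j := by
  ext s s'
  simp only [Pm, Matrix.of_apply, Function.comp_apply]
  split_ifs
  · refine Finset.prod_equiv σ (fun b => ?_) fun b _ => rfl
    simp only [Finset.mem_filter, Finset.mem_univ, true_and, hσ]
  · rfl

theorem circ_perm (z : RP k n) (σ : Equiv.Perm (PP k n)) (hσ : ∀ q, (σ q).1.1 = q.1.1)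
    (j : CC k n) : circ (z.1 ∘ σ, z.2) j = circ z j := by
  simp only [circ, Pm_perm z.1 σ hσ]

theorem RR_perm (z : RP k n) (σ : Equiv.Perm (PP k n)) (hσ : ∀ q, (σ q).1.1 = q.1.1) :
    RR (z.1 ∘ σ, z.2) = RR z := by
  have h : ∀ j, Rp (z.1 ∘ σ, z.2) j = Rp z j := by
    intro j
    induction j with
    | zero => rfl
    | succ j ih => simp only [Rp, ih, rf, Pm_perm z.1 σ hσ]
  exact h _

theorem rf_unitary {z : RP k n} (hz : Con z) (j : CC k n) :
    rf z j ∈ Matrix.unitaryGroup (Fin (k + n)) ℂ := by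
  rw [Matrix.mem_unitaryGroup_iff']
  have h1 : star (rf z j) = 1 + conj (z.2 j) • Pm z.1 j := by
    rw [rf, star_add, star_one, star_smul, Matrix.star_eq_conjTranspose, Pm_conjTranspose]
    rfl
  have h2 : z.2 j + conj (z.2 j) + conj (z.2 j) * z.2 j * (Pm z.1 j).trace = 0 := by
    have h3 := hz.2 j
    have h4 := (Pm_trace_pos hz.1 j).2
    unfold circ at h3
    rw [Complex.add_conj, ← Complex.normSq_eq_conj_mul_self]
    refine Complex.ext ?_ ?_
    · simpa using h3
    · simp [h4]
  rw [h1, rf, add_mul, mul_add, mul_add, one_mul, one_mul, mul_one, smul_mul_smul_comm,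
    Pm_mul_self hz.1, smul_smul, add_assoc, ← add_smul, ← add_smul, ← add_assoc, h2, zero_smul,
    add_zero]

theorem Rp_unitary {z : RP k n} (hz : Con z) (j : ℕ) :
    Rp z j ∈ Matrix.unitaryGroup (Fin (k + n)) ℂ := by
  induction j with
  | zero => exact one_mem _
  | succ j ih =>
    simp only [Rp]
    refine mul_mem ?_ ih
    split_ifs
    · exact rf_unitary hz _
    · exact one_mem _

theorem RR_unitary {z : RP k n} (hz : Con z) : RR z ∈ Matrix.unitaryGroup (Fin (k + n)) ℂ := by
  exact Rp_unitary hz _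

theorem RR_fix {z : RP k n} (hz : Con z) : k ≤ fixDim (RR z) := by
  choose s hs using Refl_exists_diag hz.1
  let A : Matrix (CC k n) (Fin (k + n)) ℂ := Matrix.of fun j t => Pm z.1 j (s j) t
  have hker : ∀ x, A *ᵥ x = 0 → ∀ j, Pm z.1 j *ᵥ x = 0 := by
    intro x hx j
    funext u
    have h1 : ∑ t, Pm z.1 j (s j) t * x t = 0 := congrFun hx j
    refine mul_left_cancel₀ (hs j) ?_
    have h2 : Pm z.1 j (s j) (s j) * (Pm z.1 j *ᵥ x) u =
        Pm z.1 j u (s j) * ∑ t, Pm z.1 j (s j) t * x t := by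
      simp only [Matrix.mulVec, dotProduct, Finset.mul_sum]
      refine Finset.sum_congr rfl fun t _ => ?_
      rw [← mul_assoc, Pm_minor hz.1 j (s j) (s j) u t]
      ring
    rw [h2, h1]
    simp
  have hfix : ∀ x, A *ᵥ x = 0 → ∀ j, Rp z j *ᵥ x = x := by
    intro x hx j
    induction j with
    | zero => exact Matrix.one_mulVec x
    | succ j ih =>
      simp only [Rp]
      rw [← Matrix.mulVec_mulVec, ih]
      split_ifs
      · rw [rf, Matrix.add_mulVec, Matrix.one_mulVec, Matrix.smul_mulVec, hker x hx, smul_zero,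
          add_zero]
      · exact Matrix.one_mulVec x
  have hle : LinearMap.ker A.mulVecLin ≤ LinearMap.ker (RR z - 1).mulVecLin := by
    intro x hx
    rw [LinearMap.mem_ker, Matrix.mulVecLin_apply] at hx ⊢
    rw [Matrix.sub_mulVec, Matrix.one_mulVec, RR, hfix x hx, sub_self]
  have h1 := LinearMap.finrank_range_add_finrank_ker A.mulVecLin
  have h2 := Submodule.finrank_le (LinearMap.range A.mulVecLin)
  have h3 := Submodule.finrank_mono hle
  rw [Module.finrank_fintype_fun_eq_card, Fintype.card_fin] at h1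
  rw [Module.finrank_fintype_fun_eq_card] at h2
  have h4 := Refl_card_CC (k := k) (n := n)
  unfold fixDim
  omega

theorem isCompact_con : IsCompact {z : RP k n | Con z} := by
  have hS : IsCompact {p : PP k n → ℂ × ℂ | ∀ q, sph (p q) = 0} := by
    refine Metric.isCompact_of_isClosed_isBounded ?_ ?_
    · rw [Set.ofPred_forall]
      exact isClosed_iInter fun q =>
        isClosed_eq (contDiff_sph.continuous.comp (continuous_apply q)) continuous_const
    · refine (Metric.isBounded_closedBall (x := (0 : PP k n → ℂ × ℂ)) (r := 1)).subset fun p hp => ?_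
      rw [mem_closedBall_zero_iff, pi_norm_le_iff_of_nonneg zero_le_one]
      exact fun q => Refl_norm_le (hp q)
  have hτ : ∀ j : CC k n, ∃ ε : ℝ, 0 < ε ∧ ∀ p ∈ {p : PP k n → ℂ × ℂ | ∀ q, sph (p q) = 0},
      ε ≤ (Pm p j).trace.re := by
    intro j
    have hc : Continuous fun p : PP k n → ℂ × ℂ => (Pm p j).trace.re := by
      refine Complex.continuous_re.comp (Continuous.matrix_trace (continuous_matrix fun s s' => ?_))
      simp only [Pm, Matrix.of_apply]
      split_ifs
      · exact continuous_finsetProd _ fun b _ =>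
          (contDiff_Qf _ _).continuous.comp (continuous_apply b)
      · exact continuous_const
    exact hS.exists_forall_le' hc.continuousOn fun p hp => (Pm_trace_pos hp j).1
  choose ε hε hεle using hτ
  have hK : IsCompact ({p : PP k n → ℂ × ℂ | ∀ q, sph (p q) = 0} ×ˢ
      (Set.pi Set.univ fun j : CC k n => Metric.closedBall (0 : ℂ) (2 / ε j))) :=
    hS.prod (isCompact_univ_pi fun j => isCompact_closedBall _ _)
  refine hK.of_isClosed_subset ?_ fun z hz => ⟨hz.1, fun j _ => ?_⟩
  · have e : {z : RP k n | Con z} =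
        (⋂ q, {z : RP k n | sph (z.1 q) = 0}) ∩ ⋂ j, {z : RP k n | circ z j = 0} := by
      ext z
      simp [Con]
    rw [e]
    refine (isClosed_iInter fun q => ?_).inter (isClosed_iInter fun j => ?_)
    · exact isClosed_eq (contDiff_sph.continuous.comp ((continuous_apply q).comp continuous_fst))
        continuous_const
    · exact isClosed_eq (contDiff_circ j).continuous continuous_const
  · rw [mem_closedBall_zero_iff, le_div_iff₀ (hε j)]
    have h1 := hz.2 j
    have h2 := hεle j z.1 hz.1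
    have h3 : -(z.2 j).re ≤ ‖z.2 j‖ := (neg_le_abs _).trans (Complex.abs_re_le_norm _)
    unfold circ at h1
    rw [Complex.normSq_eq_norm_sq] at h1
    rcases (norm_nonneg (z.2 j)).eq_or_lt with h | h
    · rw [← h]
      norm_num
    · refine le_of_mul_le_mul_left ?_ h
      nlinarith [mul_le_mul_of_nonneg_left h2 (sq_nonneg ‖z.2 j‖)]

end

end Crest.Agent.R174
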