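import Crest.Agent.R174.Der
import Crest.Agent.R174.Lin
import Crest.Agent.R174.PosDeg

/-!
# Row 174: signs of the zeros of the model, part A

* `det_perm`: `T x = (x.1, fun l => ((x.2 l).1 ∘ σ l, (x.2 l).2))` and
  `T' y = (y.1, fun l => (fun q => (((y.2 l).1 (σ l q)).1, ((y.2 l).1 q).2), (y.2 l).2))` are injective `ℂ`-linear maps of `DE`,
  `HH W (T x) = T' (HH W x)` (`circ_perm`, `RR_perm`).  Chain rule: `D(T x) ∘ T = T' ∘ D(x)`; `det_pos_of_complex`.
* `det_L_ne`: `L δ = 0`; by `fderiv_HH`, `pack_eq_zero`, `RR_z0`, `dM_blk`, `blk_mul`: `ξ = um δ.1 l` has `ξᴴ + ξ = 0` and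
  `ImM (δRᴴ w) + blk (ImM ξ) 0 = 0`.  The entries used in `lin_inj` do not see `blk _ 0`, so `δ.2 l = 0`, then `ImM ξ = 0`, `ξ = 0`.
-/

set_option autoImplicit false
set_option linter.unusedSectionVars false
set_option linter.unusedVariables false

open Matrix Finset
open scoped ComplexConjugate

namespace Crest.Agent.R174

noncomputable section

variable {m k n : ℕ}

/-- permutation of the spheres (source) -/
def SignA_T (σ : Fin m → Equiv.Perm (PP k n)) : DE m k n →ₗ[ℂ] DE m k n where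
  toFun x := (x.1, fun l => ((x.2 l).1 ∘ σ l, (x.2 l).2))
  map_add' _ _ := rfl
  map_smul' _ _ := rfl

/-- permutation of the sphere equations (target) -/
def SignA_T' (σ : Fin m → Equiv.Perm (PP k n)) : DE m k n →ₗ[ℂ] DE m k n where
  toFun y := (y.1, fun l => (fun q => (((y.2 l).1 (σ l q)).1, ((y.2 l).1 q).2), (y.2 l).2))
  map_add' _ _ := rfl
  map_smul' _ _ := rfl

theorem SignA_T_inj (σ : Fin m → Equiv.Perm (PP k n)) : Function.Injective (SignA_T σ) := by
  refine (injective_iff_map_eq_zero _).2 fun x hx => ?_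
  have h1 : x.1 = 0 := congrArg Prod.fst hx
  have h2 : ∀ l, ((x.2 l).1 ∘ σ l, (x.2 l).2) = 0 := fun l => congrFun (congrArg Prod.snd hx) l
  refine Prod.ext h1 (funext fun l => Prod.ext (funext fun q => ?_) (congrArg Prod.snd (h2 l) :))
  have := congrFun (congrArg Prod.fst (h2 l)) ((σ l).symm q)
  simpa using this

theorem SignA_T'_inj (σ : Fin m → Equiv.Perm (PP k n)) : Function.Injective (SignA_T' σ) := by
  refine (injective_iff_map_eq_zero _).2 fun x hx => ?_
  have h1 : x.1 = 0 := congrArg Prod.fst hx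
  have h2 : ∀ l, ((fun q => (((x.2 l).1 (σ l q)).1, ((x.2 l).1 q).2), (x.2 l).2) : RP k n) = 0 :=
    fun l => congrFun (congrArg Prod.snd hx) l
  refine Prod.ext h1 (funext fun l => Prod.ext (funext fun q => Prod.ext ?_ ?_)
    (congrArg Prod.snd (h2 l) :))
  · have := congrArg Prod.fst (congrFun (congrArg Prod.fst (h2 l)) ((σ l).symm q))
    simpa using this
  · exact (congrArg Prod.snd (congrFun (congrArg Prod.fst (h2 l)) q) :)

theorem SignA_HH (W : UU m k → Fin m → Matrix (Fin (k + n)) (Fin (k + n)) ℂ)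
    (σ : Fin m → Equiv.Perm (PP k n)) (hσ : ∀ l q, (σ l q).1.1 = q.1.1) (x : DE m k n) :
    HH W (SignA_T σ x) = SignA_T' σ (HH W x) := by
  have e : ∀ l, (SignA_T σ x).2 l = ((x.2 l).1 ∘ σ l, (x.2 l).2) := fun _ => rfl
  have e1 : (SignA_T σ x).1 = x.1 := rfl
  unfold HH
  simp only [e, e1, RR_perm _ _ (hσ _), circ_perm _ _ (hσ _)]
  rfl

theorem SignA_blk_zero (y : Matrix (Fin k) (Fin k) ℂ) {a b : Fin (k + n)}
    (h : ¬ (a.val < k ∧ b.val < k)) : blk n y 0 a b = 0 := by
  unfold blk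
  rw [Matrix.of_apply, dif_neg h, ite_self]

theorem det_perm {W : UU m k → Fin m → Matrix (Fin (k + n)) (Fin (k + n)) ℂ}
    (hW : ∀ l, SM fun u => W u l) (σ : Fin m → Equiv.Perm (PP k n))
    (hσ : ∀ l q, (σ l q).1.1 = q.1.1) (x : DE m k n) :
    ∃ ρ : ℝ, 0 < ρ ∧ (fderiv ℝ (HH W) (x.1, fun l => ((x.2 l).1 ∘ σ l, (x.2 l).2))).det =
      ρ * (fderiv ℝ (HH W) x).det := by
  set T : DE m k n →L[ℝ] DE m k n :=
    LinearMap.toContinuousLinearMap ((SignA_T σ).restrictScalars ℝ) with hT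
  set T' : DE m k n →L[ℝ] DE m k n :=
    LinearMap.toContinuousLinearMap ((SignA_T' σ).restrictScalars ℝ) with hT'
  have h1 : 0 < T.det := det_pos_of_complex _ (SignA_T_inj σ)
  have h2 : 0 < T'.det := det_pos_of_complex _ (SignA_T'_inj σ)
  have hd : Differentiable ℝ (HH W) := (contDiff_HH hW).differentiable one_ne_zero
  have e : HH W ∘ T = T' ∘ HH W := funext fun y => SignA_HH W σ hσ y
  have c1 : HasFDerivAt (HH W ∘ T) ((fderiv ℝ (HH W) (T x)).comp T) x :=
    (hd (T x)).hasFDerivAt.comp x T.hasFDerivAt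
  have c2 : HasFDerivAt (T' ∘ HH W) (T'.comp (fderiv ℝ (HH W) x)) x :=
    T'.hasFDerivAt.comp x (hd x).hasFDerivAt
  rw [e] at c1
  have c3 := congrArg ContinuousLinearMap.det (c1.unique c2)
  have hc : ∀ A B : DE m k n →L[ℝ] DE m k n, (A.comp B).det = A.det * B.det := fun A B =>
    LinearMap.det_comp (A : DE m k n →ₗ[ℝ] DE m k n) (B : DE m k n →ₗ[ℝ] DE m k n)
  rw [hc, hc] at c3
  refine ⟨T'.det / T.det, div_pos h2 h1, ?_⟩
  rw [div_mul_eq_mul_div, eq_div_iff h1.ne']
  exact c3

/-- the reference linear map -/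
def LL (m k n : ℕ) : DE m k n →L[ℝ] DE m k n :=
  fderiv ℝ (HH (Wmod n 1 fun _ => 1))
    ((fun _ => (1 : Matrix (Fin k) (Fin k) ℂ), fun _ => z0 k n) : DE m k n)

theorem det_L_ne : (LL m k n).det ≠ 0 := by
  refine det_ne_zero_of_injective _ ((injective_iff_map_eq_zero _).2 fun δ hδ => ?_)
  have h0 : LL m k n δ = 0 := hδ
  unfold LL at h0
  rw [fderiv_HH (fun l => SM_Wmod 1 _ l), pack_eq_zero (fun l => ?_) fun l => ImM_isHermitian _] at h0
  · obtain ⟨hA, hS, hC, hY⟩ := h0
    have hu : ∀ l : Fin m, um (fun _ : Fin m => (1 : Matrix (Fin k) (Fin k) ℂ)) l = 1 := fun _ => rfl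
    have hW : ∀ l : Fin m, Wmod n 1 (fun _ => 1) (fun _ : Fin m => (1 : Matrix (Fin k) (Fin k) ℂ)) l =
        blk n 1 (-1) := fun l => by
      unfold Wmod
      rw [hu, pow_one, one_mul, Matrix.diagonal_one]
    have hdW : ∀ l : Fin m, dM (fun u : UU m k => Wmod n 1 (fun _ => 1) u l)
        (fun _ : Fin m => (1 : Matrix (Fin k) (Fin k) ℂ)) δ.1 = blk n (um δ.1 l) 0 := fun l => by
      unfold Wmod
      simp only [pow_one, Matrix.diagonal_one, Matrix.mul_one]
      rw [dM_blk, dM_um]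
    have hY' : ∀ l, ImM ((dM RR (z0 k n) (δ.2 l))ᴴ * blk n 1 (-1)) + blk n (ImM (um δ.1 l)) 0 = 0 := by
      intro l
      have := congrFun hY l
      simp only [hW, hdW, RR_z0, blk_conjTranspose, blk_mul, ImM_add, Matrix.conjTranspose_one,
        Matrix.one_mul, mul_zero, ImM_blk_zero] at this
      exact this
    have h2 : ∀ l, δ.2 l = 0 := by
      intro l
      refine lin_inj (δ.2 l) (fun q => congrFun (congrFun hS l) q)
        (fun j => congrFun (congrFun hC l) j) (fun q => ?_) (fun j => ?_)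
      · have := congrFun (congrFun (hY' l) q.1.2) q.1.1
        have hq : ¬ (q.1.2.val < k ∧ q.1.1.val < k) := fun h => absurd q.2.1 (not_le.2 h.2)
        rw [Matrix.add_apply, SignA_blk_zero _ hq, add_zero] at this
        exact this
      · have := congrFun (congrFun (hY' l) j.1) j.1
        have hq : ¬ (j.1.val < k ∧ j.1.val < k) := fun h => absurd j.2 (not_le.2 h.2)
        rw [Matrix.add_apply, SignA_blk_zero _ hq, add_zero] at this
        rw [this]
        rfl
    have h1 : ∀ l, um δ.1 l = 0 := by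
      intro l
      have e1 := hY' l
      rw [h2 l, dM_zero_dir, Matrix.conjTranspose_zero, Matrix.zero_mul,
        (ImM_eq_zero_iff _).2 Matrix.conjTranspose_zero, zero_add] at e1
      have e2 : ImM (um δ.1 l) = 0 := by
        ext a b
        rw [← blk_castAdd (n := n) (ImM (um δ.1 l)) 0 a b, e1]
        rfl
      have e3 := congrFun hA l
      simp only [hu, Matrix.mul_one, Matrix.conjTranspose_one, Matrix.one_mul,
        (ImM_eq_zero_iff _).1 e2, Pi.zero_apply] at e3
      rw [← two_smul ℂ] at e3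
      exact (smul_eq_zero.1 e3).resolve_left two_ne_zero
    exact Prod.ext (funext fun l => h1 l) (funext h2)
  · unfold Matrix.IsHermitian
    rw [Matrix.conjTranspose_add, Matrix.conjTranspose_mul, Matrix.conjTranspose_mul,
      Matrix.conjTranspose_conjTranspose, Matrix.conjTranspose_conjTranspose, add_comm]

end

end Crest.Agent.R174
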