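import Crest.Agent.R174.SignA

/-!
# Row 174: signs of the zeros of the model, part B

* `det_root`: `u l = diagonal (v l)`.  By induction on `d` (`dM_mul`), `dM (u^d) δ a b = (∑_{i<d} v_a^i v_b^(d-1-i)) δ a b`.  With
  `ξ = uᴴ δ` (`δ a b = v_a ξ a b`) and `γ_b = v_b^{-d}`: `(dM (u^d) δ * diagonal γ) a b = g a b * ξ a b`,
  `g a b = ∑_{i<d} ω^(i+1)`, `ω = v_a / v_b`; `g b a = conj (g a b)`, `g a a = d`, `g a b ≠ 0` (`ω^d = γ_b / γ_a ≠ 1`, `geom_sum`).
  Let `A_g ξ = (ξ + ξᴴ)/2 + g ⊙ (ξ - ξᴴ)/2` (real-linear, identity on the `RP` coordinates).  Then `A_g ξ + (A_g ξ)ᴴ = ξ + ξᴴ`,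
  `ImM (A_g ξ) = ImM (g ⊙ ξ)`, so `D = L ∘ A_g ∘ (δ ↦ uᴴ δ)`.  The last map is `ℂ`-linear and injective; `A_g = A_h ∘ A_h` with
  `h a b ^ 2 = g a b`, `h b a = conj (h a b)` (choose roots for `a < b`, `√d` on the diagonal): `det_pos_of_sq`.
-/

set_option autoImplicit false
set_option linter.unusedSectionVars false
set_option linter.unusedVariables false

open Matrix Finset
open scoped ComplexConjugate

namespace Crest.Agent.R174

noncomputable section

variable {m k n : ℕ}

/-- keeps the Hermitian parts and multiplies the skew-Hermitian parts entrywise by `h` -/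
def SignB_A (n : ℕ) (h : Fin m → Fin k → Fin k → ℂ) : DE m k n →ₗ[ℝ] DE m k n where
  toFun δ := (fun l a b => (δ.1 l a b + conj (δ.1 l b a)) / 2 +
    h l a b * (δ.1 l a b - conj (δ.1 l b a)) / 2, δ.2)
  map_add' δ δ' := by
    refine Prod.ext ?_ rfl
    funext l a b
    simp only [Prod.fst_add, Pi.add_apply, map_add]
    ring
  map_smul' c δ := by
    refine Prod.ext ?_ rfl
    funext l a b
    simp only [Prod.smul_fst, Pi.smul_apply, RingHom.id_apply, Complex.real_smul, map_mul,
      Complex.conj_ofReal]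
    ring

theorem SignB_A_fst (h : Fin m → Fin k → Fin k → ℂ) (δ : DE m k n) (l : Fin m) (a b : Fin k) :
    (SignB_A n h δ).1 l a b = (δ.1 l a b + conj (δ.1 l b a)) / 2 +
      h l a b * (δ.1 l a b - conj (δ.1 l b a)) / 2 := rfl

theorem SignB_A_snd (h : Fin m → Fin k → Fin k → ℂ) (δ : DE m k n) : (SignB_A n h δ).2 = δ.2 := rfl

theorem SignB_A_comp (h : Fin m → Fin k → Fin k → ℂ) {h' : Fin m → Fin k → Fin k → ℂ}
    (hh : ∀ l a b, h' l b a = conj (h' l a b)) (δ : DE m k n) :
    SignB_A n h (SignB_A n h' δ) = SignB_A n (fun l a b => h l a b * h' l a b) δ := by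
  refine Prod.ext ?_ rfl
  funext l a b
  simp only [SignB_A_fst, hh l a b, map_add, map_sub, map_mul, map_div₀, Complex.conj_conj,
    map_ofNat]
  ring

theorem SignB_A_one (δ : DE m k n) : SignB_A n (fun _ _ _ => 1) δ = δ := by
  refine Prod.ext ?_ rfl
  funext l a b
  simp only [SignB_A_fst]
  ring

theorem SignB_A_inj {h : Fin m → Fin k → Fin k → ℂ} (hh : ∀ l a b, h l b a = conj (h l a b))
    (h0 : ∀ l a b, h l a b ≠ 0) : Function.Injective (SignB_A n h) := by
  refine Function.LeftInverse.injective (g := SignB_A n fun l a b => (h l a b)⁻¹) fun δ => ?_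
  rw [SignB_A_comp _ hh]
  simp only [inv_mul_cancel₀ (h0 _ _ _)]
  exact SignB_A_one δ

/-- multiplies the rows by `w` -/
def SignB_T (n : ℕ) (w : Fin m → Fin k → ℂ) : DE m k n →ₗ[ℂ] DE m k n where
  toFun δ := (fun l a b => w l a * δ.1 l a b, δ.2)
  map_add' δ δ' := by
    refine Prod.ext ?_ rfl
    funext l a b
    simp only [Prod.fst_add, Pi.add_apply]
    ring
  map_smul' c δ := by
    refine Prod.ext ?_ rfl
    funext l a b
    simp only [Prod.smul_fst, Pi.smul_apply, RingHom.id_apply, smul_eq_mul]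
    ring

theorem SignB_T_fst (w : Fin m → Fin k → ℂ) (δ : DE m k n) (l : Fin m) (a b : Fin k) :
    (SignB_T n w δ).1 l a b = w l a * δ.1 l a b := rfl

theorem SignB_T_snd (w : Fin m → Fin k → ℂ) (δ : DE m k n) : (SignB_T n w δ).2 = δ.2 := rfl

theorem SignB_T_inj {w : Fin m → Fin k → ℂ} (hw : ∀ l a, w l a ≠ 0) :
    Function.Injective (SignB_T n w) := by
  intro δ δ' h
  refine Prod.ext ?_ (congrArg Prod.snd h :)
  funext l a b
  exact mul_left_cancel₀ (hw l a) (congrFun (congrFun (congrFun (congrArg Prod.fst h) l) a) b)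

theorem SignB_sqrt {g : Fin k → Fin k → ℂ} (hg : ∀ a b, g b a = conj (g a b)) {d : ℝ} (hd : 0 ≤ d)
    (hdiag : ∀ a, g a a = d) :
    ∃ h : Fin k → Fin k → ℂ, (∀ a b, h b a = conj (h a b)) ∧ ∀ a b, h a b * h a b = g a b := by
  choose r hr using fun z : ℂ => IsAlgClosed.exists_eq_mul_self z
  refine ⟨fun a b => if a < b then r (g a b) else if b < a then conj (r (g b a))
    else (Real.sqrt d : ℂ), fun a b => ?_, fun a b => ?_⟩
  · rcases lt_trichotomy a b with h | rfl | h
    · simp only [if_pos h, if_neg h.not_gt]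
    · simp only [lt_irrefl, if_false, Complex.conj_ofReal]
    · simp only [if_pos h, if_neg h.not_gt, Complex.conj_conj]
  · rcases lt_trichotomy a b with h | rfl | h
    · simp only [if_pos h]
      exact (hr _).symm
    · simp only [lt_irrefl, if_false]
      rw [← Complex.ofReal_mul, Real.mul_self_sqrt hd, hdiag]
    · simp only [if_pos h, if_neg h.not_gt]
      rw [← map_mul, ← hr, ← hg]

theorem SignB_dM_pow (v : Fin m → Fin k → ℂ) (hv : ∀ l c, conj (v l c) * v l c = 1) (δ : UU m k)
    (l : Fin m) (j : ℕ) (a b : Fin k) :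
    dM (fun u : UU m k => um u l ^ j) (fun l => Matrix.diagonal (v l)) δ a b =
      (∑ i ∈ range j, (v l a * conj (v l b)) ^ (i + 1)) * v l b ^ j * (conj (v l a) * δ l a b) := by
  induction j with
  | zero => simp only [pow_zero, dM_const, Matrix.zero_apply, range_zero, sum_empty, zero_mul]
  | succ j ih =>
    have e : um (fun l => Matrix.diagonal (v l)) l = Matrix.diagonal (v l) := rfl
    simp only [pow_succ (um _ l)]
    rw [dM_mul ((SM.um l).pow j) (SM.um l), dM_um, e, Matrix.diagonal_pow, Matrix.add_apply,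
      Matrix.mul_diagonal, Matrix.diagonal_mul, ih, sum_range_succ, Pi.pow_apply]
    have h1 : (conj (v l b) * v l b) ^ (j + 1) = 1 := by rw [hv, one_pow]
    have h2 := hv l a
    have e2 : um δ l a b = δ l a b := rfl
    rw [e2]
    linear_combination (-(v l a ^ (j + 1) * conj (v l a) * δ l a b)) * h1 -
      (v l a ^ j * δ l a b) * h2

/-- the derivative at a point where the model equals `1 ⊕ (-1)` -/
theorem SignB_fderiv (d : ℕ) (γ : Fin k → ℂ) (u : UU m k)
    (hu : ∀ l, um u l ^ d * Matrix.diagonal γ = 1) (δ : DE m k n) :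
    fderiv ℝ (HH (Wmod n d γ)) ((u, fun _ => z0 k n) : DE m k n) δ =
      pack (fun l => (um δ.1 l)ᴴ * um u l + (um u l)ᴴ * um δ.1 l)
        (fun l q => fderiv ℝ sph ((z0 k n).1 q) ((δ.2 l).1 q))
        (fun l j => fderiv ℝ (fun z : RP k n => circ z j) (z0 k n) (δ.2 l))
        (fun l => ImM ((dM RR (z0 k n) (δ.2 l))ᴴ * blk n 1 (-1)) +
          blk n (ImM (dM (fun u : UU m k => um u l ^ d) u δ.1 * Matrix.diagonal γ)) 0) := by
  rw [fderiv_HH (SM_Wmod d γ)]
  congr 1
  funext l
  simp only [Wmod]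
  rw [hu, RR_z0, dM_blk, blk_conjTranspose, blk_mul, dM_mul ((SM.um l).pow d) (SM.const _),
    dM_const, ImM_add, Matrix.conjTranspose_one, Matrix.one_mul, mul_zero, mul_zero,
    add_zero, ImM_blk_zero]

theorem det_root {d : ℕ} (hd : 0 < d) {γ : Fin k → ℂ} (hγ : Function.Injective γ)
    (hγ1 : ∀ c, ‖γ c‖ = 1) (v : Fin m → Fin k → ℂ) (hv : ∀ l c, v l c ^ d * γ c = 1) :
    ∃ ρ : ℝ, 0 < ρ ∧ (fderiv ℝ (HH (Wmod n d γ))
      ((fun l => Matrix.diagonal (v l), fun _ => z0 k n) : DE m k n)).det = ρ * (LL m k n).det := by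
  have hn : ∀ l c, ‖v l c‖ = 1 := fun l c => by
    have h := congrArg norm (hv l c)
    rw [norm_mul, norm_pow, hγ1, mul_one, norm_one] at h
    exact (pow_eq_one_iff_of_nonneg (norm_nonneg _) hd.ne').1 h
  have hv1 : ∀ l c, conj (v l c) * v l c = 1 := fun l c => by
    rw [Complex.conj_mul', hn, Complex.ofReal_one, one_pow]
  have hv0 : ∀ l c, conj (v l c) ≠ 0 := fun l c => left_ne_zero_of_mul_eq_one (hv1 l c)
  set g : Fin m → Fin k → Fin k → ℂ :=
    fun l a b => ∑ i ∈ range d, (v l a * conj (v l b)) ^ (i + 1) with hg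
  have hgc : ∀ l a b, g l b a = conj (g l a b) := fun l a b => by
    simp only [hg, map_sum, map_pow, map_mul, Complex.conj_conj, mul_comm]
  have hgd : ∀ l a, g l a a = ((d : ℝ) : ℂ) := fun l a => by
    simp only [hg, mul_comm (v l a), hv1, one_pow, sum_const, card_range, nsmul_eq_mul, mul_one,
      Complex.ofReal_natCast]
  have hg0 : ∀ l a b, g l a b ≠ 0 := fun l a b h0 => by
    have h1 := geom_sum_mul (v l a * conj (v l b)) d
    have h2 : g l a b = (∑ i ∈ range d, (v l a * conj (v l b)) ^ i) * (v l a * conj (v l b)) := by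
      simp only [hg, pow_succ, sum_mul]
    rw [h0, eq_comm, mul_eq_zero] at h2
    rcases h2 with h2 | h2
    · rw [h2, zero_mul, mul_pow] at h1
      have h3 : (conj (v l b) * v l b) ^ d = 1 := by rw [hv1, one_pow]
      have hab : a = b := hγ (by
        rw [mul_pow] at h3
        linear_combination (-γ a) * hv l b + (γ a * γ b * v l b ^ d) * h1 +
          (γ a * γ b * v l a ^ d) * h3 + γ b * hv l a)
      subst hab
      rw [hgd] at h0
      exact hd.ne' (by exact_mod_cast h0)
    · exact mul_ne_zero (right_ne_zero_of_mul_eq_one (hv1 l a)) (hv0 l b) h2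
  choose h hhc hhg using fun l => SignB_sqrt (hgc l) (Nat.cast_nonneg d) (hgd l)
  have hh0 : ∀ l a b, h l a b ≠ 0 := fun l a b h0 => hg0 l a b (by rw [← hhg, h0, mul_zero])
  have key : ((fderiv ℝ (HH (Wmod n d γ))
      ((fun l => Matrix.diagonal (v l), fun _ => z0 k n) : DE m k n) : DE m k n →L[ℝ] DE m k n) :
        DE m k n →ₗ[ℝ] DE m k n) =
      (LL m k n : DE m k n →ₗ[ℝ] DE m k n) ∘ₗ (SignB_A n h ∘ₗ SignB_A n h) ∘ₗ
        (SignB_T n fun l a => conj (v l a)).restrictScalars ℝ := by
    refine LinearMap.ext fun δ => ?_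
    have e : ∀ l, um (fun l => Matrix.diagonal (v l)) l = Matrix.diagonal (v l) := fun _ => rfl
    have e1 : ∀ l, um (fun _ : Fin m => (1 : Matrix (Fin k) (Fin k) ℂ)) l = 1 := fun _ => rfl
    have e2 : ∀ (u : UU m k) l a b, um u l a b = u l a b := fun _ _ _ _ => rfl
    simp only [LinearMap.comp_apply, ContinuousLinearMap.coe_coe, LinearMap.restrictScalars_apply,
      LL]
    rw [SignB_A_comp _ hhc, SignB_fderiv, SignB_fderiv]
    · simp only [hhg, SignB_A_snd, SignB_T_snd]
      congr 1
      · funext l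
        ext a b
        simp only [e, e1, Matrix.diagonal_conjTranspose, Matrix.conjTranspose_one, Matrix.mul_one,
          Matrix.one_mul, Matrix.add_apply, Matrix.mul_diagonal, Matrix.diagonal_mul,
          Matrix.conjTranspose_apply, e2, SignB_A_fst, SignB_T_fst, Pi.star_apply, RCLike.star_def,
          hgc l a b, map_add, map_sub, map_mul, map_div₀, Complex.conj_conj, map_ofNat]
        ring
      · funext l
        congr 2
        ext a b
        have e3 : ∀ a b, (dM (fun u : UU m k => um u l ^ d) (fun l => Matrix.diagonal (v l)) δ.1 *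
            Matrix.diagonal γ) a b = g l a b * (conj (v l a) * δ.1 l a b) := fun a b => by
          rw [Matrix.mul_diagonal, SignB_dM_pow v hv1]
          linear_combination (g l a b * (conj (v l a) * δ.1 l a b)) * hv l b
        simp only [ImM, Matrix.smul_apply, Matrix.sub_apply, Matrix.conjTranspose_apply, e3,
          pow_one, dM_um, Matrix.diagonal_one, Matrix.mul_one, e2, SignB_A_fst, SignB_T_fst,
          RCLike.star_def, hgc l a b, map_add, map_sub, map_mul, map_div₀, Complex.conj_conj,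
          map_ofNat]
        congr 1
        ring
    · intro l
      rw [e1, one_pow, Matrix.diagonal_one, Matrix.one_mul]
    · intro l
      rw [e, Matrix.diagonal_pow, Matrix.diagonal_mul_diagonal, ← Matrix.diagonal_one]
      congr 1
      funext c
      exact hv l c
  refine ⟨LinearMap.det (SignB_A n h ∘ₗ SignB_A n h) *
      LinearMap.det ((SignB_T n fun l a => conj (v l a)).restrictScalars ℝ),
    mul_pos (det_pos_of_sq _ (SignB_A_inj hhc hh0)) (det_pos_of_complex _ (SignB_T_inj hv0)), ?_⟩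
  rw [ContinuousLinearMap.det, ContinuousLinearMap.det, key, LinearMap.det_comp,
    LinearMap.det_comp (SignB_A n h ∘ₗ SignB_A n h), mul_comm]

end

end Crest.Agent.R174
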