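import Mathlib

/-!
# Row 174, trace part: definitions.  FROZEN.

`TrData A` is a positive trace on a `*`-algebra, `T.Φ r y = -∑ r^m/m · Im τ(y^m)` is the Abel-regularised
"sum of `arg (1 - λ)` over the spectrum of `y`".  `trG X G` is the canonical trace on matrices over `ℂ[G]`.
-/

set_option autoImplicit false

open Matrix Finset
open scoped ComplexConjugate

namespace Crest.Agent.R174

noncomputable section

/-- a positive trace -/
structure TrData (A : Type*) [Ring A] [StarRing A] [Algebra ℂ A] where
  τ : A →ₗ[ℂ] ℂ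
  comm : ∀ a b, τ (a * b) = τ (b * a)
  map_star : ∀ a, τ (star a) = conj (τ a)
  pos : ∀ a, 0 ≤ (τ (star a * a)).re

/-- Abel-regularised argument -/
def TrData.Φ {A : Type*} [Ring A] [StarRing A] [Algebra ℂ A] (T : TrData A) (r : ℝ) (y : A) : ℝ :=
  -∑' j : ℕ, r ^ j / j * (T.τ (y ^ j)).im

section GA

variable {G : Type*} [Group G]

/-- the group algebra -/
abbrev GA (G : Type*) : Type _ := MonoidAlgebra ℂ G

instance instStarGA : Star (GA G) :=
  ⟨fun a => MonoidAlgebra.ofCoeff
    (Finsupp.mapRange conj (map_zero _) (Finsupp.equivMapDomain (Equiv.inv G) a.coeff))⟩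

@[simp] theorem GA.coeff_star (a : GA G) (g : G) : (star a).coeff g = conj (a.coeff g⁻¹) := rfl

@[simp] theorem GA.star_single (g : G) (c : ℂ) :
    star (MonoidAlgebra.single g c : GA G) = MonoidAlgebra.single g⁻¹ (conj c) := by
  classical
  ext h
  simp only [GA.coeff_star, MonoidAlgebra.coeff_single, Finsupp.single_apply]
  by_cases e : g = h⁻¹
  · simp [e]
  · have : ¬ g⁻¹ = h := fun h' => e (by simp [← h'])
    simp [e, this]

theorem GA.star_add' (a b : GA G) : star (a + b) = star a + star b := by
  ext h; simp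

instance instStarRingGA : StarRing (GA G) where
  star_involutive a := by ext h; simp
  star_add := GA.star_add'
  star_mul a b := by
    have h0 : star (0 : GA G) = 0 := by ext h; simp
    induction a using MonoidAlgebra.induction_linear with
    | zero => simp [h0]
    | add a a' ha ha' => rw [add_mul, GA.star_add', GA.star_add', ha, ha', mul_add]
    | single g c =>
      induction b using MonoidAlgebra.induction_linear with
      | zero => simp [h0]
      | add b b' hb hb' => rw [mul_add, GA.star_add', GA.star_add', hb, hb', add_mul]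
      | single h e => simp [mul_comm]

instance instStarModuleGA : StarModule ℂ (GA G) where
  star_smul c a := by ext h; simp

theorem GA.coeff_one_mul (a b : GA G) :
    (a * b).coeff 1 = a.coeff.sum fun g c => c * b.coeff g⁻¹ := by
  simpa using MonoidAlgebra.coeff_mul_apply_left a b 1

theorem GA.coeff_one_comm (a b : GA G) : (a * b).coeff 1 = (b * a).coeff 1 := by
  classical
  induction a using MonoidAlgebra.induction_linear with
  | zero => simp
  | add a a' ha ha' => simp [add_mul, mul_add, ha, ha']
  | single g c => simp [mul_comm]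

theorem GA.coeff_one_pos (a : GA G) : 0 ≤ ((star a * a).coeff 1).re := by
  rw [GA.coeff_one_comm, GA.coeff_one_mul, Finsupp.sum, Complex.re_sum]
  refine Finset.sum_nonneg fun g _ => ?_
  simp [Complex.mul_conj, Complex.normSq_nonneg]

variable {X : Type} [Fintype X] [DecidableEq X]

/-- the canonical trace on matrices over the group algebra -/
def trG (X : Type) [Fintype X] [DecidableEq X] (G : Type*) [Group G] :
    TrData (Matrix X X (GA G)) where
  τ :=
    { toFun := fun M => ∑ x, (M x x).coeff 1
      map_add' := fun M N => by simp [Finset.sum_add_distrib]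
      map_smul' := fun c M => by simp [Finset.mul_sum] }
  comm a b := by
    simp only [LinearMap.coe_mk, AddHom.coe_mk, Matrix.mul_apply, MonoidAlgebra.coeff_sum,
      Finsupp.coe_finsetSum, Finset.sum_apply]
    rw [Finset.sum_comm]
    exact Finset.sum_congr rfl fun x _ => Finset.sum_congr rfl fun y _ => GA.coeff_one_comm _ _
  map_star a := by simp [Matrix.star_apply]
  pos a := by
    simp only [LinearMap.coe_mk, AddHom.coe_mk, Matrix.mul_apply, MonoidAlgebra.coeff_sum,
      Finsupp.coe_finsetSum, Finset.sum_apply, Complex.re_sum, Matrix.star_apply]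
    exact Finset.sum_nonneg fun x _ => Finset.sum_nonneg fun y _ => GA.coeff_one_pos _

theorem trG_apply (M : Matrix X X (GA G)) : (trG X G).τ M = ∑ x, (M x x).coeff 1 := rfl

/-- scalar matrices -/
def emb (G : Type*) [Group G] : Matrix X X ℂ →ₐ[ℂ] Matrix X X (GA G) :=
  (Algebra.ofId ℂ (GA G)).mapMatrix

theorem emb_apply (M : Matrix X X ℂ) (p q : X) :
    emb G M p q = MonoidAlgebra.single 1 (M p q) := rfl

theorem emb_star (M : Matrix X X ℂ) : emb G Mᴴ = star (emb G M) := by
  ext1 p q
  simp [emb_apply, Matrix.star_apply]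

theorem trG_emb (M : Matrix X X ℂ) : (trG X G).τ (emb G M) = M.trace := by
  simp [trG_apply, emb_apply, Matrix.trace]

theorem trG_one : (trG X G).τ 1 = (Fintype.card X : ℂ) := by
  rw [← map_one (emb G), trG_emb]; simp

/-- the matrix of a map: `e_p ↦ e_(f p)` -/
def pm (f : X → X) : Matrix X X ℂ := Matrix.of fun q p => if q = f p then 1 else 0

/-- the twisted matching `e_p ↦ exp (i ε (pos (M p) - pos p)) e_(M p)` -/
def Mth (pos : X → ℕ) (M : X → X) (ε : ℝ) : Matrix X X ℂ :=
  Matrix.of fun q p =>
    if q = M p then Complex.exp (((ε * ((pos (M p) : ℝ) - pos p) : ℝ) : ℂ) * Complex.I) else 0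

/-- the diagonal matrix of the inverses of the group labels -/
def Gam (a : X → G) : Matrix X X (GA G) := Matrix.diagonal fun p => MonoidAlgebra.single (a p)⁻¹ 1

end GA

/-- letters: elements of `G`, and `t_l^{±1}` -/
abbrev Let (G : Type*) (m : ℕ) : Type _ := G ⊕ (Fin m × Bool)

/-- the free product -/
abbrev FP (G : Type*) [Group G] (m : ℕ) : Type _ := Monoid.Coprod G (FreeGroup (Fin m))

section Let

variable {G : Type*} [Group G] {m : ℕ}

def Let.inv : Let G m → Let G m
  | .inl a => .inl a⁻¹
  | .inr e => .inr (e.1, !e.2)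

/-- the `G`-part of a letter -/
def Let.gp : Let G m → G
  | .inl a => a
  | .inr _ => 1

/-- the value of a letter in the free product -/
def Let.ev : Let G m → FP G m
  | .inl a => Monoid.Coprod.inl a
  | .inr e => if e.2 then Monoid.Coprod.inr (FreeGroup.of e.1) else (Monoid.Coprod.inr (FreeGroup.of e.1))⁻¹

/-- exponent sums -/
def ex (G : Type*) [Group G] (m : ℕ) : FP G m →* Multiplicative (Fin m → ℤ) :=
  Monoid.Coprod.lift (1 : G →* Multiplicative (Fin m → ℤ))
    (FreeGroup.lift fun k => Multiplicative.ofAdd (Pi.single k 1))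

end Let

open Classical in
/-- A "bouquet of lollipops" spelling `g`: `K = 2 m k` discs, each a word `h w_i^{±1} h⁻¹` of length `2 s + L`
(stem of length `s`, relator of odd length `L`); `k` discs of each type `i` and sign. -/
structure Lolli {G : Type*} [Group G] (g : G) where
  m : ℕ
  k : ℕ
  d : ℕ
  s : ℕ
  L : ℕ
  K : ℕ
  hm : 0 < m
  hk : 0 < k
  hd : 0 < d
  hs : 0 < s
  hL : Odd L
  disc : Fin K ≃ Fin m × Fin k × Bool
  x : Fin K × Fin (2 * s + L) → Let G m
  y : Fin m → Bool → Fin (2 * s + L) → Let G m
  stem : ∀ D (j : Fin (2 * s + L)), ¬ (s ≤ j.val ∧ j.val < s + L) → x (D, j.rev) = (x (D, j)).inv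
  rel : ∀ D (j : Fin (2 * s + L)), s ≤ j.val ∧ j.val < s + L →
    x (D, j) = y (disc D).1 (disc D).2.2 j
  yinv : ∀ i b (j : Fin (2 * s + L)), s ≤ j.val ∧ j.val < s + L → y i (!b) j.rev = (y i b j).inv
  count : ∀ i l,
    (univ.filter fun j : Fin (2 * s + L) =>
      (s ≤ j.val ∧ j.val < s + L) ∧ y i true j = .inr (l, true)).card =
    (univ.filter fun j : Fin (2 * s + L) =>
      (s ≤ j.val ∧ j.val < s + L) ∧ y i false j = .inr (l, true)).card + if i = l then d else 0
  prod : (List.ofFn fun p : Fin (K * (2 * s + L)) => (x (finProdFinEquiv.symm p)).ev).prod =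
    Monoid.Coprod.inl g

/-- the Hermitian pairing `[[0, u], [uᴴ, 0]]` of positive and negative discs of the same type -/
def uu {K m k : ℕ} (disc : Fin K ≃ Fin m × Fin k × Bool) (u : Fin m → Matrix (Fin k) (Fin k) ℂ) :
    Matrix (Fin K) (Fin K) ℂ :=
  Matrix.of fun D' D =>
    if (disc D').1 = (disc D).1 then
      (if (disc D').2.2 = true ∧ (disc D).2.2 = false then u (disc D).1 (disc D').2.1 (disc D).2.1
       else if (disc D').2.2 = false ∧ (disc D).2.2 = true then
         (u (disc D).1)ᴴ (disc D').2.1 (disc D).2.1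
       else 0)
    else 0

/-- the reflection `j ↦ T - 1 - j` of the columns, combined with `U` on the relator columns -/
def Jm {K : ℕ} (s L : ℕ) (U : Matrix (Fin K) (Fin K) ℂ) :
    Matrix (Fin K × Fin (2 * s + L)) (Fin K × Fin (2 * s + L)) ℂ :=
  Matrix.of fun q p =>
    if q.2 = p.2.rev then
      (if s ≤ p.2.val ∧ p.2.val < s + L then U q.1 p.1 else if q.1 = p.1 then 1 else 0)
    else 0

/-- position in the word -/
def posn {K T : ℕ} (p : Fin K × Fin T) : ℕ := (finProdFinEquiv p : Fin (K * T)).val

/-- the cyclic shift of the positions -/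
def cyc (K T : ℕ) : Equiv.Perm (Fin K × Fin T) :=
  (finProdFinEquiv.trans (finRotate (K * T))).trans finProdFinEquiv.symm

end

end Crest.Agent.R174
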