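import Crest.Agent.R174.Faces

/-!
# Row 174: traces of the powers of a labelled permutation matrix

`φ = exp (iη) • (emb (pm c * Mth) * Gam a)` has `φ q p = if q = f p then lab p else 0`, `f = c * M`,
`lab p = single (a p)⁻¹ (exp (i (η + ε (pos (M p) - pos p))))`.  `f p = o` iff `pos (M p) + 1 = n`.  With
`vis p j = #{i < j | f^(i+1) p = o}`, induction on `j` gives `(φ^j) q p = if q = f^j p then
single ((γ (f^j p))⁻¹ * (g⁻¹)^(vis p j) * γ p) (exp (i (-(ε-η) j + ε (pos (f^j p) - pos p) + ε n vis p j))) else 0`
(at a wrap step `γ o = 1`, so `(a p')⁻¹ (γ p')⁻¹ = g⁻¹ = (γ o)⁻¹ g⁻¹`).  If `f^j p = p`: `vis = 0` off the cycle of `o`, and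
`vis = j / ℓ` on it (`ℓ ∣ j`; each block of `ℓ` consecutive iterates meets `o` exactly once: induction on `j / ℓ`).
-/

set_option autoImplicit false
set_option linter.unusedSectionVars false
set_option linter.unusedVariables false

open Matrix Finset
open scoped ComplexConjugate

namespace Crest.Agent.R174

noncomputable section

variable {X : Type} [Fintype X] [DecidableEq X] {G : Type*} [Group G] [DecidableEq G]

theorem WP_pow_apply {R : Type*} [Semiring R] (φ : Matrix X X R) (f : X → X) (lab : X → R)
    (hφ : ∀ q p, φ q p = if q = f p then lab p else 0) (L : ℕ → X → R) (h0 : ∀ p, L 0 p = 1)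
    (hs : ∀ j p, L (j + 1) p = lab (f^[j] p) * L j p) (j : ℕ) (q p : X) :
    (φ ^ j) q p = if q = f^[j] p then L j p else 0 := by
  induction j generalizing q with
  | zero => simp [Matrix.one_apply, h0]
  | succ j ih =>
    rw [pow_succ', Matrix.mul_apply]
    simp only [ih, mul_ite, mul_zero, Finset.sum_ite_eq', Finset.mem_univ, if_true, hφ,
      Function.iterate_succ_apply', hs, ite_mul, zero_mul]

/-- number of visits to `o` -/
def WP_vis (f : X → X) (o p : X) (j : ℕ) : ℕ := ∑ i ∈ range j, if f^[i + 1] p = o then 1 else 0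

theorem WP_vis_succ (f : X → X) (o p : X) (j : ℕ) :
    WP_vis f o p (j + 1) = WP_vis f o p j + if f (f^[j] p) = o then 1 else 0 := by
  rw [WP_vis, Finset.sum_range_succ, Function.iterate_succ_apply']
  rfl

theorem WP_vis_off (f : Equiv.Perm X) {o p : X} (h : ¬ f.SameCycle o p) (j : ℕ) :
    WP_vis f o p j = 0 := by
  refine Finset.sum_eq_zero fun i _ => if_neg fun h' => h (Equiv.Perm.SameCycle.symm ?_)
  exact ⟨((i + 1 : ℕ) : ℤ), by rw [zpow_natCast, Equiv.Perm.coe_pow]; exact h'⟩

theorem WP_vis_on (f : Equiv.Perm X) {o p : X} (h : f.SameCycle o p) (k : ℕ) :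
    WP_vis f o p (Function.minimalPeriod f p * k) = k := by
  have hl := (minimalPeriod_bounds f p).1
  set l := Function.minimalPeriod f p with hl'
  have hper : Function.IsPeriodicPt f l p := Function.isPeriodicPt_minimalPeriod f p
  have h1 : WP_vis f o p l = 1 := by
    obtain ⟨m, -, hm⟩ := h.symm.exists_pow_eq'
    rw [Equiv.Perm.coe_pow] at hm
    have h2 : f^[(m + (l - 1)) % l + 1] p = o := by
      rw [Function.iterate_succ_apply', hl', Function.iterate_mod_minimalPeriod_eq,
        ← Function.iterate_succ_apply' f, ← hl', show (m + (l - 1)).succ = m + l by omega,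
        Function.iterate_add_apply, hper.eq, hm]
    rw [WP_vis, Finset.sum_eq_single ((m + (l - 1)) % l), if_pos h2]
    · intro i hi hne
      refine if_neg fun h3 => hne ?_
      rw [← h2, Function.iterate_succ_apply', Function.iterate_succ_apply'] at h3
      exact Function.iterate_injOn_Iio_minimalPeriod (Finset.mem_range.1 hi) (Nat.mod_lt _ hl)
        (f.injective h3)
    · intro hn
      exact absurd (Finset.mem_range.2 (Nat.mod_lt _ hl)) hn
  induction k with
  | zero => rfl
  | succ k ih =>
    rw [Nat.mul_succ, WP_vis, Finset.sum_range_add]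
    refine congrArg₂ (· + ·) ih (Eq.trans (Finset.sum_congr rfl fun i _ => ?_) h1)
    rw [show l * k + i + 1 = i + 1 + l * k by ring, Function.iterate_add_apply,
      (hper.mul_const k).eq]

theorem trace_pow (pos : X → ℕ) (hinj : Function.Injective pos) (hlt : ∀ p, pos p < Fintype.card X)
    (c : Equiv.Perm X) (hc : ∀ p, pos (c p) = (pos p + 1) % Fintype.card X) (o : X) (ho : pos o = 0)
    (M : Equiv.Perm X) (a γ : X → G) (g : G) (hγ0 : γ o = 1)
    (hγ : ∀ p, γ p * a p = if c (M p) = o then g else γ (c (M p))) (ε η : ℝ) (j : ℕ) :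
    (trG X G).τ ((Complex.exp (η * Complex.I) • (emb G (pm c * Mth pos M ε) * Gam a)) ^ j) =
      ∑ p, if Function.minimalPeriod (c * M) p ∣ j then
        (if (c * M).SameCycle o p then
          Complex.exp (((ε * Fintype.card X - (ε - η) * Function.minimalPeriod (c * M) p : ℝ) : ℂ) *
            Complex.I) ^ (j / Function.minimalPeriod (c * M) p) *
            (if g ^ (j / Function.minimalPeriod (c * M) p) = 1 then 1 else 0)
        else Complex.exp (-((((ε - η) * Function.minimalPeriod (c * M) p : ℝ) : ℂ) * Complex.I)) ^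
          (j / Function.minimalPeriod (c * M) p))
      else 0 := by
  set n := Fintype.card X with hn
  set f := c * M with hf
  have hfa : ∀ p, c (M p) = f p := fun p => rfl
  have hpos : ∀ p, (pos (M p) : ℝ) + 1 = pos (f p) + n * ((if f p = o then 1 else 0 : ℕ) : ℝ) := by
    intro p
    have h1 := hc (M p)
    have h2 := hlt (M p)
    rw [hfa] at h1
    rcases Nat.lt_or_ge (pos (M p) + 1) n with h3 | h3
    · rw [Nat.mod_eq_of_lt h3] at h1
      rw [if_neg fun h4 => by rw [h4, ho] at h1; omega, h1]
      simp
    · have h4 : pos (M p) + 1 = n := by omega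
      rw [h4, Nat.mod_self, ← ho] at h1
      rw [if_pos (hinj h1), h1, ho, ← h4]
      simp
  have key := WP_pow_apply
    (Complex.exp (η * Complex.I) • (emb G (pm c * Mth pos M ε) * Gam a)) f
    (fun p => MonoidAlgebra.single (a p)⁻¹
      (Complex.exp (((η + ε * ((pos (M p) : ℝ) - pos p) : ℝ) : ℂ) * Complex.I))) ?_
    (fun j p => MonoidAlgebra.single ((γ (f^[j] p))⁻¹ * g⁻¹ ^ WP_vis f o p j * γ p)
      (Complex.exp (((-((ε - η) * j) + ε * ((pos (f^[j] p) : ℝ) - pos p) +
        ε * n * WP_vis f o p j : ℝ) : ℂ) * Complex.I))) ?_ ?_ j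
  · rw [trG_apply]
    refine Finset.sum_congr rfl fun p _ => ?_
    rw [key]
    have hl := (minimalPeriod_bounds f p).1
    by_cases hd : Function.minimalPeriod f p ∣ j
    · have h1 : f^[j] p = p := (Function.isPeriodicPt_iff_minimalPeriod_dvd.2 hd).eq
      obtain ⟨k, rfl⟩ := hd
      rw [if_pos h1.symm, if_pos (dvd_mul_right _ _), Nat.mul_div_cancel_left _ hl, h1,
        MonoidAlgebra.coeff_single, Finsupp.single_apply, ← Complex.exp_nat_mul,
        ← Complex.exp_nat_mul]
      by_cases hs : f.SameCycle o p
      · rw [if_pos hs, WP_vis_on f hs, mul_ite, mul_one, mul_zero]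
        refine if_congr ?_ ?_ rfl
        · rw [mul_assoc, inv_mul_eq_one, right_eq_mul, inv_pow, inv_eq_one]
        · congr 1
          push_cast
          ring
      · rw [if_neg hs, WP_vis_off f hs, if_pos (by simp)]
        congr 1
        push_cast
        ring
    · rw [if_neg hd, if_neg fun h => hd (Function.isPeriodicPt_iff_minimalPeriod_dvd.1 h.symm)]
      rfl
  · intro q p
    have h1 : (pm c * Mth pos M ε) q p = if q = f p then
        Complex.exp (((ε * ((pos (M p) : ℝ) - pos p) : ℝ) : ℂ) * Complex.I) else 0 := by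
      simp only [Matrix.mul_apply, pm, Mth, Matrix.of_apply, mul_ite, mul_zero,
        Finset.sum_ite_eq', Finset.mem_univ, if_true, ite_mul, one_mul, zero_mul, hfa]
    rw [Matrix.smul_apply, Gam, Matrix.mul_diagonal, emb_apply, h1,
      MonoidAlgebra.single_mul_single, MonoidAlgebra.smul_single, one_mul, mul_one]
    split_ifs
    · rw [smul_eq_mul, ← Complex.exp_add]
      congr 2
      push_cast
      ring
    · simp
  · intro p
    simp [WP_vis, MonoidAlgebra.one_def]
  · intro j p
    have h1 := hγ (f^[j] p)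
    have h2 := hpos (f^[j] p)
    rw [hfa] at h1
    simp only [MonoidAlgebra.single_mul_single, ← Complex.exp_add, WP_vis_succ,
      Function.iterate_succ_apply']
    congr 1
    · rw [← mul_assoc, ← mul_assoc, ← _root_.mul_inv_rev, h1]
      split_ifs with h3
      · rw [h3, hγ0, inv_one, one_mul, pow_succ']
      · rw [add_zero]
    · rw [← add_mul, ← Complex.ofReal_add]
      congr 3
      push_cast at h2 ⊢
      linear_combination (-ε) * h2

end

end Crest.Agent.R174
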