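import Crest.Agent.R174.Refl

/-!
# Row 174: the zeros of the model

`Pm_p0`: an entry `(s, s')` with `s < j` (or `s' < j`) contains the factor `Qf (node s) s s' = 0` (`Qf_node`).
`zeros`: let `T j` be `blk n y 1 * diagonal (if k ≤ s ∧ s < j then -1 else 1)`.  Downward induction on `j` from `k + n` to `k`:
`Rp z j = T j`.  Step: `Rp z j` fixes the basis vector `e_j` (all `P_i`, `i < j`, have zero column `j`), so column `j` of
`Rp z (j+1) = rf z j * Rp z j` is `e_j + c_j P_j e_j = -e_j`: `c_j P_jj = -2`, `P_aj = 0` for `a ≠ j`.  By `Pm_minor`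
all other entries of `P_j` vanish (`P_ab P_jj = P_aj P_jb`), so `rf z j = 1 - 2 E_jj` is an involution and
`Rp z j = rf z j * T (j+1) = T j`.  `P_aa = 0` gives for each `(j,a) : PP` some `β (j,a) = (j,b)` with
`p (j,b) = node a` (`Finset.prod_eq_zero_iff`, `Qf_self_eq_zero`); `β` is injective (`node_injective`), hence a
permutation; `σ = β⁻¹`; `c j = -2 / trace` with `Pm_perm`.  At the end `1 = Rp z k = blk n y 1`.
-/

set_option autoImplicit false
set_option linter.unusedSectionVars false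
set_option linter.unusedVariables false

open Matrix Finset
open scoped ComplexConjugate

namespace Crest.Agent.R174

noncomputable section

variable {k n : ℕ}

theorem Zeros_diag {I : Type*} [Fintype I] [DecidableEq I] {P : Matrix I I ℂ} {j : I}
    (h : ∀ a b, (a ≠ j ∨ b ≠ j) → P a b = 0) :
    P = Matrix.diagonal fun s => if s = j then P.trace else 0 := by
  have htr : P.trace = P j j := by
    unfold Matrix.trace
    rw [Finset.sum_eq_single j]
    · rfl
    · intro b _ hb
      exact h b b (Or.inl hb)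
    · simp
  ext a b
  by_cases ha : a = j
  · by_cases hb : b = j
    · subst ha; subst hb
      simp [htr]
    · rw [h a b (Or.inr hb), Matrix.diagonal_apply_ne]
      rintro rfl
      exact hb ha
  · rw [h a b (Or.inl ha), Matrix.diagonal_apply]
    split_ifs <;> rfl

theorem Zeros_rf {z : RP k n} {j : CC k n}
    (h : ∀ a b, (a ≠ j.1 ∨ b ≠ j.1) → Pm z.1 j a b = 0) (hc : z.2 j * (Pm z.1 j).trace = -2) :
    rf z j = Matrix.diagonal fun s => if s = j.1 then (-1 : ℂ) else 1 := by
  unfold rf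
  rw [Zeros_diag h]
  ext a b
  rw [Matrix.add_apply, Matrix.smul_apply, Matrix.diagonal_apply, Matrix.diagonal_apply,
    Matrix.one_apply, smul_eq_mul]
  by_cases hab : a = b
  · by_cases ha : a = j.1
    · simp only [if_pos hab, if_pos ha, hc]
      norm_num
    · simp [if_pos hab, if_neg ha]
  · simp [if_neg hab]

theorem Zeros_p0_entry (j : CC k n) (a b : Fin (k + n)) (hab : a ≠ j.1 ∨ b ≠ j.1) :
    Pm (p0 k n) j a b = 0 := by
  unfold Pm
  rw [Matrix.of_apply]
  split_ifs with hle
  · rcases hab with ha | hb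
    · have hlt : a < j.1 := lt_of_le_of_ne hle.1 ha
      refine Finset.prod_eq_zero (i := ⟨(j.1, a), j.2, hlt⟩) (by simp) ?_
      simp only [p0]
      rw [Qf_node]
      simp
    · have hlt : b < j.1 := lt_of_le_of_ne hle.2 hb
      refine Finset.prod_eq_zero (i := ⟨(j.1, b), j.2, hlt⟩) (by simp) ?_
      simp only [p0]
      rw [Qf_node]
      simp
  · rfl

theorem Zeros_trace_p0 (j : CC k n) : ∃ t : ℝ, 0 < t ∧ (Pm (p0 k n) j).trace = (t : ℂ) := by
  obtain ⟨h1, h2⟩ := Pm_trace_pos (p := p0 k n) (fun q => sph_node _) j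
  refine ⟨_, h1, ?_⟩
  apply Complex.ext
  · simp
  · simp [h2]

theorem Pm_p0 (j : CC k n) :
    Pm (p0 k n) j = Matrix.diagonal fun s => if s = j.1 then (Pm (p0 k n) j).trace else 0 := by
  exact Zeros_diag (Zeros_p0_entry j)

theorem con_z0 : Con (z0 k n) := by
  refine ⟨fun q => sph_node _, fun j => ?_⟩
  obtain ⟨t, ht, h⟩ := Zeros_trace_p0 j
  unfold circ
  simp only [z0, c0, h]
  have e : (-2 / (t : ℂ)) = ((-2 / t : ℝ) : ℂ) := by push_cast; rfl
  rw [e, Complex.normSq_ofReal, Complex.ofReal_re, Complex.ofReal_re]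
  field_simp
  ring

theorem rf_z0 (j : CC k n) :
    rf (z0 k n) j = Matrix.diagonal fun s => if s = j.1 then (-1 : ℂ) else 1 := by
  refine Zeros_rf (Zeros_p0_entry j) ?_
  obtain ⟨t, ht, h⟩ := Zeros_trace_p0 j
  simp only [z0, c0, h]
  have : (t : ℂ) ≠ 0 := by exact_mod_cast ht.ne'
  field_simp

theorem Rp_z0 (j : ℕ) :
    Rp (z0 k n) j = Matrix.diagonal fun s => if k ≤ s.val ∧ s.val < j then (-1 : ℂ) else 1 := by
  induction j with
  | zero =>
    simp [Rp]
  | succ j ih =>
    rw [Rp, ih]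
    split_ifs with h
    · rw [rf_z0, Matrix.diagonal_mul_diagonal]
      congr 1
      funext s
      simp only [Fin.ext_iff]
      by_cases hs : s.val = j
      · rw [if_pos hs, if_neg (by omega), if_pos (by omega)]
        ring
      · rw [if_neg hs, one_mul]
        by_cases h2 : k ≤ s.val ∧ s.val < j
        · rw [if_pos h2, if_pos (by omega)]
        · rw [if_neg h2, if_neg (by omega)]
    · rw [Matrix.one_mul]
      congr 1
      funext s
      have := s.2
      by_cases h2 : k ≤ s.val ∧ s.val < j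
      · rw [if_pos h2, if_pos (by omega)]
      · rw [if_neg h2, if_neg (by omega)]

theorem blk_one_neg_one : blk n (1 : Matrix (Fin k) (Fin k) ℂ) (-1) =
    Matrix.diagonal fun s => if k ≤ s.val then (-1 : ℂ) else 1 := by
  ext a b
  unfold blk
  rw [Matrix.of_apply, Matrix.diagonal_apply]
  by_cases h : a.val < k ∧ b.val < k
  · rw [dif_pos h, Matrix.one_apply]
    by_cases hab : a = b
    · subst hab
      rw [if_pos rfl, if_pos rfl, if_neg (by omega)]
    · rw [if_neg hab, if_neg]
      intro h'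
      apply hab
      exact Fin.ext (by simpa using congrArg Fin.val h')
  · rw [dif_neg h]
    by_cases hab : a = b
    · subst hab
      rw [if_pos rfl, if_pos rfl, if_pos (by omega)]
    · rw [if_neg hab, if_neg hab]

theorem RR_z0 : RR (z0 k n) = blk n 1 (-1) := by
  rw [blk_one_neg_one, RR, Rp_z0]
  congr 1
  funext s
  have := s.2
  by_cases h2 : k ≤ s.val
  · rw [if_pos h2, if_pos ⟨h2, this⟩]
  · rw [if_neg h2, if_neg (by omega)]

/-- `Rp z i` fixes the basis vector `e_j` when `i ≤ j` -/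
theorem Zeros_col (z : RP k n) (j : Fin (k + n)) (i : ℕ) (hi : i ≤ j.val) (a : Fin (k + n)) :
    Rp z i a j = (1 : Matrix (Fin (k + n)) (Fin (k + n)) ℂ) a j := by
  induction i generalizing a with
  | zero => rfl
  | succ i ih =>
    rw [Rp, Matrix.mul_apply]
    simp only [ih (by omega)]
    rw [← Matrix.mul_apply, Matrix.mul_one]
    split_ifs with h
    · unfold rf Pm
      rw [Matrix.add_apply, Matrix.smul_apply, Matrix.of_apply, if_neg, smul_zero, add_zero]
      rintro ⟨-, h2⟩
      have : j.val ≤ i := h2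
      omega
    · rfl

theorem Zeros_Rp_low (z : RP k n) (i : ℕ) (hi : i ≤ k) : Rp z i = 1 := by
  induction i with
  | zero => rfl
  | succ i ih =>
    rw [Rp, ih (by omega), dif_neg (by omega), Matrix.one_mul]

/-- the expected partial products -/
def Zeros_T (n : ℕ) (y : Matrix (Fin k) (Fin k) ℂ) (j : ℕ) : Matrix (Fin (k + n)) (Fin (k + n)) ℂ :=
  blk n y 1 * Matrix.diagonal fun s => if k ≤ s.val ∧ s.val < j then (-1 : ℂ) else 1

theorem Zeros_T_top (y : Matrix (Fin k) (Fin k) ℂ) : Zeros_T n y (k + n) = blk n y (-1) := by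
  have : (Matrix.diagonal fun s : Fin (k + n) => if k ≤ s.val ∧ s.val < k + n then (-1 : ℂ) else 1) =
      blk n (1 : Matrix (Fin k) (Fin k) ℂ) (-1) := by
    rw [← RR_z0, RR, Rp_z0]
  rw [Zeros_T, this, blk_mul, Matrix.mul_one, one_mul]

theorem Zeros_T_bot (y : Matrix (Fin k) (Fin k) ℂ) : Zeros_T n y k = blk n y 1 := by
  have : (Matrix.diagonal fun s : Fin (k + n) => if k ≤ s.val ∧ s.val < k then (-1 : ℂ) else 1) = 1 := by
    rw [← Rp_z0, Zeros_Rp_low _ _ le_rfl]
  rw [Zeros_T, this, Matrix.mul_one]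

theorem Zeros_T_step (y : Matrix (Fin k) (Fin k) ℂ) (j : CC k n) :
    (Matrix.diagonal fun s => if s = j.1 then (-1 : ℂ) else 1) * Zeros_T n y (j.1.val + 1) =
      Zeros_T n y j.1.val := by
  have hj := j.2
  ext a b
  simp only [Zeros_T, Matrix.diagonal_mul, Matrix.mul_diagonal, blk, Matrix.of_apply, Fin.ext_iff]
  by_cases h : a.val < k ∧ b.val < k
  · rw [dif_pos h, if_neg (by omega), if_neg (by omega), if_neg (by omega), one_mul]
  · rw [dif_neg h]
    by_cases hab : a.val = b.val
    · rw [if_pos hab]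
      by_cases ha : a.val = j.1.val
      · rw [if_pos ha, if_pos (by omega), if_neg (by omega)]
        ring
      · rw [if_neg ha, one_mul]
        by_cases h2 : k ≤ b.val ∧ b.val < j.1.val
        · rw [if_pos h2, if_pos (by omega)]
        · rw [if_neg h2, if_neg (by omega)]
    · rw [if_neg hab]
      simp

theorem Zeros_step {z : RP k n} (hz : Con z) (y : Matrix (Fin k) (Fin k) ℂ) (j : CC k n)
    (h : Rp z (j.1.val + 1) = Zeros_T n y (j.1.val + 1)) :
    (∀ a b, (a ≠ j.1 ∨ b ≠ j.1) → Pm z.1 j a b = 0) ∧ z.2 j * (Pm z.1 j).trace = -2 ∧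
      Rp z j.1.val = Zeros_T n y j.1.val := by
  have hj := j.2
  have hR : Rp z (j.1.val + 1) = rf z j * Rp z j.1.val := by
    rw [Rp, dif_pos ⟨j.1.2, j.2⟩]
  have hcol : ∀ a, (1 : Matrix (Fin (k + n)) (Fin (k + n)) ℂ) a j.1 + z.2 j * Pm z.1 j a j.1 =
      -(1 : Matrix (Fin (k + n)) (Fin (k + n)) ℂ) a j.1 := by
    intro a
    have h1 : Rp z (j.1.val + 1) a j.1 = rf z j a j.1 := by
      rw [hR, Matrix.mul_apply]
      simp only [Zeros_col z j.1 j.1.val le_rfl]
      rw [← Matrix.mul_apply, Matrix.mul_one]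
    have h2 : Zeros_T n y (j.1.val + 1) a j.1 =
        -(1 : Matrix (Fin (k + n)) (Fin (k + n)) ℂ) a j.1 := by
      simp only [Zeros_T, Matrix.mul_diagonal, blk, Matrix.of_apply]
      rw [dif_neg (by omega), if_pos (show k ≤ j.1.val ∧ j.1.val < j.1.val + 1 by omega),
        Matrix.one_apply]
      ring
    rw [← h2, ← h, h1]
    rfl
  have hjj : z.2 j * Pm z.1 j j.1 j.1 = -2 := by
    have := hcol j.1
    rw [Matrix.one_apply_eq] at this
    linear_combination this
  have hc0 : z.2 j ≠ 0 := by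
    intro h0
    rw [h0] at hjj
    norm_num at hjj
  have hP0 : Pm z.1 j j.1 j.1 ≠ 0 := by
    intro h0
    rw [h0] at hjj
    norm_num at hjj
  have haj : ∀ a, a ≠ j.1 → Pm z.1 j a j.1 = 0 := by
    intro a ha
    have := hcol a
    rw [Matrix.one_apply_ne ha, zero_add, neg_zero] at this
    exact (mul_eq_zero.mp this).resolve_left hc0
  have hjb : ∀ b, b ≠ j.1 → Pm z.1 j j.1 b = 0 := by
    intro b hb
    rw [← Pm_conjTranspose, Matrix.conjTranspose_apply, haj b hb, star_zero]
  have hall : ∀ a b, (a ≠ j.1 ∨ b ≠ j.1) → Pm z.1 j a b = 0 := by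
    intro a b hab
    have hm := Pm_minor hz.1 j a b j.1 j.1
    have : Pm z.1 j a j.1 * Pm z.1 j j.1 b = 0 := by
      rcases hab with ha | hb
      · rw [haj a ha, zero_mul]
      · rw [hjb b hb, mul_zero]
    rw [this] at hm
    exact (mul_eq_zero.mp hm).resolve_right hP0
  have htr : z.2 j * (Pm z.1 j).trace = -2 := by
    have := congrFun (congrFun (Zeros_diag hall) j.1) j.1
    rw [Matrix.diagonal_apply_eq, if_pos rfl] at this
    rw [← this, hjj]
  refine ⟨hall, htr, ?_⟩
  rw [← Zeros_T_step, ← h, hR, Zeros_rf hall htr, ← Matrix.mul_assoc, Matrix.diagonal_mul_diagonal]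
  have : (Matrix.diagonal fun s : Fin (k + n) =>
      (if s = j.1 then (-1 : ℂ) else 1) * (if s = j.1 then (-1 : ℂ) else 1)) = 1 := by
    rw [← Matrix.diagonal_one]
    congr 1
    funext s
    split_ifs <;> norm_num
  rw [this, Matrix.one_mul]

theorem Zeros_all {z : RP k n} (hz : Con z) {y : Matrix (Fin k) (Fin k) ℂ}
    (h : RR z = blk n y (-1)) (i : ℕ) (hi : i ≤ n) :
    Rp z (k + n - i) = Zeros_T n y (k + n - i) := by
  induction i with
  | zero =>
    rw [Nat.sub_zero, Zeros_T_top]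
    exact h
  | succ i ih =>
    have h1 := ih (by omega)
    have e : k + n - i = k + n - (i + 1) + 1 := by omega
    rw [e] at h1
    exact (Zeros_step hz y ⟨⟨k + n - (i + 1), by omega⟩, by simp only; omega⟩ h1).2.2

theorem zeros {z : RP k n} (hz : Con z) {y : Matrix (Fin k) (Fin k) ℂ}
    (h : RR z = blk n y (-1)) :
    y = 1 ∧ ∃ σ : Equiv.Perm (PP k n), (∀ q, (σ q).1.1 = q.1.1) ∧ z = (p0 k n ∘ σ, c0 k n) := by
  have hstep : ∀ j : CC k n, (∀ a b, (a ≠ j.1 ∨ b ≠ j.1) → Pm z.1 j a b = 0) ∧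
      z.2 j * (Pm z.1 j).trace = -2 := by
    intro j
    have hj := j.2
    have hj' := j.1.2
    have h1 := Zeros_all hz h (k + n - (j.1.val + 1)) (by omega)
    have e : k + n - (k + n - (j.1.val + 1)) = j.1.val + 1 := by omega
    rw [e] at h1
    exact ⟨(Zeros_step hz y j h1).1, (Zeros_step hz y j h1).2.1⟩
  constructor
  · have h1 := Zeros_all hz h n le_rfl
    rw [Nat.add_sub_cancel, Zeros_T_bot, Zeros_Rp_low _ _ le_rfl, ← blk_one n] at h1
    exact (blk_left_inj n h1).symm
  · have hex : ∀ q : PP k n, ∃ b : PP k n, b.1.1 = q.1.1 ∧ z.1 b = node q.1.2 := by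
      intro q
      have h0 := (hstep ⟨q.1.1, q.2.1⟩).1 q.1.2 q.1.2 (Or.inl q.2.2.ne)
      unfold Pm at h0
      rw [Matrix.of_apply, if_pos ⟨q.2.2.le, q.2.2.le⟩, Finset.prod_eq_zero_iff] at h0
      obtain ⟨b, hb, hb0⟩ := h0
      exact ⟨b, (Finset.mem_filter.mp hb).2, (Qf_self_eq_zero (hz.1 b) _).mp hb0⟩
    choose β hβ1 hβ2 using hex
    have hinj : Function.Injective β := by
      intro q q' hq
      apply Subtype.ext
      apply Prod.ext
      · rw [← hβ1 q, ← hβ1 q', hq]
      · apply Fin.ext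
        apply node_injective
        rw [← hβ2 q, ← hβ2 q', hq]
    let e : Equiv.Perm (PP k n) := Equiv.ofBijective β (Finite.injective_iff_bijective.mp hinj)
    have he : ∀ q, β (e.symm q) = q := fun q => e.apply_symm_apply q
    have hσ : ∀ q, (e.symm q).1.1 = q.1.1 := by
      intro q
      rw [← hβ1 (e.symm q), he]
    have hp : z.1 = p0 k n ∘ e.symm := by
      funext q
      have := hβ2 (e.symm q)
      rw [he] at this
      exact this
    refine ⟨e.symm, hσ, Prod.ext hp ?_⟩
    funext j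
    have h2 := (hstep j).2
    rw [hp, Pm_perm _ _ hσ] at h2
    obtain ⟨t, ht, htr⟩ := Zeros_trace_p0 j
    have : (t : ℂ) ≠ 0 := by exact_mod_cast ht.ne'
    show z.2 j = -2 / (Pm (p0 k n) j).trace
    rw [htr] at h2 ⊢
    rw [eq_div_iff this, h2]

end

end Crest.Agent.R174
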